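import Mathlib

/-!
Flat bump functions and their periodic rescaled profiles.
-/

open Real Set Filter Topology

namespace Vale.Agent.P113

/-- The flat bump `exp (-c / (s (1 - s)))` on `(0, 1)`, zero elsewhere. -/
noncomputable def bump (c : ℕ) (s : ℝ) : ℝ := expNegInvGlue (s * (1 - s) / c)

lemma bump_contDiff (c : ℕ) : ContDiff ℝ (⊤ : ℕ∞) (bump c) := by
  unfold bump
  exact expNegInvGlue.contDiff.comp (by fun_prop)

lemma bump_of_mem {c : ℕ} (hc : 0 < c) {s : ℝ} (h0 : 0 < s) (h1 : s < 1) :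
    bump c s = exp (-((c : ℝ) / (s * (1 - s)))) := by
  have hc' : (0 : ℝ) < c := by exact_mod_cast hc
  have hD : 0 < s * (1 - s) := mul_pos h0 (by linarith)
  unfold bump expNegInvGlue
  rw [if_neg (not_le.mpr (div_pos hD hc')), inv_div]

lemma bump_eq_zero {c : ℕ} {s : ℝ} (h : s ≤ 0 ∨ 1 ≤ s) : bump c s = 0 := by
  unfold bump
  apply expNegInvGlue.zero_of_nonpos
  apply div_nonpos_of_nonpos_of_nonneg _ (Nat.cast_nonneg c)
  rcases h with h | h
  · exact mul_nonpos_of_nonpos_of_nonneg h (by linarith [h])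
  · exact mul_nonpos_of_nonneg_of_nonpos (by linarith) (by linarith)

lemma bump_nonneg (c : ℕ) (s : ℝ) : 0 ≤ bump c s := expNegInvGlue.nonneg _

lemma bump_pos {c : ℕ} (hc : 0 < c) {s : ℝ} (h0 : 0 < s) (h1 : s < 1) : 0 < bump c s := by
  rw [bump_of_mem hc h0 h1]; exact exp_pos _

lemma bump_symm (c : ℕ) (s : ℝ) : bump c (1 - s) = bump c s := by
  unfold bump; congr 1; ring

lemma bump_half : bump 1 (1 / 2) = exp (-4) := by
  rw [bump_of_mem one_pos (by norm_num) (by norm_num)]; norm_num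

lemma bump_two_eq_sq (s : ℝ) : bump 2 s = bump 1 s * bump 1 s := by
  by_cases h : 0 < s ∧ s < 1
  · rw [bump_of_mem (by norm_num) h.1 h.2, bump_of_mem one_pos h.1 h.2, ← exp_add]
    congr 1
    push_cast
    ring
  · have h' : s ≤ 0 ∨ 1 ≤ s := by
      by_contra hh; push Not at hh; exact h hh
    rw [bump_eq_zero h', bump_eq_zero h']; simp

lemma iteratedDeriv_bump_contDiff (c k : ℕ) : ContDiff ℝ (⊤ : ℕ∞) (iteratedDeriv k (bump c)) := by
  rw [iteratedDeriv_eq_iterate]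
  exact ContDiff.iterate_deriv k (bump_contDiff c)

lemma iteratedDeriv_bump_continuous (c k : ℕ) : Continuous (iteratedDeriv k (bump c)) :=
  (iteratedDeriv_bump_contDiff c k).continuous

lemma hasDerivAt_iteratedDeriv_bump (c k : ℕ) (s : ℝ) :
    HasDerivAt (iteratedDeriv k (bump c)) (iteratedDeriv (k + 1) (bump c) s) s := by
  rw [iteratedDeriv_succ]
  exact ((iteratedDeriv_bump_contDiff c k).differentiable (by simp) s).hasDerivAt

lemma iteratedDeriv_bump_eq_zero (c k : ℕ) {s : ℝ} (h : s ≤ 0 ∨ 1 ≤ s) :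
    iteratedDeriv k (bump c) s = 0 := by
  have hopen : ∀ t : ℝ, (t < 0 ∨ 1 < t) → iteratedDeriv k (bump c) t = 0 := by
    intro t ht
    have hev : bump c =ᶠ[𝓝 t] fun _ => 0 := by
      rcases ht with ht | ht
      · filter_upwards [Iio_mem_nhds ht] with r hr
        exact bump_eq_zero (Or.inl (le_of_lt hr))
      · filter_upwards [Ioi_mem_nhds ht] with r hr
        exact bump_eq_zero (Or.inr (le_of_lt hr))
    rw [hev.iteratedDeriv_eq k]
    simp
  have hclosed : IsClosed {t : ℝ | iteratedDeriv k (bump c) t = 0} :=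
    isClosed_eq (iteratedDeriv_bump_continuous c k) continuous_const
  rcases h with h | h
  · have hsub : Iio (0 : ℝ) ⊆ {t : ℝ | iteratedDeriv k (bump c) t = 0} :=
      fun t ht => hopen t (Or.inl ht)
    have := hclosed.closure_subset_iff.mpr hsub
    rw [closure_Iio] at this
    exact this h
  · have hsub : Ioi (1 : ℝ) ⊆ {t : ℝ | iteratedDeriv k (bump c) t = 0} :=
      fun t ht => hopen t (Or.inr ht)
    have := hclosed.closure_subset_iff.mpr hsub
    rw [closure_Ioi] at this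
    exact this h

lemma exists_bumpBd (c k : ℕ) : ∃ D : ℝ, 0 ≤ D ∧ ∀ s, |iteratedDeriv k (bump c) s| ≤ D := by
  have hcomp : IsCompact (Icc (0 : ℝ) 1) := isCompact_Icc
  obtain ⟨D, hD⟩ := hcomp.exists_bound_of_continuousOn
    (iteratedDeriv_bump_continuous c k).continuousOn
  refine ⟨max D 0, le_max_right _ _, fun s => ?_⟩
  by_cases hs : s ∈ Icc (0 : ℝ) 1
  · exact le_trans (hD s hs) (le_max_left _ _)
  · have h' : s ≤ 0 ∨ 1 ≤ s := by
      by_contra hh
      push Not at hh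
      exact hs ⟨hh.1.le, hh.2.le⟩
    rw [iteratedDeriv_bump_eq_zero c k h']
    simp

/-- A uniform bound for the `k`-th derivative of `bump c`. -/
noncomputable def bumpBd (c k : ℕ) : ℝ := Classical.choose (exists_bumpBd c k)

lemma bumpBd_nonneg (c k : ℕ) : 0 ≤ bumpBd c k := (Classical.choose_spec (exists_bumpBd c k)).1

lemma abs_iteratedDeriv_bump_le (c k : ℕ) (s : ℝ) : |iteratedDeriv k (bump c) s| ≤ bumpBd c k :=
  (Classical.choose_spec (exists_bumpBd c k)).2 s

/-- The periodic profile: the `k`-th derivative of `bump c` at `Λ * fract y - 1`. For `4 ≤ Λ` it is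
smooth, 1-periodic and supported in `fract y ∈ [1/Λ, 2/Λ]`. -/
noncomputable def prof (c k : ℕ) (Λ y : ℝ) : ℝ := iteratedDeriv k (bump c) (Λ * Int.fract y - 1)

lemma prof_periodic (c k : ℕ) (Λ y : ℝ) (n : ℤ) : prof c k Λ (y + n) = prof c k Λ y := by
  unfold prof; rw [Int.fract_add_intCast]

lemma abs_prof_le (c k : ℕ) (Λ y : ℝ) : |prof c k Λ y| ≤ bumpBd c k :=
  abs_iteratedDeriv_bump_le c k _

lemma prof_eq_local (c k : ℕ) {Λ : ℝ} (hΛ : 4 ≤ Λ) {y : ℝ} {m : ℤ} (h1 : (m : ℝ) - 1 / 2 < y)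
    (h2 : y < m + 1) : prof c k Λ y = iteratedDeriv k (bump c) (Λ * (y - m) - 1) := by
  unfold prof
  by_cases hm : (m : ℝ) ≤ y
  · have hfl : ⌊y⌋ = m := by
      rw [Int.floor_eq_iff]; exact ⟨hm, h2⟩
    have hfr : Int.fract y = y - m := by
      rw [Int.fract, hfl]
    rw [hfr]
  · push Not at hm
    have hfl : ⌊y⌋ = m - 1 := by
      rw [Int.floor_eq_iff]; push_cast; constructor <;> linarith
    have hfr : Int.fract y = y - m + 1 := by
      rw [Int.fract, hfl]; push_cast; ring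
    rw [hfr]
    rw [iteratedDeriv_bump_eq_zero c k, iteratedDeriv_bump_eq_zero c k]
    · left; nlinarith
    · right; nlinarith

lemma hasDerivAt_prof (c k : ℕ) {Λ : ℝ} (hΛ : 4 ≤ Λ) (y : ℝ) :
    HasDerivAt (prof c k Λ) (Λ * prof c (k + 1) Λ y) y := by
  set m : ℤ := ⌊y⌋ with hm
  have hy1 : (m : ℝ) ≤ y := Int.floor_le y
  have hy2 : y < m + 1 := Int.lt_floor_add_one y
  have hev : prof c k Λ =ᶠ[𝓝 y] fun r => iteratedDeriv k (bump c) (Λ * (r - m) - 1) := by
    filter_upwards [Ioo_mem_nhds (show (m : ℝ) - 1 / 2 < y by linarith) hy2] with r hr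
    exact prof_eq_local c k hΛ hr.1 hr.2
  have hval : prof c (k + 1) Λ y = iteratedDeriv (k + 1) (bump c) (Λ * (y - m) - 1) :=
    prof_eq_local c (k + 1) hΛ (by linarith) hy2
  have hinner : HasDerivAt (fun r : ℝ => Λ * (r - m) - 1) Λ y := by
    have := ((hasDerivAt_id y).sub_const (m : ℝ)).const_mul Λ
    simpa using this.sub_const 1
  have := (hasDerivAt_iteratedDeriv_bump c k (Λ * (y - m) - 1)).comp y hinner
  rw [hval, mul_comm]
  exact this.congr_of_eventuallyEq hev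

lemma deriv_prof (c k : ℕ) {Λ : ℝ} (hΛ : 4 ≤ Λ) :
    deriv (prof c k Λ) = fun y => Λ * prof c (k + 1) Λ y := by
  funext y; exact (hasDerivAt_prof c k hΛ y).deriv

lemma iteratedDeriv_prof (c k j : ℕ) {Λ : ℝ} (hΛ : 4 ≤ Λ) :
    iteratedDeriv j (prof c k Λ) = fun y => Λ ^ j * prof c (k + j) Λ y := by
  induction j with
  | zero => funext y; simp
  | succ j ih =>
    rw [iteratedDeriv_succ, ih]
    funext y
    have := ((hasDerivAt_prof c (k + j) hΛ y).const_mul (Λ ^ j)).deriv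
    rw [this]
    rw [pow_succ, ← add_assoc]
    ring

lemma contDiff_prof (c k : ℕ) {Λ : ℝ} (hΛ : 4 ≤ Λ) : ContDiff ℝ (⊤ : ℕ∞) (prof c k Λ) := by
  apply contDiff_of_differentiable_iteratedDeriv
  intro j _
  rw [iteratedDeriv_prof c k j hΛ]
  exact fun y => ((hasDerivAt_prof c (k + j) hΛ y).const_mul (Λ ^ j)).differentiableAt

lemma prof_eq_zero_of_not_mem (c k : ℕ) (Λ : ℝ) {y : ℝ}
    (h : Λ * Int.fract y - 1 ≤ 0 ∨ 1 ≤ Λ * Int.fract y - 1) : prof c k Λ y = 0 :=
  iteratedDeriv_bump_eq_zero c k h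

end Vale.Agent.P113
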