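import Vale.Agent.P113.Solution

/-!
The explicit velocity field is a classical solution of the forced system.
-/

open Real Set Filter Topology MeasureTheory

namespace Vale.Agent.P113

variable {g : ℕ → ℕ → ℝ}

/-! ### periodicity -/

lemma periodic_iteratedDeriv {φ : ℝ → ℝ} (h : Function.Periodic φ 1) (b : ℕ) :
    Function.Periodic (iteratedDeriv b φ) 1 := by
  induction b with
  | zero => simpa using h
  | succ b ih =>
    rw [iteratedDeriv_succ]
    intro x
    have h1 : (fun y => iteratedDeriv b φ (y + 1)) = iteratedDeriv b φ := by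
      funext y; exact ih y
    have h2 := deriv_comp_add_const (iteratedDeriv b φ) 1 x
    rw [h1] at h2
    exact h2.symm

lemma periodic_int {φ : ℝ → ℝ} (h : Function.Periodic φ 1) (x : ℝ) (k : ℤ) : φ (x + k) = φ x := by
  have := (h.int_mul k) x
  simpa using this

lemma periodic3_serD {c : ℕ → ℝ} {φ₁ φ₂ φ₃ : ℕ → ℝ → ℝ}
    (h₁ : ∀ W, Function.Periodic (φ₁ W) 1) (h₂ : ∀ W, Function.Periodic (φ₂ W) 1)
    (h₃ : ∀ W, Function.Periodic (φ₃ W) 1) (b₁ b₂ b₃ : ℕ) :
    Periodic3 (serD c φ₁ φ₂ φ₃ b₁ b₂ b₃) := by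
  intro x k
  unfold serD termD
  congr 1
  funext W
  rw [periodic_int (periodic_iteratedDeriv (h₁ W) b₁), periodic_int (periodic_iteratedDeriv (h₂ W) b₂),
    periodic_int (periodic_iteratedDeriv (h₃ W) b₃)]

lemma periodic_oneF (W : ℕ) : Function.Periodic (oneF W) 1 := fun _ => rfl

lemma periodic_beta (c W : ℕ) : Function.Periodic (beta c W) 1 := by
  intro y
  have := prof_periodic c 0 (Lam W) y 1
  simpa [beta] using this

lemma periodic_ser1 (w : ℕ → ℝ) (c k : ℕ) : Function.Periodic (ser1 w c k) 1 := by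
  intro y
  have := ser1_periodic w c k y 1
  simpa using this

lemma periodic_Xf (W : ℕ) : Function.Periodic (Xf g W) 1 := periodic_ser1 _ _ _
lemma periodic_Yf (W : ℕ) : Function.Periodic (Yf g W) 1 := periodic_ser1 _ _ _
lemma periodic_Xf1 (W : ℕ) : Function.Periodic (Xf1 g W) 1 := periodic_ser1 _ _ _
lemma periodic_Yf1 (W : ℕ) : Function.Periodic (Yf1 g W) 1 := periodic_ser1 _ _ _

lemma periodic_XS (b c d : ℕ) : Periodic3 (XS g b c d) :=
  periodic3_serD periodic_oneF periodic_Xf (periodic_beta 1) b c d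
lemma periodic_YS (b c d : ℕ) : Periodic3 (YS g b c d) :=
  periodic3_serD periodic_Yf periodic_oneF (periodic_beta 1) b c d
lemma periodic_Q1 (b c d : ℕ) : Periodic3 (Q1 g b c d) :=
  periodic3_serD periodic_Yf periodic_Xf1 (periodic_beta 2) b c d
lemma periodic_Q2 (b c d : ℕ) : Periodic3 (Q2 g b c d) :=
  periodic3_serD periodic_Yf1 periodic_Xf (periodic_beta 2) b c d

lemma periodic_uSol (ζ t : ℝ) : Periodic3 (uSol g ζ t) := by
  intro x k
  funext i
  fin_cases i
  · show -timeP 1 0 t * XS g 0 0 0 _ = -timeP 1 0 t * XS g 0 0 0 x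
    rw [periodic_XS 0 0 0 x k]
  · show -timeP 1 0 t * YS g 0 0 0 _ = -timeP 1 0 t * YS g 0 0 0 x
    rw [periodic_YS 0 0 0 x k]
  · rfl

lemma periodic_fSol (ν ζ t : ℝ) : Periodic3 (fSol ν g ζ t) := by
  intro x k
  funext i
  fin_cases i
  · show (-1) * timeP 1 1 t * XS g 0 0 0 _ + 1 * timeP 2 0 t * Q1 g 0 0 0 _
      + (ν * timeP 1 0 t * XS g 0 2 0 _ + ν * timeP 1 0 t * XS g 0 0 2 _)
      = (-1) * timeP 1 1 t * XS g 0 0 0 x + 1 * timeP 2 0 t * Q1 g 0 0 0 x
      + (ν * timeP 1 0 t * XS g 0 2 0 x + ν * timeP 1 0 t * XS g 0 0 2 x)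
    rw [periodic_XS 0 0 0 x k, periodic_XS 0 2 0 x k, periodic_XS 0 0 2 x k, periodic_Q1 0 0 0 x k]
  · show (-1) * timeP 1 1 t * YS g 0 0 0 _ + 1 * timeP 2 0 t * Q2 g 0 0 0 _
      + (ν * timeP 1 0 t * YS g 2 0 0 _ + ν * timeP 1 0 t * YS g 0 0 2 _)
      = (-1) * timeP 1 1 t * YS g 0 0 0 x + 1 * timeP 2 0 t * Q2 g 0 0 0 x
      + (ν * timeP 1 0 t * YS g 2 0 0 x + ν * timeP 1 0 t * YS g 0 0 2 x)
    rw [periodic_YS 0 0 0 x k, periodic_YS 2 0 0 x k, periodic_YS 0 0 2 x k, periodic_Q2 0 0 0 x k]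
  · rfl

/-! ### the equations -/

lemma famX (hg : FlagOK g) : SpaceFam (XS g) := (goodX hg).spaceFam
lemma famY (hg : FlagOK g) : SpaceFam (YS g) := (goodY hg).spaceFam

lemma pd_const_mul_fun {S : V3 → ℝ} (hS : Differentiable ℝ S) (j : Fin 3) (κ : ℝ) :
    pd j (fun y => κ * S y) = fun y => κ * pd j S y := by
  funext y
  exact pd_const_mul κ hS y

/-- Time derivative of the components of the velocity. -/
lemma dT_u0 (ζ t : ℝ) (x : V3) :
    dT (fun t x => uSol g ζ t x 0) t x = -timeP 1 1 t * XS g 0 0 0 x := by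
  unfold dT
  have : (fun s => uSol g ζ s x 0) = fun s => -timeP 1 0 s * XS g 0 0 0 x := rfl
  rw [this]
  exact (((hasDerivAt_timeP 1 0 t).neg).mul_const _).deriv

lemma dT_u1 (ζ t : ℝ) (x : V3) :
    dT (fun t x => uSol g ζ t x 1) t x = -timeP 1 1 t * YS g 0 0 0 x := by
  unfold dT
  have : (fun s => uSol g ζ s x 1) = fun s => -timeP 1 0 s * YS g 0 0 0 x := rfl
  rw [this]
  exact (((hasDerivAt_timeP 1 0 t).neg).mul_const _).deriv

lemma dT_u2 (ζ t : ℝ) (x : V3) :
    dT (fun t x => uSol g ζ t x 2) t x = timeV 1 t * ζ := by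
  unfold dT
  have : (fun s => uSol g ζ s x 2) = fun s => timeV 0 s * ζ := rfl
  rw [this]
  exact ((hasDerivAt_timeV 0 t).mul_const _).deriv

theorem classical_uSol (hg : FlagOK g) (ν ζ : ℝ) {T : ℝ} (hT : 0 < T) :
    IsClassicalSolution ν (fSol ν g ζ) T (uSol g ζ) (fun _ _ => 0) := by
  have su := smooth_u hg ζ
  have FX := famX hg
  have FY := famY hg
  have dX0 : ∀ b c d, Differentiable ℝ (XS g b c d) :=
    fun b c d => (FX.smooth b c d).differentiable (by simp)
  have dY0 : ∀ b c d, Differentiable ℝ (YS g b c d) :=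
    fun b c d => (FY.smooth b c d).differentiable (by simp)
  have pu0 : ∀ t, (fun y => uSol g ζ t y 0) = fun y => (-timeP 1 0 t) * XS g 0 0 0 y := fun t => rfl
  have pu1 : ∀ t, (fun y => uSol g ζ t y 1) = fun y => (-timeP 1 0 t) * YS g 0 0 0 y := fun t => rfl
  have pu2 : ∀ t, (fun y => uSol g ζ t y 2) = fun _ => timeV 0 t * ζ := fun t => rfl
  refine
  { periodic_u := fun t _ => periodic_uSol ζ t
    periodic_p := fun t _ x k => rfl
    contDiff_u := fun t _ => contDiff_pi.mpr (fun i => (su i).contDiff_space t (n := 2))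
    contDiff_p := fun t _ => contDiff_const
    cont_u := fun i => (ContDiff.continuous (su i)).continuousOn
    cont_du := fun i j => (continuous_pd_joint (su i) j).continuousOn
    cont_ddu := fun i j k => (continuous_pd_pd_joint (su i) j k).continuousOn
    diff_t := fun i x t _ => ((su i).differentiable_time x t).differentiableWithinAt
    cont_ut := fun i => ?_
    cont_p := continuousOn_const
    cont_dp := fun j => ?_
    mean_p := fun t _ => by simp
    momentum := ?_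
    incompressible := ?_
    initial := ?_ }
  · refine ContinuousOn.congr (continuous_dT (su i)).continuousOn ?_
    rintro ⟨t, x⟩ ⟨ht, _⟩
    exact derivWithin_eq_dT (su i) hT ht x
  · have : (fun q : ℝ × V3 => pd j ((fun (_ : ℝ) (_ : V3) => (0 : ℝ)) q.1) q.2) = fun _ => 0 := by
      funext q
      show pd j (fun _ => (0 : ℝ)) q.2 = 0
      rw [pd_const_fun]
    rw [this]
    exact continuousOn_const
  · intro t ht x i
    rw [derivWithin_eq_dT (su i) hT ht x]
    have hp : pd i ((fun (_ : ℝ) (_ : V3) => (0 : ℝ)) t) x = 0 := by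
      show pd i (fun _ => (0 : ℝ)) x = 0
      rw [pd_const_fun]
    rw [hp, Fin.sum_univ_three, Fin.sum_univ_three]
    fin_cases i
    · show dT (fun t x => uSol g ζ t x 0) t x
        + (uSol g ζ t x 0 * pd 0 (fun y => uSol g ζ t y 0) x
          + uSol g ζ t x 1 * pd 1 (fun y => uSol g ζ t y 0) x
          + uSol g ζ t x 2 * pd 2 (fun y => uSol g ζ t y 0) x)
        = -0 + ν * (pd 0 (pd 0 (fun y => uSol g ζ t y 0)) x + pd 1 (pd 1 (fun y => uSol g ζ t y 0)) x
          + pd 2 (pd 2 (fun y => uSol g ζ t y 0)) x) + fSol ν g ζ t x 0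
      rw [dT_u0, pu0, pd_const_mul_fun (dX0 0 0 0), pd_const_mul_fun (dX0 0 0 0),
        pd_const_mul_fun (dX0 0 0 0), FX.pd0, FX.pd1, FX.pd2]
      simp only [pd_const_mul_fun (dX0 _ _ _), FX.pd0, FX.pd1, FX.pd2]
      have h0 : XS g (0 + 1) 0 0 x = 0 := congrFun (XS_succ_eq_zero 0 0 0) x
      have h00 : XS g (0 + 1 + 1) 0 0 x = 0 := congrFun (XS_succ_eq_zero (0 + 1) 0 0) x
      rw [h0, h00]
      have hq := product_Q1 hg x
      have hv := timeV_mul_timeP 0 1 0 t
      have hs := timeP_mul_self t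
      simp only [fSol, uSol, Matrix.cons_val_zero, Matrix.cons_val_one, Matrix.cons_val]
      rw [← hq, ← hs]
      have hv' : timeV 0 t * ζ * (-timeP 1 0 t * XS g 0 0 (0 + 1) x)
          = -(timeV 0 t * timeP 1 0 t) * (ζ * XS g 0 0 (0 + 1) x) := by ring
      rw [hv', hv]
      simp only [zero_add]
      ring
    · show dT (fun t x => uSol g ζ t x 1) t x
        + (uSol g ζ t x 0 * pd 0 (fun y => uSol g ζ t y 1) x
          + uSol g ζ t x 1 * pd 1 (fun y => uSol g ζ t y 1) x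
          + uSol g ζ t x 2 * pd 2 (fun y => uSol g ζ t y 1) x)
        = -0 + ν * (pd 0 (pd 0 (fun y => uSol g ζ t y 1)) x + pd 1 (pd 1 (fun y => uSol g ζ t y 1)) x
          + pd 2 (pd 2 (fun y => uSol g ζ t y 1)) x) + fSol ν g ζ t x 1
      rw [dT_u1, pu1, pd_const_mul_fun (dY0 0 0 0), pd_const_mul_fun (dY0 0 0 0),
        pd_const_mul_fun (dY0 0 0 0), FY.pd0, FY.pd1, FY.pd2]
      simp only [pd_const_mul_fun (dY0 _ _ _), FY.pd0, FY.pd1, FY.pd2]
      have h0 : YS g 0 (0 + 1) 0 x = 0 := congrFun (YS_succ_eq_zero 0 0 0) x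
      have h00 : YS g 0 (0 + 1 + 1) 0 x = 0 := congrFun (YS_succ_eq_zero 0 (0 + 1) 0) x
      rw [h0, h00]
      have hq := product_Q2 hg x
      have hv := timeV_mul_timeP 0 1 0 t
      have hs := timeP_mul_self t
      simp only [fSol, uSol, Matrix.cons_val_zero, Matrix.cons_val_one, Matrix.cons_val]
      rw [← hq, ← hs]
      have hv' : timeV 0 t * ζ * (-timeP 1 0 t * YS g 0 0 (0 + 1) x)
          = -(timeV 0 t * timeP 1 0 t) * (ζ * YS g 0 0 (0 + 1) x) := by ring
      rw [hv', hv]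
      simp only [zero_add]
      ring
    · show dT (fun t x => uSol g ζ t x 2) t x
        + (uSol g ζ t x 0 * pd 0 (fun y => uSol g ζ t y 2) x
          + uSol g ζ t x 1 * pd 1 (fun y => uSol g ζ t y 2) x
          + uSol g ζ t x 2 * pd 2 (fun y => uSol g ζ t y 2) x)
        = -0 + ν * (pd 0 (pd 0 (fun y => uSol g ζ t y 2)) x + pd 1 (pd 1 (fun y => uSol g ζ t y 2)) x
          + pd 2 (pd 2 (fun y => uSol g ζ t y 2)) x) + fSol ν g ζ t x 2
      rw [dT_u2, pu2]
      simp only [pd_const_fun]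
      simp [fSol]
  · intro t _ x
    rw [Fin.sum_univ_three]
    show pd 0 (fun y => uSol g ζ t y 0) x + pd 1 (fun y => uSol g ζ t y 1) x
      + pd 2 (fun y => uSol g ζ t y 2) x = 0
    rw [pu0, pu1, pu2, pd_const_mul_fun (dX0 0 0 0), pd_const_mul_fun (dY0 0 0 0), FX.pd0, FY.pd1,
      pd_const_fun]
    have h0 : XS g (0 + 1) 0 0 x = 0 := congrFun (XS_succ_eq_zero 0 0 0) x
    have h1 : YS g 0 (0 + 1) 0 x = 0 := congrFun (YS_succ_eq_zero 0 0 0) x
    simp [h0, h1]
  · intro x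
    funext i
    have h1 : timeP 1 0 0 = 0 := timeP_eq_zero 1 0 (by norm_num) (by norm_num)
    fin_cases i
    · show -timeP 1 0 0 * XS g 0 0 0 x = 0
      rw [h1]; simp
    · show -timeP 1 0 0 * YS g 0 0 0 x = 0
      rw [h1]; simp
    · show timeV 0 0 * ζ = 0
      rw [timeV_zero_zero]; simp

end Vale.Agent.P113
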