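import Vale.Agent.P113.Flags

/-!
The force program: rational approximation of all mixed derivatives of the force, and the compiler.
-/

open Real Set Filter Topology

namespace Vale.Agent.P113

/-- The plane height of word number `W` as a rational code. -/
def zetaQ (W : ℕ) : RatCode := (3, 0, 2 * LamN W - 1)

lemma ratVal_zetaQ (W : ℕ) : ratVal (zetaQ W) = zetaW W := by
  have h1 : 1 ≤ 2 * LamN W := by
    have : 0 < LamN W := by unfold LamN; positivity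
    omega
  simp only [ratVal, zetaQ, zetaW]
  rw [Nat.cast_sub h1]
  push_cast
  rw [cast_LamN]
  simp

/-- The input of the force program: component, derivative orders, rational space-time point. -/
abbrev ForceArg := ℕ × (ℕ × ℕ × ℕ × ℕ) × (RatCode × RatCode × RatCode × RatCode)

/-- The four terms of the force component: the force derivative is `T₁ + T₂ + ν T₃ + ν T₄`. -/
def termsOf (M : Machine) (W : ℕ) (A : ForceArg) : Term × Term × Term × Term :=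
  if A.1 = 0 then
    (tScale (qNeg qOne) (tMul (timeT 1 (1 + A.2.1.1) A.2.2.1)
        (XT M A.2.1.2.1 A.2.1.2.2.1 A.2.1.2.2.2 A.2.2.2.2.1 A.2.2.2.2.2)),
      tMul (timeT 2 A.2.1.1 A.2.2.1)
        (Q1T M A.2.1.2.1 A.2.1.2.2.1 A.2.1.2.2.2 A.2.2.2.1 A.2.2.2.2.1 A.2.2.2.2.2),
      tMul (timeT 1 A.2.1.1 A.2.2.1)
        (XT M A.2.1.2.1 (2 + A.2.1.2.2.1) A.2.1.2.2.2 A.2.2.2.2.1 A.2.2.2.2.2),
      tMul (timeT 1 A.2.1.1 A.2.2.1)
        (XT M A.2.1.2.1 A.2.1.2.2.1 (2 + A.2.1.2.2.2) A.2.2.2.2.1 A.2.2.2.2.2))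
  else if A.1 = 1 then
    (tScale (qNeg qOne) (tMul (timeT 1 (1 + A.2.1.1) A.2.2.1)
        (YT M A.2.1.2.1 A.2.1.2.2.1 A.2.1.2.2.2 A.2.2.2.1 A.2.2.2.2.2)),
      tMul (timeT 2 A.2.1.1 A.2.2.1)
        (Q2T M A.2.1.2.1 A.2.1.2.2.1 A.2.1.2.2.2 A.2.2.2.1 A.2.2.2.2.1 A.2.2.2.2.2),
      tMul (timeT 1 A.2.1.1 A.2.2.1)
        (YT M (2 + A.2.1.2.1) A.2.1.2.2.1 A.2.1.2.2.2 A.2.2.2.1 A.2.2.2.2.2),
      tMul (timeT 1 A.2.1.1 A.2.2.1)
        (YT M A.2.1.2.1 A.2.1.2.2.1 (2 + A.2.1.2.2.2) A.2.2.2.1 A.2.2.2.2.2))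
  else
    (tScale (if A.2.1.2.1 = 0 ∧ A.2.1.2.2.1 = 0 ∧ A.2.1.2.2.2 = 0 then zetaQ W else qZero)
        (timeVT (1 + A.2.1.1) A.2.2.1),
      tZero, tZero, tZero)

/-- Approximation of `T₁ + T₂ + ν T₃ + ν T₄` given a rational approximation of `ν`. -/
def combo (T : Term × Term × Term × Term) (nuQ : RatCode) (k : ℕ) : RatCode :=
  qAdd (qAdd (tApprox T.1 (5 * (k + 1) - 1)) (tApprox T.2.1 (5 * (k + 1) - 1)))
    (qAdd (tApprox (tScale nuQ T.2.2.1) (5 * (k + 1) - 1))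
      (tApprox (tScale nuQ T.2.2.2) (5 * (k + 1) - 1)))

/-- The accuracy index requested for `ν`. -/
def nuIndex (T : Term × Term × Term × Term) (k : ℕ) : ℕ :=
  5 * (k + 1) * (tBd T.2.2.1 + tBd T.2.2.2 + 1) - 1

theorem abs_sub_combo {T : Term × Term × Term × Term} {v₁ v₂ v₃ v₄ ν : ℝ}
    (h₁ : Rep T.1 v₁) (h₂ : Rep T.2.1 v₂) (h₃ : Rep T.2.2.1 v₃) (h₄ : Rep T.2.2.2 v₄)
    {nuQ : RatCode} {k : ℕ} (hnu : |ν - ratVal nuQ| ≤ 1 / (((nuIndex T k : ℕ) : ℝ) + 1)) :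
    |v₁ + v₂ + (ν * v₃ + ν * v₄) - ratVal (combo T nuQ k)| ≤ 1 / ((k : ℝ) + 1) := by
  have hk : (0 : ℝ) < (k : ℝ) + 1 := by positivity
  have hp1 : 1 ≤ 5 * (k + 1) := by omega
  have hp : (((5 * (k + 1) - 1 : ℕ) : ℝ) + 1) = 5 * ((k : ℝ) + 1) := by
    rw [Nat.cast_sub hp1]
    push_cast
    ring
  have a₁ := abs_sub_tApprox h₁ (5 * (k + 1) - 1)
  have a₂ := abs_sub_tApprox h₂ (5 * (k + 1) - 1)
  have a₃ := abs_sub_tApprox (h₃.scale nuQ) (5 * (k + 1) - 1)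
  have a₄ := abs_sub_tApprox (h₄.scale nuQ) (5 * (k + 1) - 1)
  rw [hp] at a₁ a₂ a₃ a₄
  have b₃ := h₃.abs_le
  have b₄ := h₄.abs_le
  set B : ℝ := (tBd T.2.2.1 : ℝ) + (tBd T.2.2.2 : ℝ) with hB
  have hB0 : 0 ≤ B := by positivity
  have hm : (((nuIndex T k : ℕ) : ℝ) + 1) = 5 * ((k : ℝ) + 1) * (B + 1) := by
    unfold nuIndex
    have : 1 ≤ 5 * (k + 1) * (tBd T.2.2.1 + tBd T.2.2.2 + 1) :=
      Nat.mul_pos (by omega) (by omega)
    rw [Nat.cast_sub this, hB]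
    push_cast
    ring
  rw [hm] at hnu
  have hnuB : |ν - ratVal nuQ| * (|v₃| + |v₄|) ≤ 1 / (5 * ((k : ℝ) + 1)) := by
    have h5 : |v₃| + |v₄| ≤ B := by rw [hB]; linarith
    calc |ν - ratVal nuQ| * (|v₃| + |v₄|)
        ≤ (1 / (5 * ((k : ℝ) + 1) * (B + 1))) * B :=
          mul_le_mul hnu h5 (by positivity) (by positivity)
      _ ≤ 1 / (5 * ((k : ℝ) + 1)) := by
          rw [one_div_mul_eq_div, div_le_div_iff₀ (by positivity) (by positivity)]
          nlinarith [mul_pos (show (0 : ℝ) < 5 by norm_num) hk]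
  simp only [combo, ratVal_qAdd]
  set r₁ := ratVal (tApprox T.1 (5 * (k + 1) - 1))
  set r₂ := ratVal (tApprox T.2.1 (5 * (k + 1) - 1))
  set r₃ := ratVal (tApprox (tScale nuQ T.2.2.1) (5 * (k + 1) - 1))
  set r₄ := ratVal (tApprox (tScale nuQ T.2.2.2) (5 * (k + 1) - 1))
  have e : v₁ + v₂ + (ν * v₃ + ν * v₄) - (r₁ + r₂ + (r₃ + r₄))
      = (v₁ - r₁) + (v₂ - r₂) + ((ratVal nuQ * v₃ - r₃) + (ratVal nuQ * v₄ - r₄))
        + (ν - ratVal nuQ) * (v₃ + v₄) := by ring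
  rw [e]
  have t1 : |(ν - ratVal nuQ) * (v₃ + v₄)| ≤ 1 / (5 * ((k : ℝ) + 1)) := by
    rw [abs_mul]
    refine le_trans ?_ hnuB
    exact mul_le_mul_of_nonneg_left (abs_add_le _ _) (abs_nonneg _)
  have tot : |(v₁ - r₁) + (v₂ - r₂) + ((ratVal nuQ * v₃ - r₃) + (ratVal nuQ * v₄ - r₄))
        + (ν - ratVal nuQ) * (v₃ + v₄)| ≤
      |v₁ - r₁| + |v₂ - r₂| + |ratVal nuQ * v₃ - r₃| + |ratVal nuQ * v₄ - r₄|
        + |(ν - ratVal nuQ) * (v₃ + v₄)| := by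
    refine le_trans (abs_add_le _ _) ?_
    have h1 := abs_add_le ((v₁ - r₁) + (v₂ - r₂)) ((ratVal nuQ * v₃ - r₃) + (ratVal nuQ * v₄ - r₄))
    have h2 := abs_add_le (v₁ - r₁) (v₂ - r₂)
    have h3 := abs_add_le (ratVal nuQ * v₃ - r₃) (ratVal nuQ * v₄ - r₄)
    linarith
  refine le_trans tot ?_
  have hfive : 1 / (5 * ((k : ℝ) + 1)) * 5 = 1 / ((k : ℝ) + 1) := by
    field_simp
  linarith

/-- The point in `V3` of a rational space point. -/
noncomputable def ptOf (q : RatCode × RatCode × RatCode × RatCode) : V3 :=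
  ![ratVal q.2.1, ratVal q.2.2.1, ratVal q.2.2.2]

theorem rep_terms0 (M : Machine) (W : ℕ) (ν : ℝ) (α : ℕ × ℕ × ℕ × ℕ)
    (q : RatCode × RatCode × RatCode × RatCode) :
    ∃ v₁ v₂ v₃ v₄ : ℝ,
      Rep (termsOf M W (0, α, q)).1 v₁ ∧ Rep (termsOf M W (0, α, q)).2.1 v₂ ∧
      Rep (termsOf M W (0, α, q)).2.2.1 v₃ ∧ Rep (termsOf M W (0, α, q)).2.2.2 v₄ ∧
      mixedDeriv α (fun t x => fSol ν (gM M) (zetaW W) t x 0) (ratVal q.1) (ptOf q)
        = v₁ + v₂ + (ν * v₃ + ν * v₄) := by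
  have h0 : ptOf q 0 = ratVal q.2.1 := rfl
  have h1 : ptOf q 1 = ratVal q.2.2.1 := rfl
  have h2 : ptOf q 2 = ratVal q.2.2.2 := rfl
  have r₁ := ((rep_timeT one_pos (1 + α.1) q.1).mul
      (rep_XT M α.2.1 α.2.2.1 α.2.2.2 h1 h2)).scale (qNeg qOne)
  have r₂ := (rep_timeT (by norm_num : 0 < 2) α.1 q.1).mul (rep_Q1T M α.2.1 α.2.2.1 α.2.2.2 h0 h1 h2)
  have r₃ := (rep_timeT one_pos α.1 q.1).mul (rep_XT M α.2.1 (2 + α.2.2.1) α.2.2.2 h1 h2)
  have r₄ := (rep_timeT one_pos α.1 q.1).mul (rep_XT M α.2.1 α.2.2.1 (2 + α.2.2.2) h1 h2)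
  refine ⟨_, _, _, _, r₁, r₂, r₃, r₄, ?_⟩
  rw [mixed_f0 (flagOK_gM M)]
  simp only [ratVal_qNeg, ratVal_qOne]
  ring

theorem rep_terms1 (M : Machine) (W : ℕ) (ν : ℝ) (α : ℕ × ℕ × ℕ × ℕ)
    (q : RatCode × RatCode × RatCode × RatCode) :
    ∃ v₁ v₂ v₃ v₄ : ℝ,
      Rep (termsOf M W (1, α, q)).1 v₁ ∧ Rep (termsOf M W (1, α, q)).2.1 v₂ ∧
      Rep (termsOf M W (1, α, q)).2.2.1 v₃ ∧ Rep (termsOf M W (1, α, q)).2.2.2 v₄ ∧
      mixedDeriv α (fun t x => fSol ν (gM M) (zetaW W) t x 1) (ratVal q.1) (ptOf q)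
        = v₁ + v₂ + (ν * v₃ + ν * v₄) := by
  have h0 : ptOf q 0 = ratVal q.2.1 := rfl
  have h1 : ptOf q 1 = ratVal q.2.2.1 := rfl
  have h2 : ptOf q 2 = ratVal q.2.2.2 := rfl
  have r₁ := ((rep_timeT one_pos (1 + α.1) q.1).mul
      (rep_YT M α.2.1 α.2.2.1 α.2.2.2 h0 h2)).scale (qNeg qOne)
  have r₂ := (rep_timeT (by norm_num : 0 < 2) α.1 q.1).mul (rep_Q2T M α.2.1 α.2.2.1 α.2.2.2 h0 h1 h2)
  have r₃ := (rep_timeT one_pos α.1 q.1).mul (rep_YT M (2 + α.2.1) α.2.2.1 α.2.2.2 h0 h2)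
  have r₄ := (rep_timeT one_pos α.1 q.1).mul (rep_YT M α.2.1 α.2.2.1 (2 + α.2.2.2) h0 h2)
  refine ⟨_, _, _, _, r₁, r₂, r₃, r₄, ?_⟩
  rw [mixed_f1 (flagOK_gM M)]
  simp only [ratVal_qNeg, ratVal_qOne]
  ring

theorem rep_terms2 (M : Machine) (W : ℕ) (ν : ℝ) (α : ℕ × ℕ × ℕ × ℕ)
    (q : RatCode × RatCode × RatCode × RatCode) :
    ∃ v₁ v₂ v₃ v₄ : ℝ,
      Rep (termsOf M W (2, α, q)).1 v₁ ∧ Rep (termsOf M W (2, α, q)).2.1 v₂ ∧
      Rep (termsOf M W (2, α, q)).2.2.1 v₃ ∧ Rep (termsOf M W (2, α, q)).2.2.2 v₄ ∧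
      mixedDeriv α (fun t x => fSol ν (gM M) (zetaW W) t x 2) (ratVal q.1) (ptOf q)
        = v₁ + v₂ + (ν * v₃ + ν * v₄) := by
  have r₁ := (rep_timeVT (1 + α.1) q.1).scale
      (if α.2.1 = 0 ∧ α.2.2.1 = 0 ∧ α.2.2.2 = 0 then zetaQ W else qZero)
  refine ⟨_, 0, 0, 0, r₁, rep_tZero, rep_tZero, rep_tZero, ?_⟩
  rw [mixed_f2]
  by_cases h : α.2.1 = 0 ∧ α.2.2.1 = 0 ∧ α.2.2.2 = 0
  · have hc : constFam α.2.1 α.2.2.1 α.2.2.2 (ptOf q) = 1 := by simp [constFam, h]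
    rw [hc, if_pos h, ratVal_zetaQ]
    ring
  · have hc : constFam α.2.1 α.2.2.1 α.2.2.2 (ptOf q) = 0 := by simp [constFam, h]
    rw [hc, if_neg h, ratVal_qZero]
    ring

theorem rep_terms (M : Machine) (W : ℕ) (ν : ℝ) (i : Fin 3) (α : ℕ × ℕ × ℕ × ℕ)
    (q : RatCode × RatCode × RatCode × RatCode) :
    ∃ v₁ v₂ v₃ v₄ : ℝ,
      Rep (termsOf M W (i.1, α, q)).1 v₁ ∧ Rep (termsOf M W (i.1, α, q)).2.1 v₂ ∧
      Rep (termsOf M W (i.1, α, q)).2.2.1 v₃ ∧ Rep (termsOf M W (i.1, α, q)).2.2.2 v₄ ∧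
      mixedDeriv α (fun t x => fSol ν (gM M) (zetaW W) t x i) (ratVal q.1) (ptOf q)
        = v₁ + v₂ + (ν * v₃ + ν * v₄) := by
  fin_cases i
  · exact rep_terms0 M W ν α q
  · exact rep_terms1 M W ν α q
  · exact rep_terms2 M W ν α q

/-- The value returned by the force program, given the rational approximations `s` of `ν`. -/
def forceApprox (s : ℕ → RatCode) (M : Machine) (W : ℕ) (A : ForceArg) (k : ℕ) : RatCode :=
  combo (termsOf M W A) (s (nuIndex (termsOf M W A) k)) k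

theorem abs_sub_forceApprox {ν : ℝ} {s : ℕ → RatCode} (hs : ∀ n : ℕ, |ν - ratVal (s n)| ≤ 1 / ((n : ℝ) + 1))
    (M : Machine) (W : ℕ) (i : Fin 3) (α : ℕ × ℕ × ℕ × ℕ)
    (q : RatCode × RatCode × RatCode × RatCode) (k : ℕ) :
    |mixedDeriv α (fun t x => fSol ν (gM M) (zetaW W) t x i) (ratVal q.1) (ptOf q)
      - ratVal (forceApprox s M W (i.1, α, q) k)| ≤ 1 / ((k : ℝ) + 1) := by
  obtain ⟨v₁, v₂, v₃, v₄, h₁, h₂, h₃, h₄, e⟩ := rep_terms M W ν i α q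
  rw [e]
  exact abs_sub_combo h₁ h₂ h₃ h₄ (hs _)

/-! ### primitive recursiveness -/

section pr
variable {α : Type} [Primcodable α]

lemma primrec_zetaQ : Primrec zetaQ := by
  unfold zetaQ
  refine (Primrec.const 3).pair ((Primrec.const 0).pair ?_)
  exact Primrec.nat_sub.comp (Primrec.nat_mul.comp (Primrec.const 2) primrec_LamN) (Primrec.const 1)

lemma primrec_termsOf : Primrec fun p : Machine × ℕ × ForceArg => termsOf p.1 p.2.1 p.2.2 := by
  unfold termsOf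
  have hM : Primrec fun p : Machine × ℕ × ForceArg => p.1 := Primrec.fst
  have hW : Primrec fun p : Machine × ℕ × ForceArg => p.2.1 := Primrec.fst.comp Primrec.snd
  have hA : Primrec fun p : Machine × ℕ × ForceArg => p.2.2 := Primrec.snd.comp Primrec.snd
  have hi : Primrec fun p : Machine × ℕ × ForceArg => p.2.2.1 := Primrec.fst.comp hA
  have hα : Primrec fun p : Machine × ℕ × ForceArg => p.2.2.2.1 :=
    Primrec.fst.comp (Primrec.snd.comp hA)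
  have hq : Primrec fun p : Machine × ℕ × ForceArg => p.2.2.2.2 :=
    Primrec.snd.comp (Primrec.snd.comp hA)
  have ha : Primrec fun p : Machine × ℕ × ForceArg => p.2.2.2.1.1 := Primrec.fst.comp hα
  have hb : Primrec fun p : Machine × ℕ × ForceArg => p.2.2.2.1.2.1 :=
    Primrec.fst.comp (Primrec.snd.comp hα)
  have hc : Primrec fun p : Machine × ℕ × ForceArg => p.2.2.2.1.2.2.1 :=
    Primrec.fst.comp (Primrec.snd.comp (Primrec.snd.comp hα))
  have hd : Primrec fun p : Machine × ℕ × ForceArg => p.2.2.2.1.2.2.2 :=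
    Primrec.snd.comp (Primrec.snd.comp (Primrec.snd.comp hα))
  have ht : Primrec fun p : Machine × ℕ × ForceArg => p.2.2.2.2.1 := Primrec.fst.comp hq
  have h0 : Primrec fun p : Machine × ℕ × ForceArg => p.2.2.2.2.2.1 :=
    Primrec.fst.comp (Primrec.snd.comp hq)
  have h1 : Primrec fun p : Machine × ℕ × ForceArg => p.2.2.2.2.2.2.1 :=
    Primrec.fst.comp (Primrec.snd.comp (Primrec.snd.comp hq))
  have h2 : Primrec fun p : Machine × ℕ × ForceArg => p.2.2.2.2.2.2.2 :=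
    Primrec.snd.comp (Primrec.snd.comp (Primrec.snd.comp hq))
  have two_add : ∀ {f : (Machine × ℕ × ForceArg) → ℕ}, Primrec f → Primrec fun p => 2 + f p :=
    fun hf => Primrec.nat_add.comp (Primrec.const 2) hf
  have one_add : ∀ {f : (Machine × ℕ × ForceArg) → ℕ}, Primrec f → Primrec fun p => 1 + f p :=
    fun hf => Primrec.nat_add.comp (Primrec.const 1) hf
  have t1 : Primrec fun p : Machine × ℕ × ForceArg => timeT 1 p.2.2.2.1.1 p.2.2.2.2.1 :=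
    primrec_timeT (Primrec.const 1) ha ht
  have t2 : Primrec fun p : Machine × ℕ × ForceArg => timeT 2 p.2.2.2.1.1 p.2.2.2.2.1 :=
    primrec_timeT (Primrec.const 2) ha ht
  have t1' : Primrec fun p : Machine × ℕ × ForceArg => timeT 1 (1 + p.2.2.2.1.1) p.2.2.2.2.1 :=
    primrec_timeT (Primrec.const 1) (one_add ha) ht
  refine Primrec.ite (Primrec.eq.comp hi (Primrec.const 0)) ?_ ?_
  · refine Primrec.pair ?_ (Primrec.pair ?_ (Primrec.pair ?_ ?_))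
    · exact primrec_tScale.comp (Primrec.const _)
        (primrec_tMul.comp t1' (primrec_XT hM hb hc hd h1 h2))
    · exact primrec_tMul.comp t2 (primrec_Q1T hM hb hc hd h0 h1 h2)
    · exact primrec_tMul.comp t1 (primrec_XT hM hb (two_add hc) hd h1 h2)
    · exact primrec_tMul.comp t1 (primrec_XT hM hb hc (two_add hd) h1 h2)
  · refine Primrec.ite (Primrec.eq.comp hi (Primrec.const 1)) ?_ ?_
    · refine Primrec.pair ?_ (Primrec.pair ?_ (Primrec.pair ?_ ?_))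
      · exact primrec_tScale.comp (Primrec.const _)
          (primrec_tMul.comp t1' (primrec_YT hM hb hc hd h0 h2))
      · exact primrec_tMul.comp t2 (primrec_Q2T hM hb hc hd h0 h1 h2)
      · exact primrec_tMul.comp t1 (primrec_YT hM (two_add hb) hc hd h0 h2)
      · exact primrec_tMul.comp t1 (primrec_YT hM hb hc (two_add hd) h0 h2)
    · refine Primrec.pair ?_ (Primrec.const _)
      refine primrec_tScale.comp ?_ (primrec_timeVT (one_add ha) ht)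
      refine Primrec.ite ?_ (primrec_zetaQ.comp hW) (Primrec.const _)
      exact (Primrec.eq.comp hb (Primrec.const 0)).and
        ((Primrec.eq.comp hc (Primrec.const 0)).and (Primrec.eq.comp hd (Primrec.const 0)))

lemma primrec_combo {fT : α → Term × Term × Term × Term} {fn : α → RatCode} {fk : α → ℕ}
    (hT : Primrec fT) (hn : Primrec fn) (hk : Primrec fk) :
    Primrec fun x => combo (fT x) (fn x) (fk x) := by
  unfold combo
  have hp : Primrec fun x => 5 * (fk x + 1) - 1 :=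
    Primrec.nat_sub.comp (Primrec.nat_mul.comp (Primrec.const 5) (Primrec.succ.comp hk))
      (Primrec.const 1)
  have h1 := Primrec.fst.comp hT
  have h2 := Primrec.fst.comp (Primrec.snd.comp hT)
  have h3 := Primrec.fst.comp (Primrec.snd.comp (Primrec.snd.comp hT))
  have h4 := Primrec.snd.comp (Primrec.snd.comp (Primrec.snd.comp hT))
  exact primrec_qAdd.comp (primrec_qAdd.comp (primrec_tApprox.comp h1 hp) (primrec_tApprox.comp h2 hp))
    (primrec_qAdd.comp (primrec_tApprox.comp (primrec_tScale.comp hn h3) hp)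
      (primrec_tApprox.comp (primrec_tScale.comp hn h4) hp))

lemma primrec_nuIndex {fT : α → Term × Term × Term × Term} {fk : α → ℕ}
    (hT : Primrec fT) (hk : Primrec fk) : Primrec fun x => nuIndex (fT x) (fk x) := by
  unfold nuIndex
  have h3 := Primrec.fst.comp (Primrec.snd.comp (Primrec.snd.comp hT))
  have h4 := Primrec.snd.comp (Primrec.snd.comp (Primrec.snd.comp hT))
  refine Primrec.nat_sub.comp (Primrec.nat_mul.comp (Primrec.nat_mul.comp (Primrec.const 5)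
    (Primrec.succ.comp hk)) ?_) (Primrec.const 1)
  exact Primrec.succ.comp (Primrec.nat_add.comp (primrec_tBd.comp h3) (primrec_tBd.comp h4))

end pr


end Vale.Agent.P113
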