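import Vale.Agent.P113.CompileA
namespace Vale.Agent.P113

/-- Full argument of the force program in coded form. -/
abbrev FullArg := Machine × ℕ × ForceArg × ℕ

lemma primrec_termsFull : Primrec fun p : FullArg => termsOf p.1 p.2.1 p.2.2.1 :=
  primrec_termsOf.comp (Primrec.fst.pair ((Primrec.fst.comp Primrec.snd).pair
    (Primrec.fst.comp (Primrec.snd.comp Primrec.snd))))

lemma primrec_kFull : Primrec fun p : FullArg => p.2.2.2 :=
  Primrec.snd.comp (Primrec.snd.comp Primrec.snd)

lemma computable_nuFull {s : ℕ → RatCode} (hs : Computable s) :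
    Computable fun p : FullArg => s (nuIndex (termsOf p.1 p.2.1 p.2.2.1) p.2.2.2) :=
  hs.comp (primrec_nuIndex primrec_termsFull primrec_kFull).to_comp

lemma primrec_coreFull : Primrec fun r : FullArg × RatCode =>
    combo (termsOf r.1.1 r.1.2.1 r.1.2.2.1) r.2 r.1.2.2.2 := by
  have h1 : Primrec fun r : FullArg × RatCode => termsOf r.1.1 r.1.2.1 r.1.2.2.1 :=
    primrec_termsFull.comp Primrec.fst
  have h2 : Primrec fun r : FullArg × RatCode => r.1.2.2.2 := primrec_kFull.comp Primrec.fst
  exact primrec_combo h1 Primrec.snd h2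

theorem computable_forceApprox {s : ℕ → RatCode} (hs : Computable s) :
    Computable fun p : FullArg => forceApprox s p.1 p.2.1 p.2.2.1 p.2.2.2 := by
  have h := primrec_coreFull.to_comp.comp (Computable.id.pair (computable_nuFull hs))
  exact h.of_eq (fun p => rfl)

end Vale.Agent.P113
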