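import Mathlib

/-!
Statement-level definitions for problem P113 (halting detection by particle
trajectories of forced Navier-Stokes flows started from rest on the flat torus).

Fields on the torus are 1-periodic functions on R^3.
-/

open MeasureTheory Set

namespace Vale.Agent.P113

/-- Euclidean 3-space as coordinate vectors; a point of the torus is a point of `V3` modulo `ℤ³`. -/
abbrev V3 := Fin 3 → ℝ

/-- 1-periodicity in each space variable, i.e. `g` descends to the torus `ℝ³/ℤ³`. -/
def Periodic3 {β : Type} (g : V3 → β) : Prop :=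
  ∀ (x : V3) (k : Fin 3 → ℤ), g (fun i => x i + (k i : ℝ)) = g x

/-- The space derivative `∂_j g (x)`. -/
noncomputable def pd (j : Fin 3) (g : V3 → ℝ) (x : V3) : ℝ :=
  fderiv ℝ g x (Pi.single j 1)

/-- `(u, p)` is a classical solution on `[0, T]` of the forced Navier-Stokes system from rest with
viscosity `ν` and force `f`: `u`, `∂_t u`, the space derivatives of `u` up to order two, `p` and
`∇p` are continuous on `[0,T] × 𝕋³`, the equations hold pointwise and `p` has space mean zero. -/
structure IsClassicalSolution (ν : ℝ) (f : ℝ → V3 → V3) (T : ℝ)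
    (u : ℝ → V3 → V3) (p : ℝ → V3 → ℝ) : Prop where
  periodic_u : ∀ t ∈ Icc 0 T, Periodic3 (u t)
  periodic_p : ∀ t ∈ Icc 0 T, Periodic3 (p t)
  contDiff_u : ∀ t ∈ Icc 0 T, ContDiff ℝ 2 (u t)
  contDiff_p : ∀ t ∈ Icc 0 T, ContDiff ℝ 1 (p t)
  cont_u : ∀ i, ContinuousOn (fun q : ℝ × V3 => u q.1 q.2 i) (Icc 0 T ×ˢ univ)
  cont_du : ∀ i j, ContinuousOn (fun q : ℝ × V3 => pd j (fun y => u q.1 y i) q.2) (Icc 0 T ×ˢ univ)
  cont_ddu : ∀ i j k, ContinuousOn
    (fun q : ℝ × V3 => pd k (pd j (fun y => u q.1 y i)) q.2) (Icc 0 T ×ˢ univ)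
  diff_t : ∀ i x, ∀ t ∈ Icc 0 T, DifferentiableWithinAt ℝ (fun s => u s x i) (Icc 0 T) t
  cont_ut : ∀ i, ContinuousOn
    (fun q : ℝ × V3 => derivWithin (fun s => u s q.2 i) (Icc 0 T) q.1) (Icc 0 T ×ˢ univ)
  cont_p : ContinuousOn (fun q : ℝ × V3 => p q.1 q.2) (Icc 0 T ×ˢ univ)
  cont_dp : ∀ j, ContinuousOn (fun q : ℝ × V3 => pd j (p q.1) q.2) (Icc 0 T ×ˢ univ)
  mean_p : ∀ t ∈ Icc 0 T, ∫ x in Icc (0 : V3) 1, p t x = 0
  momentum : ∀ t ∈ Icc 0 T, ∀ x i,
    derivWithin (fun s => u s x i) (Icc 0 T) t + ∑ j, u t x j * pd j (fun y => u t y i) x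
      = - pd i (p t) x + ν * ∑ j, pd j (pd j (fun y => u t y i)) x + f t x i
  incompressible : ∀ t ∈ Icc 0 T, ∀ x, ∑ j, pd j (fun y => u t y j) x = 0
  initial : ∀ x, u 0 x = 0

/-- `X` is the (lifted) particle trajectory of the velocity field `u` started at `a`. -/
def IsTrajectory (u : ℝ → V3 → V3) (a : V3) (X : ℝ → V3) : Prop :=
  X 0 = a ∧ ∀ t, 0 ≤ t → HasDerivWithinAt X (u t (X t)) (Ici 0) t

/-- A rational number as a triple of naturals `(a, b, c)`, with value `(a - b) / (c + 1)`. -/
abbrev RatCode := ℕ × ℕ × ℕ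

/-- The value of a rational code. -/
noncomputable def ratVal (r : RatCode) : ℝ := ((r.1 : ℝ) - (r.2.1 : ℝ)) / ((r.2.2 : ℝ) + 1)

/-- The real `x` is computable: a program outputs rational approximations with error `≤ 1/(n+1)`. -/
def IsComputableReal (x : ℝ) : Prop :=
  ∃ s : ℕ → RatCode, Computable s ∧ ∀ n : ℕ, |x - ratVal (s n)| ≤ 1 / ((n : ℝ) + 1)

/-- The time derivative of a scalar field. -/
noncomputable def dT (g : ℝ → V3 → ℝ) : ℝ → V3 → ℝ := fun t x => deriv (fun s => g s x) t

/-- The space derivative of a scalar field. -/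
noncomputable def dX (j : Fin 3) (g : ℝ → V3 → ℝ) : ℝ → V3 → ℝ := fun t x => pd j (g t) x

/-- The mixed derivative `∂_t^a ∂_1^b ∂_2^c ∂_3^d g` for `α = (a, b, c, d)`. -/
noncomputable def mixedDeriv (α : ℕ × ℕ × ℕ × ℕ) (g : ℝ → V3 → ℝ) : ℝ → V3 → ℝ :=
  dT^[α.1] ((dX 0)^[α.2.1] ((dX 1)^[α.2.2.1] ((dX 2)^[α.2.2.2] g)))

/-- The program `c` evaluates the force `f`: on a component `i`, a multi-index `α`, a rational point
`q = (t, x₁, x₂, x₃)` with `t ≥ 0` and an accuracy index `k`, it halts and outputs a rational within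
`1/(k+1)` of `∂^α f_i (q)`. -/
def IsProgramFor (c : Nat.Partrec.Code) (f : ℝ → V3 → V3) : Prop :=
  ∀ (i : Fin 3) (α : ℕ × ℕ × ℕ × ℕ) (q : RatCode × RatCode × RatCode × RatCode) (k : ℕ),
    0 ≤ ratVal q.1 →
    ∃ r : RatCode, c.eval (Encodable.encode (i, α, q, k)) = Part.some (Encodable.encode r) ∧
      |mixedDeriv α (fun t x => f t x i) (ratVal q.1)
          ![ratVal q.2.1, ratVal q.2.2.1, ratVal q.2.2.2] - ratVal r| ≤ 1 / ((k : ℝ) + 1)

/-- A smooth (time-dependent) field on the torus. -/
def IsSmoothField (f : ℝ → V3 → V3) : Prop :=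
  ContDiff ℝ (⊤ : ℕ∞) (fun q : ℝ × V3 => f q.1 q.2) ∧ ∀ t, Periodic3 (f t)

/-- A Turing machine given by its finite tables. States and tape symbols are natural numbers, `0`
being the initial state and also the blank symbol. The first list is the transition table: the entry
at position `Nat.pair q a` is the triple (next state, written symbol, move), where the move `some true`
is one cell to the right, `some false` one cell to the left and `none` no move (a pair beyond the end
of the table means: keep state and symbol, no move). The second list flags the halting states (states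
beyond its end are not halting). -/
abbrev Machine := List (ℕ × ℕ × Option Bool) × List Bool

/-- The transition function of a machine. -/
def Machine.delta (M : Machine) (q a : ℕ) : ℕ × ℕ × Option Bool :=
  M.1.getD (Nat.pair q a) (q, a, none)

/-- Halting states of a machine. -/
def Machine.isHalting (M : Machine) (q : ℕ) : Bool := M.2.getD q false

/-- A configuration `(q, L, R)`: the state, the tape cells left of the head (nearest first) and the
tape cells from the head on to the right (head cell first). All cells not listed are blank. -/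
abbrev Config := ℕ × List ℕ × List ℕ

/-- One step of the machine on the two-sided tape. -/
def Machine.step (M : Machine) (c : Config) : Config :=
  match c, M.delta c.1 (c.2.2.headD 0) with
  | (_, L, R), (q', a', some true) => (q', a' :: L, R.tail)
  | (_, L, R), (q', a', some false) => (q', L.tail, L.headD 0 :: a' :: R.tail)
  | (_, L, R), (q', a', none) => (q', L, a' :: R.tail)

/-- The initial configuration on input `w`: initial state `0`, head at the first cell of `w`. -/
def initConfig (w : List ℕ) : Config := (0, [], w)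

/-- The machine `M` reaches a halting state on input `w` after finitely many steps, possibly none. -/
def Halts (M : Machine) (w : List ℕ) : Prop :=
  ∃ n : ℕ, M.isHalting ((M.step)^[n] (initConfig w)).1 = true

end Vale.Agent.P113
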