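import Vale.Agent.P113.Pd

/-!
Energy inequality for the difference of two classical solutions at a fixed time.
-/

open MeasureTheory Set Filter Topology

namespace Vale.Agent.P113

lemma pd_neg {f : V3 → ℝ} {j : Fin 3} (hf : Differentiable ℝ f) (x : V3) :
    pd j (fun y => - f y) x = - pd j f x := by
  have := pd_const_mul (j := j) (-1) hf x
  simpa using this

theorem energy_ineq (ν : ℝ) (hν : 0 ≤ ν) (v v' vt vt' f : V3 → V3) (π π' : V3 → ℝ)
    (hv : ContDiff ℝ 2 v) (hv' : ContDiff ℝ 2 v') (hπ : ContDiff ℝ 1 π) (hπ' : ContDiff ℝ 1 π')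
    (pv : Periodic3 v) (pv' : Periodic3 v') (pπ : Periodic3 π) (pπ' : Periodic3 π')
    (hvt : Continuous vt) (hvt' : Continuous vt')
    (mom : ∀ x i, vt x i + ∑ j, v x j * pd j (fun y => v y i) x
      = - pd i π x + ν * ∑ j, pd j (pd j (fun y => v y i)) x + f x i)
    (mom' : ∀ x i, vt' x i + ∑ j, v' x j * pd j (fun y => v' y i) x
      = - pd i π' x + ν * ∑ j, pd j (pd j (fun y => v' y i)) x + f x i)
    (div : ∀ x, ∑ j, pd j (fun y => v y j) x = 0)
    (div' : ∀ x, ∑ j, pd j (fun y => v' y j) x = 0)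
    (M : ℝ) (hM : ∀ x ∈ Icc (0 : V3) 1, ∀ i j, |pd j (fun y => v y i) x| ≤ M) :
    ∫ x in Icc (0 : V3) 1, ∑ i, (v' x i - v x i) * (vt' x i - vt x i)
      ≤ 3 * M * ∫ x in Icc (0 : V3) 1, ∑ i, (v' x i - v x i) ^ 2 := by
  have hvi : ∀ i, ContDiff ℝ 2 (fun y => v y i) := fun i => contDiff_pi.mp hv i
  have hvi' : ∀ i, ContDiff ℝ 2 (fun y => v' y i) := fun i => contDiff_pi.mp hv' i
  set W : Fin 3 → V3 → ℝ := fun i y => v' y i - v y i with hW
  set Q : V3 → ℝ := fun y => π' y - π y with hQ
  have hWc : ∀ i, ContDiff ℝ 2 (W i) := fun i => (hvi' i).sub (hvi i)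
  have hQc : ContDiff ℝ 1 Q := hπ'.sub hπ
  have hWd : ∀ i, Differentiable ℝ (W i) := fun i => (hWc i).differentiable (by norm_num)
  have hvd : ∀ i, Differentiable ℝ (fun y => v y i) := fun i => (hvi i).differentiable (by norm_num)
  have hvd' : ∀ i, Differentiable ℝ (fun y => v' y i) :=
    fun i => (hvi' i).differentiable (by norm_num)
  have hQd : Differentiable ℝ Q := hQc.differentiable (by norm_num)
  have hdWc : ∀ i j, ContDiff ℝ 1 (pd j (W i)) := fun i j => contDiff_pd (n := 1) (by simpa using hWc i)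
  have hdWd : ∀ i j, Differentiable ℝ (pd j (W i)) :=
    fun i j => (hdWc i j).differentiable (by norm_num)
  have pvi : ∀ i x (k : Fin 3 → ℤ), v (fun m => x m + (k m : ℝ)) i = v x i :=
    fun i x k => congrFun (pv x k) i
  have pvi' : ∀ i x (k : Fin 3 → ℤ), v' (fun m => x m + (k m : ℝ)) i = v' x i :=
    fun i x k => congrFun (pv' x k) i
  have pW : ∀ i, Periodic3 (W i) := fun i x k => by
    simp only [hW]; rw [pvi i x k, pvi' i x k]
  have pQ : Periodic3 Q := fun x k => by simp only [hQ]; rw [pπ x k, pπ' x k]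
  have pdW : ∀ i j, Periodic3 (pd j (W i)) := fun i j => periodic_pd (pW i)
  set S : V3 → ℝ := fun y => (1 / 2) * ∑ i, W i y * W i y with hS
  have hSS : ∀ j, Differentiable ℝ (fun y => ∑ i, W i y * pd j (W i) y) := fun j =>
    Differentiable.fun_sum (fun i _ => (hWd i).fun_mul (hdWd i j))
  have hSd : Differentiable ℝ S :=
    (differentiable_const _).fun_mul (Differentiable.fun_sum (fun i _ => (hWd i).fun_mul (hWd i)))
  set G : Fin 3 → V3 → ℝ := fun j y =>
    -(v' y j * S y) - W j y * Q y + ν * ∑ i, W i y * pd j (W i) y with hG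
  have hGc : ∀ j, ContDiff ℝ 1 (G j) := by
    intro j
    have h1 : ContDiff ℝ 1 S := contDiff_const.mul (ContDiff.sum (fun i _ =>
      ((hWc i).of_le (by norm_num)).mul ((hWc i).of_le (by norm_num))))
    have h2 : ContDiff ℝ 1 (fun y => v' y j) := (hvi' j).of_le (by norm_num)
    have h3 : ContDiff ℝ 1 (W j) := (hWc j).of_le (by norm_num)
    exact ((h2.mul h1).neg.sub (h3.mul hQc)).add (contDiff_const.mul (ContDiff.sum (fun i _ =>
      ((hWc i).of_le (by norm_num)).mul (hdWc i j))))
  have hGp : ∀ j, Periodic3 (G j) := by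
    intro j x k
    have h1 : ∀ i, W i (fun m => x m + (k m : ℝ)) = W i x := fun i => pW i x k
    have h2 : ∀ i, pd j (W i) (fun m => x m + (k m : ℝ)) = pd j (W i) x := fun i => pdW i j x k
    have h3 := pQ x k
    have h4 := pvi' j x k
    simp only [hG, hS, h1, h2, h3, h4]
  have hzero := integral_div_eq_zero G hGc hGp
  -- the formula for the divergence
  have hSpd : ∀ j x, pd j S x = ∑ i, W i x * pd j (W i) x := by
    intro j x
    simp only [hS]
    rw [pd_const_mul _ (Differentiable.fun_sum (fun i _ => (hWd i).fun_mul (hWd i))),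
      pd_sum _ _ (fun i _ => (hWd i).fun_mul (hWd i))]
    rw [Finset.mul_sum]
    apply Finset.sum_congr rfl
    intro i _
    rw [pd_mul (hWd i) (hWd i)]
    ring
  have hGpd : ∀ j x, pd j (G j) x =
      -(v' x j * ∑ i, W i x * pd j (W i) x + S x * pd j (fun y => v' y j) x)
      - (W j x * pd j Q x + Q x * pd j (W j) x)
      + ν * ∑ i, (W i x * pd j (pd j (W i)) x + pd j (W i) x * pd j (W i) x) := by
    intro j x
    simp only [hG]
    have d1 : Differentiable ℝ (fun y => v' y j * S y) := (hvd' j).fun_mul hSd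
    have d2 : Differentiable ℝ (fun y => W j y * Q y) := (hWd j).fun_mul hQd
    rw [pd_add (d1.fun_neg.fun_sub d2) ((differentiable_const _).fun_mul (hSS j)),
      pd_sub d1.fun_neg d2, pd_neg d1, pd_mul (hvd' j) hSd, pd_mul (hWd j) hQd,
      pd_const_mul _ (hSS j), pd_sum _ _ (fun i _ => (hWd i).fun_mul (hdWd i j)), hSpd]
    congr 2
    apply Finset.sum_congr rfl
    intro i _
    rw [pd_mul (hWd i) (hdWd i j)]
  -- expressing everything with derivatives of `v`, `v'`
  have e1 : ∀ i j x, pd j (W i) x = pd j (fun y => v' y i) x - pd j (fun y => v y i) x :=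
    fun i j x => pd_sub (hvd' i) (hvd i) x
  have e2 : ∀ i j x, pd j (pd j (W i)) x
      = pd j (pd j (fun y => v' y i)) x - pd j (pd j (fun y => v y i)) x := by
    intro i j x
    have hfun : pd j (W i) = fun x => pd j (fun y => v' y i) x - pd j (fun y => v y i) x := by
      funext y; exact e1 i j y
    rw [hfun]
    apply pd_sub
    · exact (contDiff_pd (n := 1) (by simpa using hvi' i)).differentiable (by norm_num)
    · exact (contDiff_pd (n := 1) (by simpa using hvi i)).differentiable (by norm_num)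
  have e3 : ∀ j x, pd j Q x = pd j π' x - pd j π x := fun j x =>
    pd_sub (hπ'.differentiable (by norm_num)) (hπ.differentiable (by norm_num)) x
  -- pointwise identity
  have hid : ∀ x, ∑ i, W i x * (vt' x i - vt x i)
      = ∑ j, pd j (G j) x - ν * ∑ i, ∑ j, (pd j (W i) x) ^ 2
        - ∑ i, ∑ j, W i x * W j x * pd j (fun y => v y i) x := by
    intro x
    have hm0 := mom x 0
    have hm1 := mom x 1
    have hm2 := mom x 2
    have hm0' := mom' x 0
    have hm1' := mom' x 1
    have hm2' := mom' x 2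
    have hd := div x
    have hd' := div' x
    simp only [hGpd, e1, e2, e3, Fin.sum_univ_three] at hm0 hm1 hm2 hm0' hm1' hm2' hd hd' ⊢
    simp only [hW, hQ, hS, Fin.sum_univ_three]
    linear_combination (v' x 0 - v x 0) * (hm0' - hm0) + (v' x 1 - v x 1) * (hm1' - hm1)
      + (v' x 2 - v x 2) * (hm2' - hm2)
      + ((1 / 2) * ((v' x 0 - v x 0) * (v' x 0 - v x 0) + (v' x 1 - v x 1) * (v' x 1 - v x 1)
        + (v' x 2 - v x 2) * (v' x 2 - v x 2)) + (π' x - π x)) * hd'
      - (π' x - π x) * hd
  -- pointwise inequality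
  have hpt : ∀ x ∈ Icc (0 : V3) 1, ∑ i, W i x * (vt' x i - vt x i)
      ≤ ∑ j, pd j (G j) x + 3 * M * ∑ i, (W i x) ^ 2 := by
    intro x hx
    rw [hid x]
    have hB : 0 ≤ ν * ∑ i, ∑ j, (pd j (W i) x) ^ 2 :=
      mul_nonneg hν (Finset.sum_nonneg (fun i _ => Finset.sum_nonneg (fun j _ => sq_nonneg _)))
    have hM0 : 0 ≤ M := le_trans (abs_nonneg _) (hM x hx 0 0)
    have key : ∀ i j, -(W i x * W j x * pd j (fun y => v y i) x)
        ≤ M * ((W i x) ^ 2 + (W j x) ^ 2) / 2 := by
      intro i j
      have h1 := hM x hx i j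
      have h2 : |W i x * W j x| ≤ ((W i x) ^ 2 + (W j x) ^ 2) / 2 := by
        rw [abs_le]
        constructor <;> nlinarith [sq_nonneg (W i x + W j x), sq_nonneg (W i x - W j x)]
      have h3 : |W i x * W j x * pd j (fun y => v y i) x| ≤ ((W i x) ^ 2 + (W j x) ^ 2) / 2 * M := by
        rw [abs_mul]
        exact mul_le_mul h2 h1 (abs_nonneg _) (le_trans (abs_nonneg _) h2)
      have h4 := neg_abs_le (W i x * W j x * pd j (fun y => v y i) x)
      linarith
    have k00 := key 0 0
    have k01 := key 0 1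
    have k02 := key 0 2
    have k10 := key 1 0
    have k11 := key 1 1
    have k12 := key 1 2
    have k20 := key 2 0
    have k21 := key 2 1
    have k22 := key 2 2
    simp only [Fin.sum_univ_three] at hB ⊢
    linarith
  have hcontG : Continuous (fun x => ∑ j, pd j (G j) x) :=
    continuous_finsetSum _ (fun j _ => continuous_pd (hGc j))
  have hcontW : ∀ i, Continuous (W i) := fun i => (hWc i).continuous
  have hcontS2 : Continuous (fun x => ∑ i, (W i x) ^ 2) :=
    continuous_finsetSum _ (fun i _ => (hcontW i).pow 2)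
  have hcontL : Continuous (fun x => ∑ i, W i x * (vt' x i - vt x i)) :=
    continuous_finsetSum _ (fun i _ => (hcontW i).mul
      (((continuous_apply i).comp hvt').sub ((continuous_apply i).comp hvt)))
  have hint : ∀ {h : V3 → ℝ}, Continuous h → IntegrableOn h (Icc (0 : V3) 1) :=
    fun hc => hc.continuousOn.integrableOn_compact isCompact_Icc
  have hcontR : Continuous (fun x => ∑ j, pd j (G j) x + 3 * M * ∑ i, (W i x) ^ 2) :=
    hcontG.add (continuous_const.mul hcontS2)
  have hmono := setIntegral_mono_on (hint hcontL) (hint hcontR) measurableSet_Icc hpt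
  refine le_trans hmono (le_of_eq ?_)
  have hc2 : IntegrableOn (fun x => 3 * M * ∑ i, (W i x) ^ 2) (Icc (0 : V3) 1) :=
    hint (continuous_const.mul hcontS2)
  rw [integral_add (hint hcontG) hc2, hzero, zero_add, integral_const_mul]

end Vale.Agent.P113
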