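import Vale.Agent.P113.Flow

/-!
The two dynamical alternatives of the planar staircase flow.
-/

open Real Set Filter Topology

namespace Vale.Agent.P113

/-- Column coefficients. -/
noncomputable def cc (n : ℕ) : ℝ := (aa n + aa (n + 1)) / 2

lemma aa_succ_le (n : ℕ) : aa (n + 1) ≤ aa n := by
  unfold aa
  apply pow_le_pow_of_le_one (by norm_num) (by norm_num)
  nlinarith

lemma adm_aa : Adm aa := fun n => ⟨(aa_pos n).le, le_rfl⟩

lemma cc_pos (n : ℕ) : 0 < cc n := by
  unfold cc; have := aa_pos n; have := aa_pos (n + 1); linarith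

lemma adm_cc : Adm cc := fun n => ⟨(cc_pos n).le, by
  unfold cc; have := aa_succ_le n; linarith⟩

/-- The truncation of a coefficient sequence after level `N`. -/
noncomputable def trunc (b : ℕ → ℝ) (N n : ℕ) : ℝ := if n ≤ N then b n else 0

lemma adm_trunc {b : ℕ → ℝ} (hb : Adm b) (N : ℕ) : Adm (trunc b N) := by
  intro n
  unfold trunc
  split_ifs
  · exact hb n
  · exact ⟨le_rfl, (aa_pos n).le⟩

lemma exists_level_above {v : ℝ} (hv : 0 < v) : ∃ n, 2 ≤ Lam n * v := by
  obtain ⟨n, hn⟩ := pow_unbounded_of_one_lt (2 / v) (show (1 : ℝ) < 4 by norm_num)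
  refine ⟨n, ?_⟩
  have h1 : (4 : ℝ) ^ n ≤ Lam n := pow_le_pow_right₀ (by norm_num) (by omega)
  rw [div_lt_iff₀ hv] at hn
  nlinarith

lemma Pr_pos_of_pos {r : ℕ → ℝ} (hr : Adm r) (hpos : ∀ n, 0 < r n) {v : ℝ} (h0 : 0 < v) (h1 : v < 1) :
    0 < Pr r v := by
  obtain ⟨n, hn⟩ := exists_level_above h0
  have hsum := hr.summable_Pr_term v
  have hwin : ∀ m, Pn m v = Th (Lam m * v - 1) := fun m => Pn_window m (by linarith) h1
  unfold Pr
  have hle : r n * Pn n v ≤ ∑' m, r m * Pn m v :=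
    hsum.le_tsum n (fun m _ => by
      rw [hwin m]; exact mul_nonneg (hr m).1 (Th_nonneg _))
  have hval : r n * Pn n v = r n * kap := by
    rw [hwin n, Th_of_one_le (by linarith)]
  have : 0 < r n * kap := mul_pos (hpos n) kap_pos
  linarith

lemma Pr_nonpos_of_nonpos {r : ℕ → ℝ} (hr : Adm r) {v : ℝ} (h : v ≤ 0) : Pr r v ≤ 0 := by
  have h1 := hr.Pr_mono h
  rwa [Pr_zero_of_nonpos r (by norm_num) le_rfl] at h1

lemma lipschitz_Xr {r : ℕ → ℝ} (hr : Adm r) :
    ∃ C : ℝ, 0 ≤ C ∧ ∀ a b, |Xr r a - Xr r b| ≤ C * |a - b| := by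
  set w := fun n => r n * Lam n with hw
  have hder : ∀ y, deriv (Xr r) y = ser1 w 1 1 y := fun y => (hasDerivAt_ser1 hr.sumW 1 0 y).deriv
  refine ⟨ser1Bd w 1 1, le_trans (abs_nonneg _) (abs_ser1_le hr.sumW 1 1 0), fun a b => ?_⟩
  have := Convex.norm_image_sub_le_of_norm_deriv_le (𝕜 := ℝ) (f := Xr r) (s := univ) (x := b) (y := a)
    (C := ser1Bd w 1 1)
    (fun y _ => (hasDerivAt_ser1 hr.sumW 1 0 y).differentiableAt)
    (fun y _ => by rw [hder]; exact abs_ser1_le hr.sumW 1 1 y) convex_univ (mem_univ _) (mem_univ _)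
  simpa using this

section nonhalt

variable {A : ℝ} {x y : ℝ → ℝ}

lemma Pr_aa_start : Pr aa (3 / 8) = kap * (aa 0 / 2 + ∑' n, aa (n + 1)) := by
  have hs := adm_aa.summable_Pr_term (3 / 8)
  unfold Pr
  rw [hs.tsum_eq_zero_add]
  have h0 : Pn 0 (3 / 8) = kap / 2 := by
    rw [Pn_window 0 (by norm_num) (by norm_num)]
    have : Lam 0 * (3 / 8) - 1 = 1 / 2 := by unfold Lam; norm_num
    rw [this, Th_half]
  have h1 : ∀ n, Pn (n + 1) (3 / 8) = kap := by
    intro n
    rw [Pn_window _ (by norm_num) (by norm_num), Th_of_one_le]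
    have : (16 : ℝ) ≤ Lam (n + 1) := by
      have h2 := four_le_Lam n
      rw [Lam_succ]; linarith
    linarith
  simp only [h0, h1]
  rw [tsum_mul_right]
  ring

lemma summable_aa_succ : Summable (fun n => aa (n + 1)) := (summable_nat_add_iff 1).mpr summable_aa

lemma Pr_cc_start : Pr cc (1 / 2) = kap * (aa 0 / 2 + ∑' n, aa (n + 1)) := by
  unfold Pr
  have h1 : ∀ n, Pn n (1 / 2) = kap := by
    intro n
    rw [Pn_window _ (by norm_num) (by norm_num), Th_of_one_le]
    have := four_le_Lam n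
    linarith
  simp only [h1]
  rw [tsum_mul_right]
  unfold cc
  have hs : ∑' n, (aa n + aa (n + 1)) / 2 = (∑' n, aa n) / 2 + (∑' n, aa (n + 1)) / 2 := by
    rw [tsum_div_const, Summable.tsum_add summable_aa summable_aa_succ, add_div]
  rw [hs, summable_aa.tsum_eq_zero_add]
  ring

theorem flow_nonhalt (S : PlanarSol aa cc A x y) (hx1 : x 1 = 1 / 2) (hy1 : y 1 = 3 / 8) :
    ∀ t, 1 ≤ t → 0 < y t ∧ y t ≤ 3 / 8 := by
  have hcons : ∀ t, 1 ≤ t → Pr aa (y t) = Pr cc (x t) := by
    intro t ht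
    have := S.conservation ht
    rw [hx1, hy1, Pr_aa_start, Pr_cc_start] at this
    linarith
  have hyle : ∀ t, 1 ≤ t → y t ≤ 3 / 8 := by
    intro t ht
    rw [← hy1]
    exact S.antitone_y (mem_Ici.mpr le_rfl) (mem_Ici.mpr ht) ht
  have hxle : ∀ t, 1 ≤ t → x t ≤ 1 / 2 := by
    intro t ht
    rw [← hx1]
    exact S.antitone_x (mem_Ici.mpr le_rfl) (mem_Ici.mpr ht) ht
  intro t ht
  refine ⟨?_, hyle t ht⟩
  by_contra hne
  push Not at hne
  -- the first time `y` reaches zero
  have hcont : ContinuousOn y (Icc 1 t) := fun s hs =>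
    (S.hy s hs.1).continuousAt.continuousWithinAt
  set Z : Set ℝ := Icc 1 t ∩ y ⁻¹' Iic 0 with hZ
  have hZclosed : IsClosed Z := hcont.preimage_isClosed_of_isClosed isClosed_Icc isClosed_Iic
  have hZne : Z.Nonempty := ⟨t, ⟨ht, le_rfl⟩, hne⟩
  have hZbdd : BddBelow Z := ⟨1, fun s hs => hs.1.1⟩
  set t₂ := sInf Z with ht₂
  have ht₂mem : t₂ ∈ Z := hZclosed.csInf_mem hZne hZbdd
  have ht₂1 : 1 ≤ t₂ := ht₂mem.1.1
  have hyt₂ : y t₂ ≤ 0 := ht₂mem.2
  have ht₂ne : 1 < t₂ := by
    apply lt_of_le_of_ne ht₂1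
    intro h
    rw [← h, hy1] at hyt₂
    norm_num at hyt₂
  have hypos : ∀ s, 1 ≤ s → s < t₂ → 0 < y s := by
    intro s hs1 hs2
    by_contra hh
    push Not at hh
    have : s ∈ Z := ⟨⟨hs1, le_trans hs2.le ht₂mem.1.2⟩, hh⟩
    have := csInf_le hZbdd this
    linarith
  have hxpos : ∀ s, 1 ≤ s → s < t₂ → 0 < x s := by
    intro s hs1 hs2
    by_contra hh
    push Not at hh
    have h1 := Pr_nonpos_of_nonpos adm_cc hh
    have h2 := Pr_pos_of_pos adm_aa aa_pos (hypos s hs1 hs2) (lt_of_le_of_lt (hyle s hs1) (by norm_num))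
    rw [hcons s hs1] at h2
    linarith
  have hev : ∀ᶠ s in 𝓝[<] t₂, 1 ≤ s ∧ s < t₂ := by
    have : Ioo 1 t₂ ∈ 𝓝[<] t₂ := Ioo_mem_nhdsLT ht₂ne
    filter_upwards [this] with s hs using ⟨hs.1.le, hs.2⟩
  have hyt₂' : 0 ≤ y t₂ := by
    refine ge_of_tendsto (x := 𝓝[<] t₂)
      (((S.hy t₂ ht₂1).continuousAt.tendsto).mono_left nhdsWithin_le_nhds) ?_
    filter_upwards [hev] with s hs using (hypos s hs.1 hs.2).le
  have hxt₂' : 0 ≤ x t₂ := by
    refine ge_of_tendsto (x := 𝓝[<] t₂)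
      (((S.hx t₂ ht₂1).continuousAt.tendsto).mono_left nhdsWithin_le_nhds) ?_
    filter_upwards [hev] with s hs using (hxpos s hs.1 hs.2).le
  have hy0 : y t₂ = 0 := le_antisymm hyt₂ hyt₂'
  have hx0 : x t₂ = 0 := by
    apply le_antisymm _ hxt₂'
    by_contra hh
    push Not at hh
    have h1 := Pr_pos_of_pos adm_cc cc_pos hh (lt_of_le_of_lt (hxle t₂ ht₂1) (by norm_num))
    rw [← hcons t₂ ht₂1, hy0, Pr_zero_of_nonpos aa (by norm_num) le_rfl] at h1
    exact lt_irrefl _ h1
  -- backward uniqueness for the field vanishing at the origin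
  obtain ⟨C₁, hC₁, hL₁⟩ := lipschitz_Xr adm_aa
  obtain ⟨C₂, hC₂, hL₂⟩ := lipschitz_Xr adm_cc
  set B := bumpBd 1 0 with hB
  have hB0 : 0 ≤ B := bumpBd_nonneg 1 0
  set v : ℝ → ℝ × ℝ → ℝ × ℝ := fun s p =>
    (-(timeP 1 0 s * (A * Xr aa p.2)), -(timeP 1 0 s * (A * Xr cc p.1))) with hv
  set K : NNReal := Real.toNNReal (B * A * (C₁ + C₂)) with hK
  have hKval : (K : ℝ) = B * A * (C₁ + C₂) :=
    Real.coe_toNNReal _ (by have := S.hA.le; positivity)
  have hlip : ∀ s, LipschitzWith K (v s) := by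
    intro s
    apply LipschitzWith.of_dist_le_mul
    intro p q
    have hτ : |timeP 1 0 s| ≤ B := abs_prof_le 1 0 4 _
    have hA := S.hA
    rw [Prod.dist_eq, hKval]
    apply max_le
    · simp only [hv, Real.dist_eq]
      have h1 : -(timeP 1 0 s * (A * Xr aa p.2)) - -(timeP 1 0 s * (A * Xr aa q.2))
          = -(timeP 1 0 s * A * (Xr aa p.2 - Xr aa q.2)) := by ring
      rw [h1, abs_neg, abs_mul, abs_mul, abs_of_pos hA]
      have h2 : |p.2 - q.2| ≤ dist p q := by
        rw [← Real.dist_eq, Prod.dist_eq]; exact le_max_right _ _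
      calc |timeP 1 0 s| * A * |Xr aa p.2 - Xr aa q.2|
          ≤ B * A * (C₁ * |p.2 - q.2|) := by
            apply mul_le_mul (mul_le_mul_of_nonneg_right hτ hA.le) (hL₁ _ _) (abs_nonneg _)
            positivity
        _ ≤ B * A * ((C₁ + C₂) * dist p q) := by
            apply mul_le_mul_of_nonneg_left _ (by positivity)
            apply mul_le_mul (by linarith) h2 (abs_nonneg _) (by linarith)
        _ = _ := by ring
    · simp only [hv, Real.dist_eq]
      have h1 : -(timeP 1 0 s * (A * Xr cc p.1)) - -(timeP 1 0 s * (A * Xr cc q.1))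
          = -(timeP 1 0 s * A * (Xr cc p.1 - Xr cc q.1)) := by ring
      rw [h1, abs_neg, abs_mul, abs_mul, abs_of_pos hA]
      have h2 : |p.1 - q.1| ≤ dist p q := by
        rw [← Real.dist_eq, Prod.dist_eq]; exact le_max_left _ _
      calc |timeP 1 0 s| * A * |Xr cc p.1 - Xr cc q.1|
          ≤ B * A * (C₂ * |p.1 - q.1|) := by
            apply mul_le_mul (mul_le_mul_of_nonneg_right hτ hA.le) (hL₂ _ _) (abs_nonneg _)
            positivity
        _ ≤ B * A * ((C₁ + C₂) * dist p q) := by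
            apply mul_le_mul_of_nonneg_left _ (by positivity)
            apply mul_le_mul (by linarith) h2 (abs_nonneg _) (by linarith)
        _ = _ := by ring
  have hfder : ∀ s ∈ Ioc 1 t₂, HasDerivWithinAt (fun s => (x s, y s)) (v s (x s, y s)) (Iic s) s := by
    intro s hs
    exact ((S.hx s hs.1.le).prodMk (S.hy s hs.1.le)).hasDerivWithinAt
  have hgder : ∀ s ∈ Ioc 1 t₂, HasDerivWithinAt (fun _ : ℝ => ((0 : ℝ), (0 : ℝ)))
      (v s ((0 : ℝ), (0 : ℝ))) (Iic s) s := by
    intro s _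
    have : v s ((0 : ℝ), (0 : ℝ)) = ((0 : ℝ), (0 : ℝ)) := by
      simp [hv, Xr_zero_at_zero]
    rw [this]
    exact hasDerivWithinAt_const _ _ _
  have huniq := ODE_solution_unique_of_mem_Icc_left (s := fun _ => univ) (K := K) (v := v)
    (f := fun s => (x s, y s)) (g := fun _ => ((0 : ℝ), (0 : ℝ))) (a := 1) (b := t₂)
    (fun s _ => (hlip s).lipschitzOnWith)
    (fun s hs => (((S.hx s hs.1).prodMk (S.hy s hs.1)).continuousAt).continuousWithinAt)
    hfder (fun _ _ => mem_univ _) continuousOn_const hgder (fun _ _ => mem_univ _)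
    (by simp [hx0, hy0])
  have h1 := huniq (left_mem_Icc.mpr ht₂1)
  simp only [Prod.mk.injEq] at h1
  rw [hx1] at h1
  norm_num at h1

end nonhalt

section halt

variable {A : ℝ} {x y : ℝ → ℝ} {N : ℕ}

/-- Tail sums of the coefficients. -/
noncomputable def tailS (b : ℕ → ℝ) (N j : ℕ) : ℝ := ∑ n ∈ Finset.Ico j (N + 1), b n

lemma Pr_trunc_eq (b : ℕ → ℝ) (N : ℕ) {v : ℝ} (h1 : -(1 / 2) < v) (h2 : v < 1) :
    Pr (trunc b N) v = ∑ n ∈ Finset.range (N + 1), b n * Th (Lam n * v - 1) := by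
  rw [Pr_window _ h1 h2]
  rw [tsum_eq_sum (s := Finset.range (N + 1))]
  · apply Finset.sum_congr rfl
    intro n hn
    have : n ≤ N := Nat.lt_succ_iff.mp (Finset.mem_range.mp hn)
    simp [trunc, this]
  · intro n hn
    have : ¬ n ≤ N := by
      intro h; exact hn (Finset.mem_range.mpr (Nat.lt_succ_iff.mpr h))
    simp [trunc, this]

lemma Xr_trunc_eq (b : ℕ → ℝ) (N : ℕ) {v : ℝ} (h1 : -(1 / 2) < v) (h2 : v < 1) :
    Xr (trunc b N) v = ∑ n ∈ Finset.range (N + 1), b n * Lam n * bump 1 (Lam n * v - 1) := by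
  rw [Xr_window _ h1 h2]
  rw [tsum_eq_sum (s := Finset.range (N + 1))]
  · apply Finset.sum_congr rfl
    intro n hn
    have : n ≤ N := Nat.lt_succ_iff.mp (Finset.mem_range.mp hn)
    simp [trunc, this]
  · intro n hn
    have : ¬ n ≤ N := by
      intro h; exact hn (Finset.mem_range.mpr (Nat.lt_succ_iff.mpr h))
    simp [trunc, this]

/-- At a zero of the truncated field the primitive is a tail sum. -/
lemma eval_tail {b : ℕ → ℝ} (hb : ∀ n, 0 < b n) {v : ℝ} (h1 : -(1 / 2) < v) (h2 : v < 1)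
    (h0 : Xr (trunc b N) v = 0) :
    ∃ j, j ≤ N + 1 ∧ Pr (trunc b N) v = kap * tailS b N j := by
  classical
  rw [Xr_trunc_eq b N h1 h2] at h0
  have hterm : ∀ n ∈ Finset.range (N + 1), b n * Lam n * bump 1 (Lam n * v - 1) = 0 :=
    (Finset.sum_eq_zero_iff_of_nonneg (fun n _ =>
      mul_nonneg (mul_nonneg (hb n).le (Lam_pos n).le) (bump_nonneg 1 _))).mp h0
  have hgap : ∀ n, n ≤ N → Lam n * v - 1 ≤ 0 ∨ 1 ≤ Lam n * v - 1 := by
    intro n hn
    have h := hterm n (Finset.mem_range.mpr (Nat.lt_succ_iff.mpr hn))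
    have hne : b n * Lam n ≠ 0 := (mul_pos (hb n) (Lam_pos n)).ne'
    have h3 : bump 1 (Lam n * v - 1) = 0 := by
      rcases mul_eq_zero.mp h with h4 | h4
      · exact absurd h4 hne
      · exact h4
    by_contra hh
    push Not at hh
    exact (bump_pos one_pos hh.1 hh.2).ne' h3
  by_cases hex : ∃ n, n ≤ N ∧ 1 ≤ Lam n * v - 1
  · refine ⟨Nat.find hex, ?_, ?_⟩
    · have := (Nat.find_spec hex).1; omega
    · set j := Nat.find hex with hj
      have hjN : j ≤ N := (Nat.find_spec hex).1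
      rw [Pr_trunc_eq b N h1 h2]
      unfold tailS
      rw [Finset.mul_sum]
      rw [← Finset.sum_range_add_sum_Ico _ (show j ≤ N + 1 by omega)]
      have hlow : ∑ n ∈ Finset.range j, b n * Th (Lam n * v - 1) = 0 := by
        apply Finset.sum_eq_zero
        intro n hn
        have hnj : n < j := Finset.mem_range.mp hn
        have hnN : n ≤ N := by omega
        have hnot := Nat.find_min hex hnj
        have h5 : Lam n * v - 1 ≤ 0 := by
          rcases hgap n hnN with h6 | h6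
          · exact h6
          · exact absurd ⟨hnN, h6⟩ hnot
        rw [Th_of_nonpos h5, mul_zero]
      rw [hlow, zero_add]
      apply Finset.sum_congr rfl
      intro n hn
      have hn' := Finset.mem_Ico.mp hn
      have hv0 : 0 < v := by
        have := (Nat.find_spec hex).2
        rw [← hj] at this
        by_contra hh
        push Not at hh
        have h7 := mul_nonpos_of_nonneg_of_nonpos (Lam_pos j).le hh
        linarith
      have h8 : Lam j ≤ Lam n := Lam_mono hn'.1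
      have h9 : 1 ≤ Lam j * v - 1 := by
        have := (Nat.find_spec hex).2
        rwa [← hj] at this
      rw [Th_of_one_le (by nlinarith)]
      ring
  · refine ⟨N + 1, le_rfl, ?_⟩
    unfold tailS
    rw [Finset.Ico_self, Finset.sum_empty, mul_zero, Pr_trunc_eq b N h1 h2]
    apply Finset.sum_eq_zero
    intro n hn
    have hnN : n ≤ N := Nat.lt_succ_iff.mp (Finset.mem_range.mp hn)
    have h5 : Lam n * v - 1 ≤ 0 := by
      rcases hgap n hnN with h6 | h6
      · exact h6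
      · exact absurd ⟨n, hnN, h6⟩ hex
    rw [Th_of_nonpos h5, mul_zero]

lemma tailS_succ (b : ℕ → ℝ) {N j : ℕ} (h : j ≤ N) : tailS b N j = b j + tailS b N (j + 1) := by
  unfold tailS
  exact Finset.sum_eq_sum_Ico_succ_bot (by omega) b

lemma tailS_nonneg {b : ℕ → ℝ} (hb : ∀ n, 0 < b n) (N j : ℕ) : 0 ≤ tailS b N j :=
  Finset.sum_nonneg (fun n _ => (hb n).le)

lemma tailS_anti {b : ℕ → ℝ} (hb : ∀ n, 0 < b n) (N : ℕ) {j l : ℕ} (h : j ≤ l) :
    tailS b N l ≤ tailS b N j := by
  unfold tailS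
  apply Finset.sum_le_sum_of_subset_of_nonneg
  · exact Finset.Ico_subset_Ico h le_rfl
  · exact fun n _ _ => (hb n).le

lemma tailS_cc {N l : ℕ} (h : l ≤ N) :
    tailS cc N l = tailS aa N (l + 1) + aa l / 2 + aa (N + 1) / 2 := by
  have h1 : tailS cc N l = (tailS aa N l + ∑ n ∈ Finset.Ico l (N + 1), aa (n + 1)) / 2 := by
    unfold tailS cc
    rw [← Finset.sum_add_distrib, Finset.sum_div]
  have h2 : ∑ n ∈ Finset.Ico l (N + 1), aa (n + 1) = ∑ n ∈ Finset.Ico (l + 1) (N + 2), aa n :=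
    Finset.sum_Ico_add' aa l (N + 1) 1
  have h3 : ∑ n ∈ Finset.Ico (l + 1) (N + 2), aa n = tailS aa N (l + 1) + aa (N + 1) := by
    unfold tailS
    exact Finset.sum_Ico_succ_top (by omega) aa
  rw [h1, h2, h3, tailS_succ aa h]
  ring

lemma Pr_trunc_aa_start (N : ℕ) : Pr (trunc aa N) (3 / 8) = kap * (aa 0 / 2 + tailS aa N 1) := by
  rw [Pr_trunc_eq aa N (by norm_num) (by norm_num)]
  rw [Finset.sum_range_succ']
  have h0 : Lam 0 * (3 / 8) - 1 = 1 / 2 := by unfold Lam; norm_num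
  have h1 : ∀ n, Th (Lam (n + 1) * (3 / 8) - 1) = kap := by
    intro n
    rw [Th_of_one_le]
    have : (16 : ℝ) ≤ Lam (n + 1) := by
      have h2 := four_le_Lam n
      rw [Lam_succ]; linarith
    linarith
  simp only [h1, h0, Th_half]
  have h2 : ∑ n ∈ Finset.range N, aa (n + 1) = tailS aa N 1 := by
    unfold tailS
    rw [Finset.sum_Ico_eq_sum_range]
    apply Finset.sum_congr (by simp)
    intro n _
    rw [add_comm]
  rw [← Finset.sum_mul, h2]
  ring

lemma Pr_trunc_cc_start (N : ℕ) : Pr (trunc cc N) (1 / 2) = kap * tailS cc N 0 := by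
  rw [Pr_trunc_eq cc N (by norm_num) (by norm_num)]
  unfold tailS
  rw [Finset.mul_sum]
  simp only [Finset.range_eq_Ico]
  apply Finset.sum_congr rfl
  intro n _
  rw [Th_of_one_le]
  · ring
  · have := four_le_Lam n
    linarith

lemma tendsto_of_antitoneOn {f : ℝ → ℝ} {c : ℝ} (hf : AntitoneOn f (Ici 1))
    (hb : ∀ t, 1 ≤ t → c ≤ f t) :
    ∃ l, c ≤ l ∧ Tendsto f atTop (𝓝 l) ∧ ∀ t, 1 ≤ t → l ≤ f t := by
  set g : ℝ → ℝ := fun t => f (max t 1) with hg
  have hanti : Antitone g := by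
    intro a b hab
    exact hf (mem_Ici.mpr (le_max_right _ _)) (mem_Ici.mpr (le_max_right _ _))
      (max_le_max hab le_rfl)
  have hbdd : BddBelow (range g) := ⟨c, by
    rintro _ ⟨t, rfl⟩
    exact hb _ (le_max_right _ _)⟩
  refine ⟨⨅ t, g t, le_ciInf (fun t => hb _ (le_max_right _ _)), ?_, fun t ht => ?_⟩
  · have h1 : Tendsto g atTop (𝓝 (⨅ t, g t)) := tendsto_atTop_ciInf hanti hbdd
    refine h1.congr' ?_
    filter_upwards [eventually_ge_atTop (1 : ℝ)] with t ht
    simp [hg, max_eq_left ht]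
  · have := ciInf_le hbdd t
    simpa [hg, max_eq_left ht] using this

theorem flow_halt (S : PlanarSol (trunc aa N) (trunc cc N) A x y) (hx1 : x 1 = 1 / 2)
    (hy1 : y 1 = 3 / 8) : ∃ t, 1 ≤ t ∧ -(1 / 4) < y t ∧ y t < -(1 / 8) := by
  by_contra hcon
  push Not at hcon
  have hcy : ∀ s, 1 ≤ s → ContinuousAt y s := fun s hs => (S.hy s hs).continuousAt
  have hcx : ∀ s, 1 ≤ s → ContinuousAt x s := fun s hs => (S.hx s hs).continuousAt
  -- `y` stays above `-1/8`
  have hylow : ∀ t, 1 ≤ t → -(1 / 8) ≤ y t := by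
    intro t ht
    by_contra hh
    push Not at hh
    have hcont : ContinuousOn y (Icc 1 t) := fun s hs => (hcy s hs.1).continuousWithinAt
    have h4 : y t ≤ -(1 / 4) := by
      by_contra h5
      push Not at h5
      have := hcon t ht h5
      linarith
    have hmem : (-(3 / 16) : ℝ) ∈ Icc (y t) (y 1) := by
      rw [hy1]; constructor <;> linarith
    obtain ⟨s, hs, hsv⟩ := intermediate_value_Icc' ht hcont hmem
    have := hcon s hs.1 (by rw [hsv]; norm_num)
    rw [hsv] at this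
    norm_num at this
  have hadm := adm_trunc adm_aa N
  have hadm' := adm_trunc adm_cc N
  have hH₀ : Pr (trunc aa N) (y 1) - Pr (trunc cc N) (x 1) = -(kap * aa (N + 1) / 2) := by
    rw [hx1, hy1, Pr_trunc_aa_start, Pr_trunc_cc_start, tailS_cc (Nat.zero_le N)]
    ring
  have hcons : ∀ t, 1 ≤ t → Pr (trunc aa N) (y t) - Pr (trunc cc N) (x t)
      = -(kap * aa (N + 1) / 2) := fun t ht => by rw [S.conservation ht, hH₀]
  have hPy : ∀ t, 1 ≤ t → 0 ≤ Pr (trunc aa N) (y t) := by
    intro t ht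
    have := hadm.Pr_mono (hylow t ht)
    rwa [Pr_zero_of_nonpos _ (by norm_num) (by norm_num)] at this
  have hgap : 0 < kap * aa (N + 1) / 2 := by
    have := mul_pos kap_pos (aa_pos (N + 1)); linarith
  have hxpos : ∀ t, 1 ≤ t → 0 < x t := by
    intro t ht
    by_contra hh
    push Not at hh
    have h1 := Pr_nonpos_of_nonpos hadm' hh
    have h2 := hcons t ht
    have h3 := hPy t ht
    linarith
  obtain ⟨xb, hxb0, hxbt, hxble⟩ := tendsto_of_antitoneOn S.antitone_x (fun t ht => (hxpos t ht).le)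
  obtain ⟨yb, hyb0, hybt, hyble⟩ := tendsto_of_antitoneOn S.antitone_y hylow
  have hxb1 : xb ≤ 1 / 2 := by rw [← hx1]; exact hxble 1 le_rfl
  have hyb1 : yb ≤ 3 / 8 := by rw [← hy1]; exact hyble 1 le_rfl
  -- the limit is a stagnation point
  have hY0 : Xr (trunc cc N) xb = 0 := by
    by_contra hne
    have hpos : 0 < Xr (trunc cc N) xb := lt_of_le_of_ne (hadm'.Xr_nonneg _) (Ne.symm hne)
    have htend : Tendsto (fun t => Xr (trunc cc N) (x t)) atTop (𝓝 (Xr (trunc cc N) xb)) :=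
      hadm'.continuous_Xr.continuousAt.tendsto.comp hxbt
    have hev : ∀ᶠ t in atTop, Xr (trunc cc N) xb / 2 < Xr (trunc cc N) (x t) :=
      htend.eventually (lt_mem_nhds (by linarith))
    obtain ⟨t₀, ht₀⟩ := eventually_atTop.mp (hev.and (eventually_ge_atTop (1 : ℝ)))
    have hδ : 0 < A * (Xr (trunc cc N) xb / 2) := mul_pos S.hA (by linarith)
    obtain ⟨t, ht, hlt⟩ := unbounded_of_deriv_le (y := y) hδ (t₀ := t₀)
      (fun t ht => S.hy t (ht₀ t ht).2)
      (fun t ht => by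
        have h1 := (ht₀ t ht).1
        have h2 := timeP_nonneg 1 t
        have h3 : A * (Xr (trunc cc N) xb / 2) ≤ A * Xr (trunc cc N) (x t) :=
          mul_le_mul_of_nonneg_left h1.le S.hA.le
        have := mul_le_mul_of_nonneg_left h3 h2
        linarith) (-(1 / 8))
    have := hylow t (ht₀ t ht).2
    linarith
  have hX0 : Xr (trunc aa N) yb = 0 := by
    by_contra hne
    have hpos : 0 < Xr (trunc aa N) yb := lt_of_le_of_ne (hadm.Xr_nonneg _) (Ne.symm hne)
    have htend : Tendsto (fun t => Xr (trunc aa N) (y t)) atTop (𝓝 (Xr (trunc aa N) yb)) :=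
      hadm.continuous_Xr.continuousAt.tendsto.comp hybt
    have hev : ∀ᶠ t in atTop, Xr (trunc aa N) yb / 2 < Xr (trunc aa N) (y t) :=
      htend.eventually (lt_mem_nhds (by linarith))
    obtain ⟨t₀, ht₀⟩ := eventually_atTop.mp (hev.and (eventually_ge_atTop (1 : ℝ)))
    have hδ : 0 < A * (Xr (trunc aa N) yb / 2) := mul_pos S.hA (by linarith)
    obtain ⟨t, ht, hlt⟩ := unbounded_of_deriv_le (y := x) hδ (t₀ := t₀)
      (fun t ht => S.hx t (ht₀ t ht).2)
      (fun t ht => by
        have h1 := (ht₀ t ht).1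
        have h2 := timeP_nonneg 1 t
        have h3 : A * (Xr (trunc aa N) yb / 2) ≤ A * Xr (trunc aa N) (y t) :=
          mul_le_mul_of_nonneg_left h1.le S.hA.le
        have := mul_le_mul_of_nonneg_left h3 h2
        linarith) 0
    have := hxpos t (ht₀ t ht).2
    linarith
  -- the conserved quantity at the limit
  have hlim : Pr (trunc aa N) yb - Pr (trunc cc N) xb = -(kap * aa (N + 1) / 2) := by
    have h1 : Tendsto (fun t => Pr (trunc aa N) (y t) - Pr (trunc cc N) (x t)) atTop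
        (𝓝 (Pr (trunc aa N) yb - Pr (trunc cc N) xb)) :=
      (hadm.differentiable_Pr.continuous.continuousAt.tendsto.comp hybt).sub
        (hadm'.differentiable_Pr.continuous.continuousAt.tendsto.comp hxbt)
    refine tendsto_nhds_unique h1 ?_
    refine tendsto_const_nhds.congr' ?_
    filter_upwards [eventually_ge_atTop (1 : ℝ)] with t ht
    exact (hcons t ht).symm
  obtain ⟨j, _, hj⟩ := eval_tail aa_pos (N := N) (v := yb) (by linarith) (by linarith) hX0
  obtain ⟨l, hl, hl'⟩ := eval_tail cc_pos (N := N) (v := xb) (by linarith) (by linarith) hY0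
  rw [hj, hl'] at hlim
  have hkap := kap_pos
  have hlim' : tailS aa N j - tailS cc N l = -(aa (N + 1) / 2) := by
    have : kap * (tailS aa N j - tailS cc N l) = kap * (-(aa (N + 1) / 2)) := by linarith
    exact mul_left_cancel₀ hkap.ne' this
  rcases Nat.lt_or_ge N l with hlN | hlN
  · have hl2 : l = N + 1 := by omega
    have h0 : tailS cc N l = 0 := by
      rw [hl2]; unfold tailS; simp
    have h1 := tailS_nonneg aa_pos N j
    have h2 := aa_pos (N + 1)
    linarith
  · rw [tailS_cc hlN] at hlim'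
    have hal := aa_pos l
    rcases Nat.lt_or_ge l j with hjl | hjl
    · have := tailS_anti aa_pos N (show l + 1 ≤ j from hjl)
      linarith
    · have h1 := tailS_anti aa_pos N hjl
      have h2 := tailS_succ aa hlN
      linarith

end halt

end Vale.Agent.P113
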