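import Vale.Agent.P113.Pd

/-!
Jointly smooth space-time fields: partial derivatives are smooth and additive, and all the regularity
clauses of a classical solution hold.
-/

open MeasureTheory Set Filter Topology

namespace Vale.Agent.P113

/-- Joint smoothness of a scalar space-time field. -/
def SmoothTX (g : ℝ → V3 → ℝ) : Prop := ContDiff ℝ (⊤ : ℕ∞) (fun q : ℝ × V3 => g q.1 q.2)

lemma SmoothTX.differentiable {g : ℝ → V3 → ℝ} (hg : SmoothTX g) :
    Differentiable ℝ (fun q : ℝ × V3 => g q.1 q.2) :=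
  ContDiff.differentiable hg (by simp)

lemma SmoothTX.differentiable_space {g : ℝ → V3 → ℝ} (hg : SmoothTX g) (t : ℝ) :
    Differentiable ℝ (g t) := by
  have h1 : Differentiable ℝ (fun x : V3 => ((t, x) : ℝ × V3)) := by fun_prop
  exact hg.differentiable.comp h1

lemma SmoothTX.differentiable_time {g : ℝ → V3 → ℝ} (hg : SmoothTX g) (x : V3) :
    Differentiable ℝ (fun s => g s x) := by
  have h1 : Differentiable ℝ (fun s : ℝ => ((s, x) : ℝ × V3)) := by fun_prop
  exact hg.differentiable.comp h1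

lemma SmoothTX.dT_eq {g : ℝ → V3 → ℝ} (hg : SmoothTX g) (t : ℝ) (x : V3) :
    dT g t x = fderiv ℝ (fun q : ℝ × V3 => g q.1 q.2) (t, x) ((1 : ℝ), (0 : V3)) := by
  have h1 := (hg.differentiable (t, x)).hasFDerivAt
  have h2 : HasDerivAt (fun s : ℝ => ((s, x) : ℝ × V3)) ((1 : ℝ), (0 : V3)) t :=
    (hasDerivAt_id t).prodMk (hasDerivAt_const t x)
  have h3 := h1.comp_hasDerivAt t h2
  exact h3.deriv

lemma SmoothTX.pd_eq {g : ℝ → V3 → ℝ} (hg : SmoothTX g) (j : Fin 3) (t : ℝ) (x : V3) :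
    pd j (g t) x = fderiv ℝ (fun q : ℝ × V3 => g q.1 q.2) (t, x) ((0 : ℝ), (Pi.single j 1 : V3)) := by
  have h1 := (hg.differentiable (t, x)).hasFDerivAt
  have h2 : HasFDerivAt (fun y : V3 => ((t, y) : ℝ × V3))
      (ContinuousLinearMap.inr ℝ ℝ V3) x :=
    (hasFDerivAt_const t x).prodMk (hasFDerivAt_id x)
  have h3 := h1.comp x h2
  have : g t = (fun q : ℝ × V3 => g q.1 q.2) ∘ (fun y : V3 => ((t, y) : ℝ × V3)) := rfl
  unfold pd
  rw [this, h3.fderiv]
  simp

lemma SmoothTX.dT {g : ℝ → V3 → ℝ} (hg : SmoothTX g) : SmoothTX (dT g) := by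
  have h : ContDiff ℝ (⊤ : ℕ∞) (fderiv ℝ (fun q : ℝ × V3 => g q.1 q.2)) :=
    ContDiff.fderiv_right hg (by simp)
  have h2 := h.clm_apply (contDiff_const (c := (((1 : ℝ), (0 : V3)) : ℝ × V3)))
  have h3 : (fun q : ℝ × V3 => Vale.Agent.P113.dT g q.1 q.2)
      = fun q => fderiv ℝ (fun q : ℝ × V3 => g q.1 q.2) q ((1 : ℝ), (0 : V3)) := by
    funext q
    exact hg.dT_eq q.1 q.2
  unfold SmoothTX
  rw [h3]
  exact h2

lemma SmoothTX.dX {g : ℝ → V3 → ℝ} (hg : SmoothTX g) (j : Fin 3) : SmoothTX (dX j g) := by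
  have h : ContDiff ℝ (⊤ : ℕ∞) (fderiv ℝ (fun q : ℝ × V3 => g q.1 q.2)) :=
    ContDiff.fderiv_right hg (by simp)
  have h2 := h.clm_apply (contDiff_const (c := (((0 : ℝ), (Pi.single j 1 : V3)) : ℝ × V3)))
  have h3 : (fun q : ℝ × V3 => Vale.Agent.P113.dX j g q.1 q.2)
      = fun q => fderiv ℝ (fun q : ℝ × V3 => g q.1 q.2) q ((0 : ℝ), (Pi.single j 1 : V3)) := by
    funext q
    exact hg.pd_eq j q.1 q.2
  unfold SmoothTX
  rw [h3]
  exact h2

lemma SmoothTX.add {g h : ℝ → V3 → ℝ} (hg : SmoothTX g) (hh : SmoothTX h) :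
    SmoothTX (fun t x => g t x + h t x) := ContDiff.add hg hh

lemma dT_add {g h : ℝ → V3 → ℝ} (hg : SmoothTX g) (hh : SmoothTX h) :
    Vale.Agent.P113.dT (fun t x => g t x + h t x) = fun t x => Vale.Agent.P113.dT g t x + Vale.Agent.P113.dT h t x := by
  funext t x
  unfold Vale.Agent.P113.dT
  exact deriv_fun_add (hg.differentiable_time x t) (hh.differentiable_time x t)

lemma dX_add {g h : ℝ → V3 → ℝ} (hg : SmoothTX g) (hh : SmoothTX h) (j : Fin 3) :
    Vale.Agent.P113.dX j (fun t x => g t x + h t x)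
      = fun t x => Vale.Agent.P113.dX j g t x + Vale.Agent.P113.dX j h t x := by
  funext t x
  unfold Vale.Agent.P113.dX
  exact pd_add (hg.differentiable_space t) (hh.differentiable_space t) x

/-- A generic lemma: an additive operator preserving smoothness has additive iterates. -/
lemma iterate_add_aux (D : (ℝ → V3 → ℝ) → (ℝ → V3 → ℝ)) (hsm : ∀ g, SmoothTX g → SmoothTX (D g))
    (hadd : ∀ g h, SmoothTX g → SmoothTX h → D (fun t x => g t x + h t x)
      = fun t x => D g t x + D h t x) (n : ℕ) :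
    ∀ g h, SmoothTX g → SmoothTX h →
      D^[n] (fun t x => g t x + h t x) = fun t x => D^[n] g t x + D^[n] h t x := by
  induction n with
  | zero => intro g h _ _; rfl
  | succ n ih =>
    intro g h hg hh
    simp only [Function.iterate_succ, Function.comp]
    rw [hadd g h hg hh]
    exact ih _ _ (hsm g hg) (hsm h hh)

lemma iterate_smooth_aux (D : (ℝ → V3 → ℝ) → (ℝ → V3 → ℝ)) (hsm : ∀ g, SmoothTX g → SmoothTX (D g))
    (n : ℕ) : ∀ g, SmoothTX g → SmoothTX (D^[n] g) := by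
  induction n with
  | zero => intro g hg; exact hg
  | succ n ih =>
    intro g hg
    simp only [Function.iterate_succ, Function.comp]
    exact ih _ (hsm g hg)

lemma mixedDeriv_smooth (α : ℕ × ℕ × ℕ × ℕ) {g : ℝ → V3 → ℝ} (hg : SmoothTX g) :
    SmoothTX (mixedDeriv α g) := by
  unfold mixedDeriv
  apply iterate_smooth_aux _ (fun g hg => hg.dT)
  apply iterate_smooth_aux _ (fun g hg => hg.dX 0)
  apply iterate_smooth_aux _ (fun g hg => hg.dX 1)
  apply iterate_smooth_aux _ (fun g hg => hg.dX 2)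
  exact hg

lemma mixedDeriv_add (α : ℕ × ℕ × ℕ × ℕ) {g h : ℝ → V3 → ℝ} (hg : SmoothTX g) (hh : SmoothTX h) :
    mixedDeriv α (fun t x => g t x + h t x) = fun t x => mixedDeriv α g t x + mixedDeriv α h t x := by
  unfold mixedDeriv
  have s2 : ∀ n g, SmoothTX g → SmoothTX ((Vale.Agent.P113.dX 2)^[n] g) :=
    fun n => iterate_smooth_aux _ (fun g hg => hg.dX 2) n
  have s1 : ∀ n g, SmoothTX g → SmoothTX ((Vale.Agent.P113.dX 1)^[n] g) :=
    fun n => iterate_smooth_aux _ (fun g hg => hg.dX 1) n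
  have s0 : ∀ n g, SmoothTX g → SmoothTX ((Vale.Agent.P113.dX 0)^[n] g) :=
    fun n => iterate_smooth_aux _ (fun g hg => hg.dX 0) n
  rw [iterate_add_aux (Vale.Agent.P113.dX 2) (fun g hg => hg.dX 2)
      (fun g h hg hh => dX_add hg hh 2) _ g h hg hh,
    iterate_add_aux (Vale.Agent.P113.dX 1) (fun g hg => hg.dX 1)
      (fun g h hg hh => dX_add hg hh 1) _ _ _ (s2 _ g hg) (s2 _ h hh),
    iterate_add_aux (Vale.Agent.P113.dX 0) (fun g hg => hg.dX 0)
      (fun g h hg hh => dX_add hg hh 0) _ _ _ (s1 _ _ (s2 _ g hg)) (s1 _ _ (s2 _ h hh)),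
    iterate_add_aux Vale.Agent.P113.dT (fun g hg => hg.dT)
      (fun g h hg hh => dT_add hg hh) _ _ _ (s0 _ _ (s1 _ _ (s2 _ g hg)))
      (s0 _ _ (s1 _ _ (s2 _ h hh)))]

/-- For a smooth scalar field: the time derivative within `[0, T]`, at a point of `[0, T]`, is the
ordinary time derivative. -/
lemma derivWithin_eq_dT {g : ℝ → V3 → ℝ} (hg : SmoothTX g) {T t : ℝ} (hT : 0 < T) (ht : t ∈ Icc 0 T)
    (x : V3) : derivWithin (fun s => g s x) (Icc 0 T) t = Vale.Agent.P113.dT g t x := by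
  unfold Vale.Agent.P113.dT
  exact (hg.differentiable_time x t).derivWithin ((uniqueDiffOn_Icc hT) t ht)

lemma continuous_dT {g : ℝ → V3 → ℝ} (hg : SmoothTX g) :
    Continuous (fun q : ℝ × V3 => Vale.Agent.P113.dT g q.1 q.2) :=
  ContDiff.continuous hg.dT

lemma continuous_pd_joint {g : ℝ → V3 → ℝ} (hg : SmoothTX g) (j : Fin 3) :
    Continuous (fun q : ℝ × V3 => pd j (g q.1) q.2) :=
  ContDiff.continuous (hg.dX j)

lemma continuous_pd_pd_joint {g : ℝ → V3 → ℝ} (hg : SmoothTX g) (j k : Fin 3) :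
    Continuous (fun q : ℝ × V3 => pd k (pd j (g q.1)) q.2) :=
  ContDiff.continuous ((hg.dX j).dX k)

lemma SmoothTX.contDiff_space {g : ℝ → V3 → ℝ} (hg : SmoothTX g) (t : ℝ) {n : ℕ} :
    ContDiff ℝ n (g t) := by
  have h1 : ContDiff ℝ (⊤ : ℕ∞) (fun x : V3 => ((t, x) : ℝ × V3)) := by fun_prop
  have hg' : ContDiff ℝ (⊤ : ℕ∞) (fun q : ℝ × V3 => g q.1 q.2) := hg
  have h2 : ContDiff ℝ (⊤ : ℕ∞) (g t) := hg'.comp h1
  exact h2.of_le (by exact_mod_cast le_top)

end Vale.Agent.P113
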