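import Vale.Agent.P113.Series
import Vale.Agent.P113.FlowMain
import Vale.Agent.P113.Smooth

/-!
The explicit velocity field and force.
-/

open Real Set Filter Topology

namespace Vale.Agent.P113

/-- Flags: a family of weights in `[0, 1]`, indexed by plane `W` and level `n`. -/
def FlagOK (g : ℕ → ℕ → ℝ) : Prop := ∀ W n, 0 ≤ g W n ∧ g W n ≤ 1

/-- Row coefficients of plane `W`. -/
noncomputable def rowC (g : ℕ → ℕ → ℝ) (W n : ℕ) : ℝ := g W n * aa n

/-- Column coefficients of plane `W`. -/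
noncomputable def colC (g : ℕ → ℕ → ℝ) (W n : ℕ) : ℝ := g W n * cc n

variable {g : ℕ → ℕ → ℝ}

lemma adm_rowC (hg : FlagOK g) (W : ℕ) : Adm (rowC g W) := fun n =>
  ⟨mul_nonneg (hg W n).1 (aa_pos n).le, by
    have := mul_le_mul_of_nonneg_right (hg W n).2 (aa_pos n).le
    simpa [rowC] using this⟩

lemma adm_colC (hg : FlagOK g) (W : ℕ) : Adm (colC g W) := fun n =>
  ⟨mul_nonneg (hg W n).1 (cc_pos n).le, by
    have := mul_le_mul_of_nonneg_right (hg W n).2 (cc_pos n).le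
    have h2 := (adm_cc n).2
    simp only [colC]
    linarith⟩

/-- The rows of plane `W` as a function of `y`. -/
noncomputable def Xf (g : ℕ → ℕ → ℝ) (W : ℕ) : ℝ → ℝ := Xr (rowC g W)
/-- The columns of plane `W` as a function of `x`. -/
noncomputable def Yf (g : ℕ → ℕ → ℝ) (W : ℕ) : ℝ → ℝ := Xr (colC g W)
/-- The derivative of `Xf`. -/
noncomputable def Xf1 (g : ℕ → ℕ → ℝ) (W : ℕ) : ℝ → ℝ := ser1 (fun n => rowC g W n * Lam n) 1 1
/-- The derivative of `Yf`. -/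
noncomputable def Yf1 (g : ℕ → ℕ → ℝ) (W : ℕ) : ℝ → ℝ := ser1 (fun n => colC g W n * Lam n) 1 1
/-- The plane profile in `z`. -/
noncomputable def beta (c W : ℕ) : ℝ → ℝ := prof c 0 (Lam W)
/-- The constant factor. -/
def oneF : ℕ → ℝ → ℝ := fun _ _ => 1

/-- A uniform bound for the derivatives of the rows and columns. -/
noncomputable def XB (k : ℕ) : ℝ := ∑' n, (aa n * Lam n) * Lam n ^ k * bumpBd 1 k

lemma summable_XB (k : ℕ) : Summable (fun n => (aa n * Lam n) * Lam n ^ k * bumpBd 1 k) := by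
  refine (Summable.mul_right _ ?_)
  have := summable_aa_mul_Lam_pow (k + 1)
  refine this.congr (fun n => ?_)
  rw [pow_succ]; ring

lemma abs_ser1_le_XB {r : ℕ → ℝ} (hr : Adm r) (k : ℕ) (s : ℝ) :
    |ser1 (fun n => r n * Lam n) 1 k s| ≤ XB k := by
  refine le_trans (abs_ser1_le hr.sumW 1 k s) ?_
  unfold ser1Bd XB
  apply (summable_ser1_bound hr.sumW 1 k).tsum_le_tsum _ (summable_XB k)
  intro n
  rw [abs_of_nonneg (mul_nonneg (hr n).1 (Lam_pos n).le)]
  apply mul_le_mul_of_nonneg_right _ (bumpBd_nonneg 1 k)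
  apply mul_le_mul_of_nonneg_right _ (pow_nonneg (Lam_pos n).le k)
  exact mul_le_mul_of_nonneg_right (hr n).2 (Lam_pos n).le

lemma XB_nonneg (k : ℕ) : 0 ≤ XB k := by
  have h := abs_ser1_le_XB adm_aa k 0
  exact le_trans (abs_nonneg _) h

/-- The common derivative bound. -/
noncomputable def DD (k : ℕ) : ℝ := 1 + XB k + XB (k + 1) + bumpBd 1 k + bumpBd 2 k

lemma DD_nonneg (k : ℕ) : 0 ≤ DD k := by
  unfold DD
  have h1 := XB_nonneg k
  have h2 := XB_nonneg (k + 1)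
  have h3 := bumpBd_nonneg 1 k
  have h4 := bumpBd_nonneg 2 k
  linarith

lemma one_le_Lam_pow (W k : ℕ) : 1 ≤ Lam W ^ k :=
  one_le_pow₀ (by linarith [four_le_Lam W])

lemma bd_of_le {D a : ℝ} (W k : ℕ) (hD : 0 ≤ D) (h : a ≤ D) : a ≤ D * Lam W ^ k := by
  have := one_le_Lam_pow W k
  nlinarith

lemma iteratedDeriv_Xr {r : ℕ → ℝ} (hr : Adm r) (k : ℕ) :
    iteratedDeriv k (Xr r) = ser1 (fun n => r n * Lam n) 1 k := by
  unfold Xr
  rw [iteratedDeriv_ser1 hr.sumW 1 0 k, zero_add]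

lemma iteratedDeriv_ser1_one {r : ℕ → ℝ} (hr : Adm r) (k : ℕ) :
    iteratedDeriv k (ser1 (fun n => r n * Lam n) 1 1) = ser1 (fun n => r n * Lam n) 1 (1 + k) :=
  iteratedDeriv_ser1 hr.sumW 1 1 k

lemma iteratedDeriv_one_succ (k : ℕ) (W : ℕ) : iteratedDeriv (k + 1) (oneF W) = fun _ => 0 := by
  induction k with
  | zero =>
    rw [iteratedDeriv_one]
    funext s
    exact deriv_const s 1
  | succ k ih =>
    rw [iteratedDeriv_succ, ih]
    funext s; simp

lemma abs_iteratedDeriv_one_le (k W : ℕ) (s : ℝ) : |iteratedDeriv k (oneF W) s| ≤ DD k * Lam W ^ k := by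
  apply bd_of_le W k (DD_nonneg k)
  unfold DD
  have h1 := XB_nonneg k
  have h2 := XB_nonneg (k + 1)
  have h3 := bumpBd_nonneg 1 k
  have h4 := bumpBd_nonneg 2 k
  cases k with
  | zero =>
    simp only [iteratedDeriv_zero, oneF, abs_one]
    linarith
  | succ k =>
    rw [iteratedDeriv_one_succ]
    simp only [abs_zero]
    linarith

lemma contDiff_oneF (W : ℕ) : ContDiff ℝ (⊤ : ℕ∞) (oneF W) := contDiff_const

lemma abs_iteratedDeriv_Xr_le {r : ℕ → ℝ} (hr : Adm r) (k W : ℕ) (s : ℝ) :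
    |iteratedDeriv k (Xr r) s| ≤ DD k * Lam W ^ k := by
  apply bd_of_le W k (DD_nonneg k)
  rw [iteratedDeriv_Xr hr]
  refine le_trans (abs_ser1_le_XB hr k s) ?_
  unfold DD
  have h2 := XB_nonneg (k + 1)
  have h3 := bumpBd_nonneg 1 k
  have h4 := bumpBd_nonneg 2 k
  linarith

lemma abs_iteratedDeriv_ser1_one_le {r : ℕ → ℝ} (hr : Adm r) (k W : ℕ) (s : ℝ) :
    |iteratedDeriv k (ser1 (fun n => r n * Lam n) 1 1) s| ≤ DD k * Lam W ^ k := by
  apply bd_of_le W k (DD_nonneg k)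
  rw [iteratedDeriv_ser1_one hr, add_comm 1 k]
  refine le_trans (abs_ser1_le_XB hr (k + 1) s) ?_
  unfold DD
  have h2 := XB_nonneg k
  have h3 := bumpBd_nonneg 1 k
  have h4 := bumpBd_nonneg 2 k
  linarith

lemma iteratedDeriv_beta (c k W : ℕ) :
    iteratedDeriv k (beta c W) = fun s => Lam W ^ k * prof c k (Lam W) s := by
  unfold beta
  rw [iteratedDeriv_prof c 0 k (four_le_Lam W)]
  simp

lemma abs_iteratedDeriv_beta_le (k W : ℕ) (s : ℝ) {c : ℕ} (hc : c = 1 ∨ c = 2) :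
    |iteratedDeriv k (beta c W) s| ≤ DD k * Lam W ^ k := by
  rw [iteratedDeriv_beta, abs_mul, abs_of_pos (pow_pos (Lam_pos W) k), mul_comm]
  apply mul_le_mul_of_nonneg_right _ (pow_nonneg (Lam_pos W).le k)
  refine le_trans (abs_prof_le c k _ s) ?_
  unfold DD
  have h1 := XB_nonneg k
  have h2 := XB_nonneg (k + 1)
  have h3 := bumpBd_nonneg 1 k
  have h4 := bumpBd_nonneg 2 k
  rcases hc with rfl | rfl <;> linarith

lemma contDiff_beta (c W : ℕ) : ContDiff ℝ (⊤ : ℕ∞) (beta c W) :=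
  contDiff_prof c 0 (four_le_Lam W)

/-- The weights of the product series. -/
noncomputable def qc (W : ℕ) : ℝ := aa W * aa W

lemma summable_aa_abs (k : ℕ) : Summable (fun W => |aa W| * Lam W ^ k) := by
  refine (summable_aa_mul_Lam_pow k).congr (fun W => ?_)
  rw [abs_of_pos (aa_pos W)]

lemma aa_le_one (W : ℕ) : aa W ≤ 1 := by
  unfold aa
  exact pow_le_one₀ (by norm_num) (by norm_num)

lemma summable_qc_abs (k : ℕ) : Summable (fun W => |qc W| * Lam W ^ k) := by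
  refine Summable.of_nonneg_of_le (fun W => mul_nonneg (abs_nonneg _) (pow_nonneg (Lam_pos W).le _))
    (fun W => ?_) (summable_aa_abs k)
  apply mul_le_mul_of_nonneg_right _ (pow_nonneg (Lam_pos W).le _)
  unfold qc
  rw [abs_mul]
  have h1 : |aa W| ≤ 1 := by rw [abs_of_pos (aa_pos W)]; exact aa_le_one W
  nlinarith [abs_nonneg (aa W)]

lemma Lam_nonneg (W : ℕ) : 0 ≤ Lam W := (Lam_pos W).le

theorem goodX (hg : FlagOK g) : Good aa oneF (Xf g) (beta 1) DD Lam where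
  L_nonneg := Lam_nonneg
  D_nonneg := DD_nonneg
  smooth₁ := contDiff_oneF
  smooth₂ := fun W => (adm_rowC hg W).contDiff_Xr
  smooth₃ := contDiff_beta 1
  bd₁ := fun k W s => abs_iteratedDeriv_one_le k W s
  bd₂ := fun k W s => abs_iteratedDeriv_Xr_le (adm_rowC hg W) k W s
  bd₃ := fun k W s => abs_iteratedDeriv_beta_le k W s (Or.inl rfl)
  summ := summable_aa_abs

theorem goodY (hg : FlagOK g) : Good aa (Yf g) oneF (beta 1) DD Lam where
  L_nonneg := Lam_nonneg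
  D_nonneg := DD_nonneg
  smooth₁ := fun W => (adm_colC hg W).contDiff_Xr
  smooth₂ := contDiff_oneF
  smooth₃ := contDiff_beta 1
  bd₁ := fun k W s => abs_iteratedDeriv_Xr_le (adm_colC hg W) k W s
  bd₂ := fun k W s => abs_iteratedDeriv_one_le k W s
  bd₃ := fun k W s => abs_iteratedDeriv_beta_le k W s (Or.inl rfl)
  summ := summable_aa_abs

theorem goodQ1 (hg : FlagOK g) : Good qc (Yf g) (Xf1 g) (beta 2) DD Lam where
  L_nonneg := Lam_nonneg
  D_nonneg := DD_nonneg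
  smooth₁ := fun W => (adm_colC hg W).contDiff_Xr
  smooth₂ := fun W => contDiff_ser1 (adm_rowC hg W).sumW 1 1
  smooth₃ := contDiff_beta 2
  bd₁ := fun k W s => abs_iteratedDeriv_Xr_le (adm_colC hg W) k W s
  bd₂ := fun k W s => abs_iteratedDeriv_ser1_one_le (adm_rowC hg W) k W s
  bd₃ := fun k W s => abs_iteratedDeriv_beta_le k W s (Or.inr rfl)
  summ := summable_qc_abs

theorem goodQ2 (hg : FlagOK g) : Good qc (Yf1 g) (Xf g) (beta 2) DD Lam where
  L_nonneg := Lam_nonneg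
  D_nonneg := DD_nonneg
  smooth₁ := fun W => contDiff_ser1 (adm_colC hg W).sumW 1 1
  smooth₂ := fun W => (adm_rowC hg W).contDiff_Xr
  smooth₃ := contDiff_beta 2
  bd₁ := fun k W s => abs_iteratedDeriv_ser1_one_le (adm_colC hg W) k W s
  bd₂ := fun k W s => abs_iteratedDeriv_Xr_le (adm_rowC hg W) k W s
  bd₃ := fun k W s => abs_iteratedDeriv_beta_le k W s (Or.inr rfl)
  summ := summable_qc_abs

/-- The series `𝕏` and its derivatives. -/
noncomputable def XS (g : ℕ → ℕ → ℝ) (b c d : ℕ) : V3 → ℝ := serD aa oneF (Xf g) (beta 1) b c d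
/-- The series `𝕐` and its derivatives. -/
noncomputable def YS (g : ℕ → ℕ → ℝ) (b c d : ℕ) : V3 → ℝ := serD aa (Yf g) oneF (beta 1) b c d
/-- The series for the product `𝕐 ∂_y 𝕏`. -/
noncomputable def Q1 (g : ℕ → ℕ → ℝ) (b c d : ℕ) : V3 → ℝ := serD qc (Yf g) (Xf1 g) (beta 2) b c d
/-- The series for the product `𝕏 ∂_x 𝕐`. -/
noncomputable def Q2 (g : ℕ → ℕ → ℝ) (b c d : ℕ) : V3 → ℝ := serD qc (Yf1 g) (Xf g) (beta 2) b c d

/-- The level of a number. -/
def Lev (W : ℕ) (z : ℝ) : Prop := 0 < Lam W * Int.fract z - 1 ∧ Lam W * Int.fract z - 1 < 1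

lemma prof_eq_zero_of_not_lev {c k W : ℕ} {z : ℝ} (h : ¬ Lev W z) : prof c k (Lam W) z = 0 := by
  apply prof_eq_zero_of_not_mem
  by_contra hh
  push Not at hh
  exact h hh

/-- A series whose last factor is `beta`, at a point of level `W`. -/
lemma serD_beta_single (c' : ℕ → ℝ) (φ₁ φ₂ : ℕ → ℝ → ℝ) (e b₁ b₂ b₃ : ℕ) {W : ℕ} {x : V3}
    (hW : Lev W (x 2)) :
    serD c' φ₁ φ₂ (beta e) b₁ b₂ b₃ x = termD c' φ₁ φ₂ (beta e) b₁ b₂ b₃ W x := by
  unfold serD
  apply tsum_eq_single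
  intro W' hne
  unfold termD
  rw [iteratedDeriv_beta]
  beta_reduce
  rw [prof_eq_zero_of_level_ne hW hne]
  simp

lemma serD_beta_zero (c' : ℕ → ℝ) (φ₁ φ₂ : ℕ → ℝ → ℝ) (e b₁ b₂ b₃ : ℕ) {x : V3}
    (h : ∀ W, ¬ Lev W (x 2)) :
    serD c' φ₁ φ₂ (beta e) b₁ b₂ b₃ x = 0 := by
  unfold serD
  convert tsum_zero with W
  unfold termD
  rw [iteratedDeriv_beta]
  beta_reduce
  rw [prof_eq_zero_of_not_lev (h W)]
  simp

lemma beta_two_eq (W : ℕ) (z : ℝ) : beta 2 W z = beta 1 W z * beta 1 W z := by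
  simp only [beta, prof, iteratedDeriv_zero]
  exact bump_two_eq_sq _

lemma iterDeriv_zero_apply (f : ℝ → ℝ) (s : ℝ) : iteratedDeriv 0 f s = f s := by simp

lemma iteratedDeriv_Xf_one (hg : FlagOK g) (W : ℕ) : iteratedDeriv 1 (Xf g W) = Xf1 g W := by
  unfold Xf Xf1
  exact iteratedDeriv_Xr (adm_rowC hg W) 1

lemma iteratedDeriv_Yf_one (hg : FlagOK g) (W : ℕ) : iteratedDeriv 1 (Yf g W) = Yf1 g W := by
  unfold Yf Yf1
  exact iteratedDeriv_Xr (adm_colC hg W) 1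

lemma product_Q1 (hg : FlagOK g) (x : V3) : YS g 0 0 0 x * XS g 0 1 0 x = Q1 g 0 0 0 x := by
  by_cases hex : ∃ W, Lev W (x 2)
  · obtain ⟨W, hW⟩ := hex
    unfold YS XS Q1
    rw [serD_beta_single _ _ _ _ _ _ _ hW, serD_beta_single _ _ _ _ _ _ _ hW,
      serD_beta_single _ _ _ _ _ _ _ hW]
    simp only [termD, iterDeriv_zero_apply, iteratedDeriv_Xf_one hg, oneF, qc, beta_two_eq]
    ring
  · push Not at hex
    have h1 : ∀ W, ¬ Lev W (x 2) := hex
    unfold YS XS Q1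
    rw [serD_beta_zero _ _ _ _ _ _ _ h1, serD_beta_zero _ _ _ _ _ _ _ h1,
      serD_beta_zero _ _ _ _ _ _ _ h1]
    ring

lemma product_Q2 (hg : FlagOK g) (x : V3) : XS g 0 0 0 x * YS g 1 0 0 x = Q2 g 0 0 0 x := by
  by_cases hex : ∃ W, Lev W (x 2)
  · obtain ⟨W, hW⟩ := hex
    unfold YS XS Q2
    rw [serD_beta_single _ _ _ _ _ _ _ hW, serD_beta_single _ _ _ _ _ _ _ hW,
      serD_beta_single _ _ _ _ _ _ _ hW]
    simp only [termD, iterDeriv_zero_apply, iteratedDeriv_Yf_one hg, oneF, qc, beta_two_eq]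
    ring
  · push Not at hex
    have h1 : ∀ W, ¬ Lev W (x 2) := hex
    unfold YS XS Q2
    rw [serD_beta_zero _ _ _ _ _ _ _ h1, serD_beta_zero _ _ _ _ _ _ _ h1,
      serD_beta_zero _ _ _ _ _ _ _ h1]
    ring

lemma XS_succ_eq_zero (b c d : ℕ) : XS g (b + 1) c d = fun _ => 0 := by
  funext x
  unfold XS serD
  convert tsum_zero with W
  unfold termD
  rw [iteratedDeriv_one_succ]
  simp

lemma YS_succ_eq_zero (b c d : ℕ) : YS g b (c + 1) d = fun _ => 0 := by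
  funext x
  unfold YS serD
  convert tsum_zero with W
  unfold termD
  rw [iteratedDeriv_one_succ]
  simp

/-- The translation profile. -/
noncomputable def timeG (t : ℝ) : ℝ := 1 - exp 4 * bump 1 ((t + 1) / 2)

/-- The translation speed and its derivatives. -/
noncomputable def timeV (j : ℕ) (t : ℝ) : ℝ :=
  -(exp 4 * ((1 / 2) ^ (j + 1) * iteratedDeriv (j + 1) (bump 1) ((t + 1) / 2)))

lemma hasDerivAt_half (t : ℝ) : HasDerivAt (fun t : ℝ => (t + 1) / 2) (1 / 2) t := by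
  have := ((hasDerivAt_id t).add_const 1).div_const 2
  simpa using this

lemma hasDerivAt_timeV (j : ℕ) (t : ℝ) : HasDerivAt (timeV j) (timeV (j + 1) t) t := by
  have h1 := (hasDerivAt_iteratedDeriv_bump 1 (j + 1) ((t + 1) / 2)).comp t (hasDerivAt_half t)
  have h2 := (h1.const_mul ((1 / 2 : ℝ) ^ (j + 1))).const_mul (exp 4)
  have h3 := h2.neg
  refine h3.congr_deriv ?_
  unfold timeV
  rw [pow_succ (1 / 2 : ℝ) (j + 1)]
  ring

lemma hasDerivAt_timeG (t : ℝ) : HasDerivAt timeG (timeV 0 t) t := by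
  have h1 : HasDerivAt (bump 1) (iteratedDeriv 1 (bump 1) ((t + 1) / 2)) ((t + 1) / 2) := by
    have := hasDerivAt_iteratedDeriv_bump 1 0 ((t + 1) / 2)
    simpa using this
  have h2 := h1.comp t (hasDerivAt_half t)
  have h3 := (h2.const_mul (exp 4)).const_sub 1
  refine h3.congr_deriv ?_
  unfold timeV
  ring

lemma timeG_zero : timeG 0 = 0 := by
  unfold timeG
  have : ((0 : ℝ) + 1) / 2 = 1 / 2 := by norm_num
  rw [this, bump_half, ← exp_add]
  simp

lemma timeG_one : timeG 1 = 1 := by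
  unfold timeG
  rw [bump_eq_zero (Or.inr (by norm_num))]
  simp

lemma timeV_eq_zero (j : ℕ) {t : ℝ} (h : t ≤ -1 ∨ 1 ≤ t) : timeV j t = 0 := by
  unfold timeV
  rw [iteratedDeriv_bump_eq_zero]
  · simp
  · rcases h with h | h
    · left; linarith
    · right; linarith

lemma timeV_zero_zero : timeV 0 0 = 0 := by
  have hder : deriv (bump 1) (1 / 2) = 0 := by
    have hd : Differentiable ℝ (bump 1) := (bump_contDiff 1).differentiable (by simp)
    have h1 : HasDerivAt (fun s => bump 1 (1 - s)) (deriv (bump 1) (1 - 1 / 2) * (-1)) (1 / 2) :=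
      (hd (1 - 1 / 2)).hasDerivAt.comp (1 / 2) ((hasDerivAt_id (1 / 2 : ℝ)).const_sub 1)
    have h2 : (fun s => bump 1 (1 - s)) = bump 1 := by
      funext s; exact bump_symm 1 s
    rw [h2] at h1
    have h3 := h1.deriv
    have h4 : (1 : ℝ) - 1 / 2 = 1 / 2 := by norm_num
    rw [h4] at h3
    linarith
  unfold timeV
  have : ((0 : ℝ) + 1) / 2 = 1 / 2 := by norm_num
  rw [this, iteratedDeriv_one, hder]
  simp

lemma timeV_mul_timeP (j c k : ℕ) (t : ℝ) : timeV j t * timeP c k t = 0 := by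
  by_cases h : t ≤ -1 ∨ 1 ≤ t
  · rw [timeV_eq_zero j h, zero_mul]
  · push Not at h
    rw [timeP_eq_zero c k h.1.le h.2.le, mul_zero]

lemma timeP_mul_self (t : ℝ) : timeP 1 0 t * timeP 1 0 t = timeP 2 0 t := by
  simp only [timeP, prof, iteratedDeriv_zero]
  exact (bump_two_eq_sq _).symm

lemma contDiff_timeP (c j : ℕ) : ContDiff ℝ (⊤ : ℕ∞) (timeP c j) :=
  (contDiff_prof c j (Λ := 4) le_rfl).comp (by fun_prop)

lemma contDiff_timeV (j : ℕ) : ContDiff ℝ (⊤ : ℕ∞) (timeV j) := by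
  unfold timeV
  have h1 : ContDiff ℝ (⊤ : ℕ∞) (iteratedDeriv (j + 1) (bump 1)) := iteratedDeriv_bump_contDiff 1 _
  have h2 : ContDiff ℝ (⊤ : ℕ∞) (fun t : ℝ => (t + 1) / 2) := by fun_prop
  exact ((contDiff_const.mul (contDiff_const.mul (h1.comp h2))).neg)

/-- The velocity field. -/
noncomputable def uSol (g : ℕ → ℕ → ℝ) (ζ t : ℝ) (x : V3) : V3 :=
  ![-timeP 1 0 t * XS g 0 0 0 x, -timeP 1 0 t * YS g 0 0 0 x, timeV 0 t * ζ]

/-- The force field. -/
noncomputable def fSol (ν : ℝ) (g : ℕ → ℕ → ℝ) (ζ t : ℝ) (x : V3) : V3 :=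
  ![(-1) * timeP 1 1 t * XS g 0 0 0 x + 1 * timeP 2 0 t * Q1 g 0 0 0 x
      + (ν * timeP 1 0 t * XS g 0 2 0 x + ν * timeP 1 0 t * XS g 0 0 2 x),
    (-1) * timeP 1 1 t * YS g 0 0 0 x + 1 * timeP 2 0 t * Q2 g 0 0 0 x
      + (ν * timeP 1 0 t * YS g 2 0 0 x + ν * timeP 1 0 t * YS g 0 0 2 x),
    timeV 1 t * ζ]

end Vale.Agent.P113
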