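import Vale.Agent.P113.Locate

/-!
The flags attached to a machine, and primitive recursiveness of the one-variable and the plane terms.
-/

open Real Set Filter Topology

namespace Vale.Agent.P113

/-- The word with number `W`. -/
def wordOf (W : ℕ) : List ℕ := (Encodable.decode W).getD []

lemma wordOf_encode (w : List ℕ) : wordOf (Encodable.encode w) = w := by
  simp [wordOf, Encodable.encodek]

/-- The configuration after `k` steps. -/
def configAt (M : Machine) (w : List ℕ) (k : ℕ) : Config := (M.step)^[k] (initConfig w)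

/-- Some configuration before step `n` on word number `W` is halting. -/
abbrev haltBefore (M : Machine) (W n : ℕ) : Prop :=
  ∃ k ∈ List.range n, M.isHalting (configAt M (wordOf W) k).1 = true

/-- The flag of a machine, as a rational code. -/
def flagQ (M : Machine) (W n : ℕ) : RatCode := if haltBefore M W n then qZero else qOne

/-- The flag of a machine, as a real number. -/
noncomputable def gM (M : Machine) (W n : ℕ) : ℝ := ratVal (flagQ M W n)

lemma flagOK_gM (M : Machine) : FlagOK (gM M) := by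
  intro W n
  unfold gM flagQ
  by_cases h : haltBefore M W n
  · rw [if_pos h]; simp
  · rw [if_neg h]; simp

lemma rowC_of_nonhalt {M : Machine} {w : List ℕ} (h : ¬ Halts M w) :
    rowC (gM M) (Encodable.encode w) = aa := by
  funext n
  have hf : ¬ haltBefore M (Encodable.encode w) n := by
    rintro ⟨k, _, hk⟩
    rw [wordOf_encode] at hk
    exact h ⟨k, hk⟩
  simp [rowC, gM, flagQ, hf]

lemma colC_of_nonhalt {M : Machine} {w : List ℕ} (h : ¬ Halts M w) :
    colC (gM M) (Encodable.encode w) = cc := by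
  funext n
  have hf : ¬ haltBefore M (Encodable.encode w) n := by
    rintro ⟨k, _, hk⟩
    rw [wordOf_encode] at hk
    exact h ⟨k, hk⟩
  simp [colC, gM, flagQ, hf]

lemma flag_of_halt {M : Machine} {w : List ℕ} {N : ℕ}
    (h : M.isHalting ((M.step)^[N] (initConfig w)).1 = true)
    (hmin : ∀ k < N, M.isHalting ((M.step)^[k] (initConfig w)).1 ≠ true) (n : ℕ) :
    gM M (Encodable.encode w) n = if n ≤ N then 1 else 0 := by
  unfold gM flagQ
  by_cases hn : n ≤ N
  · have hf : ¬ haltBefore M (Encodable.encode w) n := by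
      rintro ⟨k, hk, hk2⟩
      rw [wordOf_encode] at hk2
      rw [List.mem_range] at hk
      exact hmin k (by omega) hk2
    simp [hf, hn]
  · have hf : haltBefore M (Encodable.encode w) n := by
      refine ⟨N, ?_, ?_⟩
      · rw [List.mem_range]; omega
      · rw [wordOf_encode]; exact h
    rw [if_pos hf, if_neg hn]
    simp

lemma rowC_of_halt {M : Machine} {w : List ℕ} {N : ℕ}
    (h : M.isHalting ((M.step)^[N] (initConfig w)).1 = true)
    (hmin : ∀ k < N, M.isHalting ((M.step)^[k] (initConfig w)).1 ≠ true) :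
    rowC (gM M) (Encodable.encode w) = trunc aa N := by
  funext n
  unfold rowC trunc
  rw [flag_of_halt h hmin]
  by_cases hn : n ≤ N <;> simp [hn]

lemma colC_of_halt {M : Machine} {w : List ℕ} {N : ℕ}
    (h : M.isHalting ((M.step)^[N] (initConfig w)).1 = true)
    (hmin : ∀ k < N, M.isHalting ((M.step)^[k] (initConfig w)).1 ≠ true) :
    colC (gM M) (Encodable.encode w) = trunc cc N := by
  funext n
  unfold colC trunc
  rw [flag_of_halt h hmin]
  by_cases hn : n ≤ N <;> simp [hn]

/-! ### the one-variable factors -/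

/-- Row weights. -/
def rowW (M : Machine) (W n : ℕ) : RatCode := qMul (qMul (flagQ M W n) (aQ n)) (qNat (LamN n))
/-- Column weights. -/
def colW (M : Machine) (W n : ℕ) : RatCode := qMul (qMul (flagQ M W n) (cQ n)) (qNat (LamN n))
/-- The row term. -/
def rowT (M : Machine) (W k : ℕ) (z : RatCode) : Term := ser1T (rowW M W) k z
/-- The column term. -/
def colT (M : Machine) (W k : ℕ) (z : RatCode) : Term := ser1T (colW M W) k z

lemma ratVal_rowW (M : Machine) (W n : ℕ) : ratVal (rowW M W n) = rowC (gM M) W n * Lam n := by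
  simp [rowW, rowC, gM, ratVal_aQ, cast_LamN]

lemma ratVal_colW (M : Machine) (W n : ℕ) : ratVal (colW M W n) = colC (gM M) W n * Lam n := by
  simp [colW, colC, gM, ratVal_cQ, cast_LamN]

lemma rep_rowT (M : Machine) (W k : ℕ) (z : RatCode) :
    Rep (rowT M W k z) (iteratedDeriv k (Xf (gM M) W) (ratVal z)) := by
  unfold Xf
  rw [iteratedDeriv_Xr (adm_rowC (flagOK_gM M) W)]
  exact rep_ser1T (ratVal_rowW M W) k z

lemma rep_colT (M : Machine) (W k : ℕ) (z : RatCode) :
    Rep (colT M W k z) (iteratedDeriv k (Yf (gM M) W) (ratVal z)) := by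
  unfold Yf
  rw [iteratedDeriv_Xr (adm_colC (flagOK_gM M) W)]
  exact rep_ser1T (ratVal_colW M W) k z

lemma rep_rowT_one (M : Machine) (W k : ℕ) (z : RatCode) :
    Rep (rowT M W (1 + k) z) (iteratedDeriv k (Xf1 (gM M) W) (ratVal z)) := by
  unfold Xf1
  rw [iteratedDeriv_ser1_one (adm_rowC (flagOK_gM M) W)]
  exact rep_ser1T (ratVal_rowW M W) (1 + k) z

lemma rep_colT_one (M : Machine) (W k : ℕ) (z : RatCode) :
    Rep (colT M W (1 + k) z) (iteratedDeriv k (Yf1 (gM M) W) (ratVal z)) := by
  unfold Yf1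
  rw [iteratedDeriv_ser1_one (adm_colC (flagOK_gM M) W)]
  exact rep_ser1T (ratVal_colW M W) (1 + k) z

/-! ### the plane series -/

/-- The term of `XS`. -/
def XT (M : Machine) (b c d : ℕ) (x1 x2 : RatCode) : Term :=
  ser3T aQ (fun W => tMul (tMul (oneT b) (rowT M W c x1)) (betaT 1 W d x2)) x2
/-- The term of `YS`. -/
def YT (M : Machine) (b c d : ℕ) (x0 x2 : RatCode) : Term :=
  ser3T aQ (fun W => tMul (tMul (colT M W b x0) (oneT c)) (betaT 1 W d x2)) x2
/-- The term of `Q1`. -/
def Q1T (M : Machine) (b c d : ℕ) (x0 x1 x2 : RatCode) : Term :=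
  ser3T qcQ (fun W => tMul (tMul (colT M W b x0) (rowT M W (1 + c) x1)) (betaT 2 W d x2)) x2
/-- The term of `Q2`. -/
def Q2T (M : Machine) (b c d : ℕ) (x0 x1 x2 : RatCode) : Term :=
  ser3T qcQ (fun W => tMul (tMul (colT M W (1 + b) x0) (rowT M W c x1)) (betaT 2 W d x2)) x2

section rep
variable (M : Machine) (b c d : ℕ) {x : V3} {x0 x1 x2 : RatCode}
  (h0 : x 0 = ratVal x0) (h1 : x 1 = ratVal x1) (h2 : x 2 = ratVal x2)

include h1 h2 in
lemma rep_XT : Rep (XT M b c d x1 x2) (XS (gM M) b c d x) := by
  unfold XT XS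
  refine rep_ser3T ratVal_aQ h2 (fun W => ?_)
  rw [h1, h2]
  exact ((rep_oneT W b _).mul (rep_rowT M W c x1)).mul (rep_betaT one_pos W d x2)

include h0 h2 in
lemma rep_YT : Rep (YT M b c d x0 x2) (YS (gM M) b c d x) := by
  unfold YT YS
  refine rep_ser3T ratVal_aQ h2 (fun W => ?_)
  rw [h0, h2]
  exact ((rep_colT M W b x0).mul (rep_oneT W c _)).mul (rep_betaT one_pos W d x2)

include h0 h1 h2 in
lemma rep_Q1T : Rep (Q1T M b c d x0 x1 x2) (Q1 (gM M) b c d x) := by
  unfold Q1T Q1
  refine rep_ser3T ratVal_qcQ h2 (fun W => ?_)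
  rw [h0, h1, h2]
  exact ((rep_colT M W b x0).mul (rep_rowT_one M W c x1)).mul (rep_betaT (by norm_num) W d x2)

include h0 h1 h2 in
lemma rep_Q2T : Rep (Q2T M b c d x0 x1 x2) (Q2 (gM M) b c d x) := by
  unfold Q2T Q2
  refine rep_ser3T ratVal_qcQ h2 (fun W => ?_)
  rw [h0, h1, h2]
  exact ((rep_colT_one M W b x0).mul (rep_rowT M W c x1)).mul (rep_betaT (by norm_num) W d x2)

end rep

/-! ### primitive recursiveness -/

section pr
variable {α : Type} [Primcodable α]

/-- An explicit form of one step. -/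
def stepAlt (M : Machine) (c : Config) : Config :=
  Option.casesOn (M.delta c.1 c.2.2.headI).2.2
    ((M.delta c.1 c.2.2.headI).1, c.2.1, (M.delta c.1 c.2.2.headI).2.1 :: c.2.2.tail)
    (fun b => bif b then
        ((M.delta c.1 c.2.2.headI).1, (M.delta c.1 c.2.2.headI).2.1 :: c.2.1, c.2.2.tail)
      else
        ((M.delta c.1 c.2.2.headI).1, c.2.1.tail, c.2.1.headI :: (M.delta c.1 c.2.2.headI).2.1 :: c.2.2.tail))

lemma headD_zero (l : List ℕ) : l.headD 0 = l.headI := by
  cases l <;> rfl

lemma step_eq_stepAlt (M : Machine) (c : Config) : M.step c = stepAlt M c := by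
  obtain ⟨q, L, R⟩ := c
  simp only [Machine.step, stepAlt, headD_zero]
  generalize M.delta q R.headI = d
  obtain ⟨q', a', m⟩ := d
  cases m with
  | none => rfl
  | some b => cases b <;> rfl

lemma primrec_delta {fM : α → Machine} {fq fa : α → ℕ} (hM : Primrec fM) (hq : Primrec fq)
    (ha : Primrec fa) : Primrec fun x => (fM x).delta (fq x) (fa x) := by
  have h1 : Primrec fun x => (fM x).1[Nat.pair (fq x) (fa x)]? :=
    Primrec.list_getElem?.comp (Primrec.fst.comp hM) (Primrec₂.natPair.comp hq ha)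
  have h2 : Primrec fun x => (fq x, fa x, (none : Option Bool)) :=
    hq.pair (ha.pair (Primrec.const none))
  refine (Primrec.option_getD.comp h1 h2).of_eq (fun x => ?_)
  simp [Machine.delta, List.getD_eq_getElem?_getD]

lemma primrec_stepAlt {fM : α → Machine} {fc : α → Config} (hM : Primrec fM) (hc : Primrec fc) :
    Primrec fun x => stepAlt (fM x) (fc x) := by
  unfold stepAlt
  have hL : Primrec fun x => (fc x).2.1 := Primrec.fst.comp (Primrec.snd.comp hc)
  have hR : Primrec fun x => (fc x).2.2 := Primrec.snd.comp (Primrec.snd.comp hc)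
  have hd := primrec_delta hM (Primrec.fst.comp hc) (Primrec.list_headI.comp hR)
  have hd1 := Primrec.fst.comp hd
  have hd2 := Primrec.fst.comp (Primrec.snd.comp hd)
  have hd3 := Primrec.snd.comp (Primrec.snd.comp hd)
  refine Primrec.option_casesOn hd3 ?_ ?_
  · exact hd1.pair (hL.pair (Primrec.list_cons.comp hd2 (Primrec.list_tail.comp hR)))
  · have hd1' := hd1.comp (Primrec.fst (α := α) (β := Bool))
    have hd2' := hd2.comp (Primrec.fst (α := α) (β := Bool))
    have hL' := hL.comp (Primrec.fst (α := α) (β := Bool))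
    have hR' := hR.comp (Primrec.fst (α := α) (β := Bool))
    refine Primrec.cond Primrec.snd ?_ ?_
    · exact hd1'.pair ((Primrec.list_cons.comp hd2' hL').pair (Primrec.list_tail.comp hR'))
    · exact hd1'.pair ((Primrec.list_tail.comp hL').pair (Primrec.list_cons.comp
        (Primrec.list_headI.comp hL') (Primrec.list_cons.comp hd2' (Primrec.list_tail.comp hR'))))

lemma primrec_configAt {fM : α → Machine} {fw : α → List ℕ} {fk : α → ℕ} (hM : Primrec fM)
    (hw : Primrec fw) (hk : Primrec fk) : Primrec fun x => configAt (fM x) (fw x) (fk x) := by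
  have h0 : Primrec fun x => initConfig (fw x) :=
    (Primrec.const 0).pair ((Primrec.const []).pair hw)
  have h1 : Primrec₂ fun (x : α) (c : Config) => (fM x).step c := by
    show Primrec fun p : α × Config => (fM p.1).step p.2
    simp only [step_eq_stepAlt]
    exact primrec_stepAlt (hM.comp Primrec.fst) Primrec.snd
  exact Primrec.nat_iterate hk h0 h1

lemma primrec_wordOf : Primrec wordOf := by
  unfold wordOf
  exact Primrec.option_getD.comp Primrec.decode (Primrec.const [])

lemma primrecPred_haltBefore {fM : α → Machine} {fW fn : α → ℕ} (hM : Primrec fM) (hW : Primrec fW)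
    (hn : Primrec fn) : PrimrecPred fun x => haltBefore (fM x) (fW x) (fn x) := by
  have hR : PrimrecRel fun (k : ℕ) (p : Machine × ℕ) =>
      p.1.isHalting (configAt p.1 (wordOf p.2) k).1 = true := by
    show PrimrecPred fun q : ℕ × Machine × ℕ =>
      q.2.1.isHalting (configAt q.2.1 (wordOf q.2.2) q.1).1 = true
    refine Primrec.eq.comp ?_ (Primrec.const true)
    have hcfg := primrec_configAt (α := ℕ × Machine × ℕ) (Primrec.fst.comp Primrec.snd)
      (primrec_wordOf.comp (Primrec.snd.comp Primrec.snd)) Primrec.fst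
    have := (Primrec.list_getD false).comp (Primrec.snd.comp (Primrec.fst.comp (Primrec.snd (α := ℕ)
      (β := Machine × ℕ)))) (Primrec.fst.comp hcfg)
    exact this
  exact hR.exists_mem_list.comp (Primrec.list_range.comp hn) (hM.pair hW)

lemma primrec_flagQ {fM : α → Machine} {fW fn : α → ℕ} (hM : Primrec fM) (hW : Primrec fW)
    (hn : Primrec fn) : Primrec fun x => flagQ (fM x) (fW x) (fn x) := by
  unfold flagQ
  exact Primrec.ite (primrecPred_haltBefore hM hW hn) (Primrec.const _) (Primrec.const _)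

lemma primrec_LamN : Primrec LamN := by
  unfold LamN
  exact primrec_nat_pow.comp (Primrec.const 4) Primrec.succ

lemma primrecRel_levCond : PrimrecRel levCond := by
  show PrimrecPred fun p : RatCode × ℕ => levCond p.1 p.2
  have hf : Primrec fun p : RatCode × ℕ => (qFract p.1).1 :=
    Primrec.fst.comp (primrec_qFract.comp Primrec.fst)
  have hL : Primrec fun p : RatCode × ℕ => LamN p.2 := primrec_LamN.comp Primrec.snd
  have hLf := Primrec.nat_mul.comp hL hf
  have hd : Primrec fun p : RatCode × ℕ => p.1.2.2 + 1 :=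
    Primrec.succ.comp (Primrec.snd.comp (Primrec.snd.comp Primrec.fst))
  exact (Primrec.nat_lt.comp hd hLf).and
    (Primrec.nat_lt.comp hLf (Primrec.nat_mul.comp (Primrec.const 2) hd))

lemma primrec_levelN : Primrec levelN := by
  unfold levelN
  refine Primrec.nat_findGreatest (f := fun z : RatCode => 2 * (z.2.2 + 1)) ?_ primrecRel_levCond
  exact Primrec.nat_mul.comp (Primrec.const 2)
    (Primrec.succ.comp (Primrec.snd.comp Primrec.snd))

lemma primrec_profT {fc fk fL : α → ℕ} {fz : α → RatCode} (hc : Primrec fc) (hk : Primrec fk)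
    (hL : Primrec fL) (hz : Primrec fz) : Primrec fun x => profT (fc x) (fk x) (fL x) (fz x) := by
  unfold profT
  refine primrec_bumpT hc hk ?_
  refine primrec_qSub.comp (primrec_qMul.comp ?_ (primrec_qFract.comp hz)) (Primrec.const _)
  exact hL.pair (Primrec.const (0, 0))

lemma primrec_qNat : Primrec qNat := Primrec.id.pair (Primrec.const (0, 0))

lemma primrec_ser1T {fw : α → ℕ → RatCode} {fk : α → ℕ} {fz : α → RatCode} (hw : Primrec₂ fw)
    (hk : Primrec fk) (hz : Primrec fz) : Primrec fun x => ser1T (fw x) (fk x) (fz x) := by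
  unfold ser1T
  have hl : Primrec fun x => levelN (fz x) := primrec_levelN.comp hz
  refine Primrec.ite (primrecRel_levCond.comp hz hl) ?_ (Primrec.const _)
  refine primrec_tScale.comp ?_ ?_
  · refine primrec_qMul.comp (hw.comp Primrec.id hl) ?_
    exact primrec_qPow.comp (primrec_qNat.comp (primrec_LamN.comp hl)) hk
  · exact primrec_profT (Primrec.const 1) hk (primrec_LamN.comp hl) hz

lemma primrec_aQ : Primrec aQ := by
  unfold aQ
  refine (Primrec.const 1).pair ((Primrec.const 0).pair ?_)
  refine Primrec.nat_sub.comp (primrec_nat_pow.comp (Primrec.const 2) ?_) (Primrec.const 1)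
  exact Primrec.nat_mul.comp Primrec.id Primrec.id

lemma primrec_cQ : Primrec cQ := by
  unfold cQ
  exact primrec_qMul.comp (Primrec.const _)
    (primrec_qAdd.comp primrec_aQ (primrec_aQ.comp Primrec.succ))

lemma primrec_qcQ : Primrec qcQ := by
  unfold qcQ
  exact primrec_qMul.comp primrec_aQ primrec_aQ

lemma primrec_rowT {fM : α → Machine} {fW fk : α → ℕ} {fz : α → RatCode} (hM : Primrec fM)
    (hW : Primrec fW) (hk : Primrec fk) (hz : Primrec fz) :
    Primrec fun x => rowT (fM x) (fW x) (fk x) (fz x) := by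
  unfold rowT
  refine primrec_ser1T (fw := fun x => rowW (fM x) (fW x)) ?_ hk hz
  show Primrec fun p : α × ℕ => rowW (fM p.1) (fW p.1) p.2
  unfold rowW
  refine primrec_qMul.comp (primrec_qMul.comp ?_ ?_) ?_
  · exact primrec_flagQ (hM.comp Primrec.fst) (hW.comp Primrec.fst) Primrec.snd
  · exact primrec_aQ.comp Primrec.snd
  · exact primrec_qNat.comp (primrec_LamN.comp Primrec.snd)

lemma primrec_colT {fM : α → Machine} {fW fk : α → ℕ} {fz : α → RatCode} (hM : Primrec fM)
    (hW : Primrec fW) (hk : Primrec fk) (hz : Primrec fz) :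
    Primrec fun x => colT (fM x) (fW x) (fk x) (fz x) := by
  unfold colT
  refine primrec_ser1T (fw := fun x => colW (fM x) (fW x)) ?_ hk hz
  show Primrec fun p : α × ℕ => colW (fM p.1) (fW p.1) p.2
  unfold colW
  refine primrec_qMul.comp (primrec_qMul.comp ?_ ?_) ?_
  · exact primrec_flagQ (hM.comp Primrec.fst) (hW.comp Primrec.fst) Primrec.snd
  · exact primrec_cQ.comp Primrec.snd
  · exact primrec_qNat.comp (primrec_LamN.comp Primrec.snd)

lemma primrec_betaT {fc fW fk : α → ℕ} {fz : α → RatCode} (hc : Primrec fc) (hW : Primrec fW)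
    (hk : Primrec fk) (hz : Primrec fz) : Primrec fun x => betaT (fc x) (fW x) (fk x) (fz x) := by
  unfold betaT
  refine primrec_tScale.comp ?_ (primrec_profT hc hk (primrec_LamN.comp hW) hz)
  exact primrec_qPow.comp (primrec_qNat.comp (primrec_LamN.comp hW)) hk

lemma primrec_oneT {fk : α → ℕ} (hk : Primrec fk) : Primrec fun x => oneT (fk x) := by
  unfold oneT
  exact Primrec.ite (Primrec.eq.comp hk (Primrec.const 0)) (Primrec.const _) (Primrec.const _)

lemma primrec_ser3T {co : ℕ → RatCode} {fF : α → ℕ → Term} {fz : α → RatCode} (hco : Primrec co)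
    (hF : Primrec₂ fF) (hz : Primrec fz) : Primrec fun x => ser3T co (fF x) (fz x) := by
  unfold ser3T
  have hl : Primrec fun x => levelN (fz x) := primrec_levelN.comp hz
  refine Primrec.ite (primrecRel_levCond.comp hz hl) ?_ (Primrec.const _)
  exact primrec_tScale.comp (hco.comp hl) (hF.comp Primrec.id hl)

section
variable {fM : α → Machine} {fb fc fd : α → ℕ} {f0 f1 f2 : α → RatCode}
  (hM : Primrec fM) (hb : Primrec fb) (hc : Primrec fc) (hd : Primrec fd)
  (h0 : Primrec f0) (h1 : Primrec f1) (h2 : Primrec f2)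
include hM hb hc hd h1 h2

lemma primrec_XT : Primrec fun x => XT (fM x) (fb x) (fc x) (fd x) (f1 x) (f2 x) := by
  unfold XT
  refine primrec_ser3T primrec_aQ ?_ h2
  show Primrec fun p : α × ℕ => tMul (tMul (oneT (fb p.1)) (rowT (fM p.1) p.2 (fc p.1) (f1 p.1)))
    (betaT 1 p.2 (fd p.1) (f2 p.1))
  have hf := Primrec.fst (α := α) (β := ℕ)
  exact primrec_tMul.comp (primrec_tMul.comp (primrec_oneT (hb.comp hf))
    (primrec_rowT (hM.comp hf) Primrec.snd (hc.comp hf) (h1.comp hf)))
    (primrec_betaT (Primrec.const 1) Primrec.snd (hd.comp hf) (h2.comp hf))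

omit hc h1 hb in
include hb h0 hc in
lemma primrec_YT : Primrec fun x => YT (fM x) (fb x) (fc x) (fd x) (f0 x) (f2 x) := by
  unfold YT
  refine primrec_ser3T primrec_aQ ?_ h2
  show Primrec fun p : α × ℕ => tMul (tMul (colT (fM p.1) p.2 (fb p.1) (f0 p.1)) (oneT (fc p.1)))
    (betaT 1 p.2 (fd p.1) (f2 p.1))
  have hf := Primrec.fst (α := α) (β := ℕ)
  exact primrec_tMul.comp (primrec_tMul.comp
    (primrec_colT (hM.comp hf) Primrec.snd (hb.comp hf) (h0.comp hf))
    (primrec_oneT (hc.comp hf)))
    (primrec_betaT (Primrec.const 1) Primrec.snd (hd.comp hf) (h2.comp hf))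

include h0 in
lemma primrec_Q1T : Primrec fun x => Q1T (fM x) (fb x) (fc x) (fd x) (f0 x) (f1 x) (f2 x) := by
  unfold Q1T
  refine primrec_ser3T primrec_qcQ ?_ h2
  show Primrec fun p : α × ℕ => tMul (tMul (colT (fM p.1) p.2 (fb p.1) (f0 p.1))
    (rowT (fM p.1) p.2 (1 + fc p.1) (f1 p.1))) (betaT 2 p.2 (fd p.1) (f2 p.1))
  have hf := Primrec.fst (α := α) (β := ℕ)
  exact primrec_tMul.comp (primrec_tMul.comp
    (primrec_colT (hM.comp hf) Primrec.snd (hb.comp hf) (h0.comp hf))
    (primrec_rowT (hM.comp hf) Primrec.snd (Primrec.nat_add.comp (Primrec.const 1) (hc.comp hf))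
      (h1.comp hf)))
    (primrec_betaT (Primrec.const 2) Primrec.snd (hd.comp hf) (h2.comp hf))

include h0 in
lemma primrec_Q2T : Primrec fun x => Q2T (fM x) (fb x) (fc x) (fd x) (f0 x) (f1 x) (f2 x) := by
  unfold Q2T
  refine primrec_ser3T primrec_qcQ ?_ h2
  show Primrec fun p : α × ℕ => tMul (tMul (colT (fM p.1) p.2 (1 + fb p.1) (f0 p.1))
    (rowT (fM p.1) p.2 (fc p.1) (f1 p.1))) (betaT 2 p.2 (fd p.1) (f2 p.1))
  have hf := Primrec.fst (α := α) (β := ℕ)
  exact primrec_tMul.comp (primrec_tMul.comp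
    (primrec_colT (hM.comp hf) Primrec.snd (Primrec.nat_add.comp (Primrec.const 1) (hb.comp hf))
      (h0.comp hf))
    (primrec_rowT (hM.comp hf) Primrec.snd (hc.comp hf) (h1.comp hf)))
    (primrec_betaT (Primrec.const 2) Primrec.snd (hd.comp hf) (h2.comp hf))

end

lemma primrec_timeT {fc fj : α → ℕ} {ft : α → RatCode} (hc : Primrec fc) (hj : Primrec fj)
    (ht : Primrec ft) : Primrec fun x => timeT (fc x) (fj x) (ft x) := by
  unfold timeT
  exact primrec_profT hc hj (Primrec.const 4) (primrec_qMul.comp (Primrec.const _) ht)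

lemma primrec_timeVT {fj : α → ℕ} {ft : α → RatCode} (hj : Primrec fj) (ht : Primrec ft) :
    Primrec fun x => timeVT (fj x) (ft x) := by
  unfold timeVT
  have hh : Primrec fun x => halfT (ft x) :=
    primrec_qMul.comp (Primrec.const _) (primrec_qAdd.comp ht (Primrec.const _))
  have hj1 : Primrec fun x => fj x + 1 := Primrec.succ.comp hj
  have hb := primrec_bumpT (Primrec.const 1) hj1 hh
  refine Primrec.ite ?_ ?_ (Primrec.const _)
  · exact (primrecRel_qLt.comp (Primrec.const qZero) hh).and
      (primrecRel_qLt.comp hh (Primrec.const qOne))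
  · refine Primrec.pair ?_ ?_
    · refine primrec_qNeg.comp (primrec_qMul.comp ?_ (Primrec.fst.comp hb))
      refine (Primrec.const 1).pair ((Primrec.const 0).pair ?_)
      exact Primrec.nat_sub.comp (primrec_nat_pow.comp (Primrec.const 2) hj1) (Primrec.const 1)
    · exact primrec_qSub.comp (Primrec.snd.comp hb) (Primrec.const _)

end pr

end Vale.Agent.P113
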