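import Vale.Agent.P113.Prim

/-!
The planar flow: a particle following the staircase of rows and columns.
-/

open Real Set Filter Topology

namespace Vale.Agent.P113

/-- The time profile of period 4, vanishing on `[0, 1]`. -/
noncomputable def timeP (c j : ℕ) (t : ℝ) : ℝ := prof c j 4 (t / 4)

lemma hasDerivAt_timeP (c j : ℕ) (t : ℝ) : HasDerivAt (timeP c j) (timeP c (j + 1) t) t := by
  have h1 := hasDerivAt_prof c j (Λ := 4) le_rfl (t / 4)
  have h2 : HasDerivAt (fun t : ℝ => t / 4) (1 / 4) t := (hasDerivAt_id t).div_const 4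
  have := h1.comp t h2
  refine this.congr_deriv ?_
  unfold timeP
  ring

lemma timeP_nonneg (c : ℕ) (t : ℝ) : 0 ≤ timeP c 0 t := by
  simp only [timeP, prof, iteratedDeriv_zero]
  exact bump_nonneg c _

lemma timeP_periodic (c j : ℕ) (t : ℝ) : timeP c j (t + 4) = timeP c j t := by
  unfold timeP
  have : (t + 4) / 4 = t / 4 + ((1 : ℤ) : ℝ) := by push_cast; ring
  rw [this, prof_periodic]

lemma timeP_eq_of_mem (c j : ℕ) (m : ℤ) {t : ℝ} (h0 : 4 * (m : ℝ) ≤ t) (h1 : t < 4 * m + 4) :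
    timeP c j t = iteratedDeriv j (bump c) (t - 4 * m - 1) := by
  unfold timeP prof
  have hfl : ⌊t / 4⌋ = m := by
    rw [Int.floor_eq_iff]; constructor <;> linarith
  have hfr : Int.fract (t / 4) = t / 4 - m := by rw [Int.fract, hfl]
  rw [hfr]
  congr 1
  ring

/-- `timeP` vanishes on `[0, 1]` (and on `[-1, 0]`). -/
lemma timeP_eq_zero (c j : ℕ) {t : ℝ} (h0 : -1 ≤ t) (h1 : t ≤ 1) : timeP c j t = 0 := by
  by_cases h : 0 ≤ t
  · rw [timeP_eq_of_mem c j 0 (by simpa using h) (by simp; linarith)]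
    apply iteratedDeriv_bump_eq_zero
    left; simp; linarith
  · push Not at h
    rw [timeP_eq_of_mem c j (-1) (by push_cast; linarith) (by push_cast; linarith)]
    apply iteratedDeriv_bump_eq_zero
    right; push_cast; linarith

/-- A positive lower bound on the active part of each period. -/
noncomputable def etaP : ℝ := exp (-(16 / 3))

lemma etaP_pos : 0 < etaP := exp_pos _

lemma timeP_lower (m : ℕ) {t : ℝ} (h0 : 4 * (m : ℝ) + 5 / 4 ≤ t) (h1 : t ≤ 4 * m + 7 / 4) :
    etaP ≤ timeP 1 0 t := by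
  have := timeP_eq_of_mem 1 0 (m : ℤ) (t := t) (by push_cast; linarith) (by push_cast; linarith)
  rw [this, iteratedDeriv_zero]
  push_cast
  set s : ℝ := t - 4 * m - 1 with hs
  have hs0 : 1 / 4 ≤ s := by rw [hs]; linarith
  have hs1 : s ≤ 3 / 4 := by rw [hs]; linarith
  rw [bump_of_mem one_pos (by linarith) (by linarith)]
  unfold etaP
  apply exp_le_exp.mpr
  have hD : 3 / 16 ≤ s * (1 - s) := by nlinarith
  have hDpos : 0 < s * (1 - s) := by linarith
  rw [neg_le_neg_iff, div_le_iff₀ hDpos]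
  push_cast
  linarith

/-- If `y' ≤ - τ δ` eventually, then `y` is not bounded below. -/
lemma unbounded_of_deriv_le {y y' : ℝ → ℝ} {t₀ δ : ℝ} (hδ : 0 < δ)
    (hy : ∀ t, t₀ ≤ t → HasDerivAt y (y' t) t) (h : ∀ t, t₀ ≤ t → y' t ≤ -(timeP 1 0 t * δ)) (B : ℝ) :
    ∃ t, t₀ ≤ t ∧ y t < B := by
  have hanti : AntitoneOn y (Ici t₀) := by
    apply antitoneOn_of_deriv_nonpos (convex_Ici t₀)
    · exact fun t ht => (hy t ht).continuousAt.continuousWithinAt
    · intro t ht
      rw [interior_Ici] at ht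
      exact (hy t (le_of_lt ht)).differentiableAt.differentiableWithinAt
    · intro t ht
      rw [interior_Ici] at ht
      rw [(hy t (le_of_lt ht)).deriv]
      have := h t (le_of_lt ht)
      have h2 : 0 ≤ timeP 1 0 t * δ := mul_nonneg (timeP_nonneg 1 t) hδ.le
      linarith
  -- a starting period
  obtain ⟨m₀, hm₀⟩ := exists_nat_ge t₀
  have hstart : ∀ k : ℕ, y (4 * ((m₀ + k : ℕ) : ℝ) + 5 / 4)
      ≤ y (4 * (m₀ : ℝ) + 5 / 4) - k * (etaP * δ * (1 / 2)) := by
    intro k
    induction k with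
    | zero => simp
    | succ k ih =>
      set m := m₀ + k with hm
      have hm' : (m : ℝ) = m₀ + k := by rw [hm]; push_cast; ring
      have hk0 : (0 : ℝ) ≤ k := Nat.cast_nonneg k
      have hm0 : (0 : ℝ) ≤ m₀ := Nat.cast_nonneg m₀
      have ha : t₀ ≤ 4 * (m : ℝ) + 5 / 4 := by rw [hm']; linarith
      -- on the active interval
      have hact : y (4 * (m : ℝ) + 7 / 4) - y (4 * (m : ℝ) + 5 / 4)
          ≤ (-(etaP * δ)) * ((4 * (m : ℝ) + 7 / 4) - (4 * (m : ℝ) + 5 / 4)) := by
        refine Convex.image_sub_le_mul_sub_of_deriv_le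
          (convex_Icc (4 * (m : ℝ) + 5 / 4) (4 * (m : ℝ) + 7 / 4)) ?_ ?_ ?_ _ ⟨le_rfl, by linarith⟩ _
          ⟨by linarith, le_rfl⟩ (by linarith)
        · exact fun t ht => (hy t (le_trans ha ht.1)).continuousAt.continuousWithinAt
        · intro t ht
          rw [interior_Icc] at ht
          exact (hy t (le_trans ha (le_of_lt ht.1))).differentiableAt.differentiableWithinAt
        · intro t ht
          rw [interior_Icc] at ht
          have ht0 := le_trans ha (le_of_lt ht.1)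
          rw [(hy t ht0).deriv]
          have h1 := h t ht0
          have h2 := timeP_lower m (le_of_lt ht.1) (le_of_lt ht.2)
          have h3 : etaP * δ ≤ timeP 1 0 t * δ := mul_le_mul_of_nonneg_right h2 hδ.le
          linarith
      have hnext : y (4 * ((m₀ + (k + 1) : ℕ) : ℝ) + 5 / 4) ≤ y (4 * (m : ℝ) + 7 / 4) := by
        apply hanti (mem_Ici.mpr (by linarith)) (mem_Ici.mpr (by push_cast; linarith))
        push_cast
        rw [hm']
        linarith
      have hcast : ((k + 1 : ℕ) : ℝ) = k + 1 := by push_cast; ring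
      rw [hcast]
      have ih' : y (4 * (m : ℝ) + 5 / 4) ≤ y (4 * (m₀ : ℝ) + 5 / 4) - k * (etaP * δ * (1 / 2)) := ih
      have hsimp : (-(etaP * δ)) * ((4 * (m : ℝ) + 7 / 4) - (4 * (m : ℝ) + 5 / 4))
          = -(etaP * δ * (1 / 2)) := by ring
      rw [hsimp] at hact
      nlinarith
  have hpos : 0 < etaP * δ * (1 / 2) := by
    have := etaP_pos; positivity
  obtain ⟨k, hk⟩ := exists_nat_gt ((y (4 * (m₀ : ℝ) + 5 / 4) - B) / (etaP * δ * (1 / 2)))
  refine ⟨4 * ((m₀ + k : ℕ) : ℝ) + 5 / 4, ?_, ?_⟩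
  · push_cast
    have hk0 : (0 : ℝ) ≤ k := Nat.cast_nonneg k
    have hm0 : (0 : ℝ) ≤ m₀ := Nat.cast_nonneg m₀
    linarith
  · have h1 := hstart k
    rw [div_lt_iff₀ hpos] at hk
    linarith

section planar

variable {r r' : ℕ → ℝ} {A : ℝ} {x y : ℝ → ℝ}

/-- The planar system: `x' = - τ A X(y)`, `y' = - τ A Y(x)` for `t ≥ 1`. -/
structure PlanarSol (r r' : ℕ → ℝ) (A : ℝ) (x y : ℝ → ℝ) : Prop where
  hr : Adm r
  hr' : Adm r'
  hA : 0 < A
  hx : ∀ t, 1 ≤ t → HasDerivAt x (-(timeP 1 0 t * (A * Xr r (y t)))) t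
  hy : ∀ t, 1 ≤ t → HasDerivAt y (-(timeP 1 0 t * (A * Xr r' (x t)))) t

lemma PlanarSol.antitone_x (S : PlanarSol r r' A x y) : AntitoneOn x (Ici 1) := by
  apply antitoneOn_of_deriv_nonpos (convex_Ici 1)
  · exact fun t ht => (S.hx t ht).continuousAt.continuousWithinAt
  · intro t ht
    rw [interior_Ici] at ht
    exact (S.hx t (le_of_lt ht)).differentiableAt.differentiableWithinAt
  · intro t ht
    rw [interior_Ici] at ht
    rw [(S.hx t (le_of_lt ht)).deriv]
    have := mul_nonneg (timeP_nonneg 1 t) (mul_nonneg S.hA.le (S.hr.Xr_nonneg (y t)))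
    linarith

lemma PlanarSol.antitone_y (S : PlanarSol r r' A x y) : AntitoneOn y (Ici 1) := by
  apply antitoneOn_of_deriv_nonpos (convex_Ici 1)
  · exact fun t ht => (S.hy t ht).continuousAt.continuousWithinAt
  · intro t ht
    rw [interior_Ici] at ht
    exact (S.hy t (le_of_lt ht)).differentiableAt.differentiableWithinAt
  · intro t ht
    rw [interior_Ici] at ht
    rw [(S.hy t (le_of_lt ht)).deriv]
    have := mul_nonneg (timeP_nonneg 1 t) (mul_nonneg S.hA.le (S.hr'.Xr_nonneg (x t)))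
    linarith

lemma PlanarSol.conservation (S : PlanarSol r r' A x y) {t : ℝ} (ht : 1 ≤ t) :
    Pr r (y t) - Pr r' (x t) = Pr r (y 1) - Pr r' (x 1) := by
  have hder : ∀ s, 1 ≤ s → HasDerivAt (fun s => Pr r (y s) - Pr r' (x s)) 0 s := by
    intro s hs
    have h1 := (S.hr.hasDerivAt_Pr (y s)).comp s (S.hy s hs)
    have h2 := (S.hr'.hasDerivAt_Pr (x s)).comp s (S.hx s hs)
    have := h1.sub h2
    refine this.congr_deriv ?_
    ring
  have := constant_of_has_deriv_right_zero (f := fun s => Pr r (y s) - Pr r' (x s)) (a := 1) (b := t)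
    (fun s hs => (hder s hs.1).continuousAt.continuousWithinAt)
    (fun s hs => (hder s hs.1).hasDerivWithinAt) t ⟨ht, le_rfl⟩
  exact this

end planar

end Vale.Agent.P113
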