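import Vale.Agent.P113.Terms
import Vale.Agent.P113.Bump

/-!
Exact formula for the derivatives of the flat bump, as a polynomial in `1/s`, `1/(1-s)` times the
exponential, and its rational evaluation.
-/

open Real Set Filter Topology

namespace Vale.Agent.P113

/-- A monomial `(a - b) * u ^ p * v ^ q`, stored as `(a, b, p, q)`. -/
abbrev Mono := ℕ × ℕ × ℕ × ℕ

/-- The value of a monomial. -/
noncomputable def monoVal (m : Mono) (u v : ℝ) : ℝ :=
  ((m.1 : ℝ) - m.2.1) * u ^ m.2.2.1 * v ^ m.2.2.2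

/-- The formal derivative of a monomial times `exp (-c (u + v))`. -/
def monoDeriv (c : ℕ) (m : Mono) : List Mono :=
  [(m.2.1 * m.2.2.1, m.1 * m.2.2.1, m.2.2.1 + 1, m.2.2.2),
    (m.1 * m.2.2.2, m.2.1 * m.2.2.2, m.2.2.1, m.2.2.2 + 1),
    (m.1 * c, m.2.1 * c, m.2.2.1 + 2, m.2.2.2),
    (m.2.1 * c, m.1 * c, m.2.2.1, m.2.2.2 + 2)]

/-- The value of a list of monomials. -/
noncomputable def jetVal (J : List Mono) (u v : ℝ) : ℝ := (J.map (fun m => monoVal m u v)).sum

/-- The exponential factor. -/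
noncomputable def Ex (c : ℕ) (s : ℝ) : ℝ := exp (-((c : ℝ) * (s⁻¹ + (1 - s)⁻¹)))

section deriv
variable (c : ℕ) {s : ℝ}

lemma hasDerivAt_U (h0 : 0 < s) : HasDerivAt (fun s : ℝ => s⁻¹) (-(s⁻¹ ^ 2)) s := by
  have := hasDerivAt_inv h0.ne'
  refine this.congr_deriv ?_
  rw [inv_pow]

lemma hasDerivAt_V (h1 : s < 1) : HasDerivAt (fun s : ℝ => (1 - s)⁻¹) ((1 - s)⁻¹ ^ 2) s := by
  have hne : 1 - s ≠ 0 := by linarith
  have h2 : HasDerivAt (fun s : ℝ => 1 - s) (-1) s := by
    simpa using (hasDerivAt_id s).const_sub 1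
  have := h2.inv hne
  refine this.congr_deriv ?_
  rw [inv_pow]
  field_simp

lemma hasDerivAt_Ex (h0 : 0 < s) (h1 : s < 1) :
    HasDerivAt (Ex c) ((c : ℝ) * (s⁻¹ ^ 2 - (1 - s)⁻¹ ^ 2) * Ex c s) s := by
  have h2 : HasDerivAt (fun s : ℝ => -((c : ℝ) * (s⁻¹ + (1 - s)⁻¹)))
      (-((c : ℝ) * (-(s⁻¹ ^ 2) + (1 - s)⁻¹ ^ 2))) s :=
    (((hasDerivAt_U h0).add (hasDerivAt_V h1)).const_mul (c : ℝ)).neg
  have h3 := h2.exp
  refine h3.congr_deriv ?_
  unfold Ex
  ring

lemma natmul_pow_pred (p : ℕ) (u : ℝ) : (p : ℝ) * u ^ (p - 1) * u ^ 2 = p * (u ^ p * u) := by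
  cases p with
  | zero => simp
  | succ n =>
    simp only [Nat.add_sub_cancel]
    rw [pow_succ]
    ring

lemma hasDerivAt_mono (m : Mono) (h0 : 0 < s) (h1 : s < 1) :
    HasDerivAt (fun s => monoVal m s⁻¹ (1 - s)⁻¹ * Ex c s)
      (jetVal (monoDeriv c m) s⁻¹ (1 - s)⁻¹ * Ex c s) s := by
  have hU : HasDerivAt (fun s : ℝ => s⁻¹ ^ m.2.2.1) _ s := (hasDerivAt_U h0).pow m.2.2.1
  have hV : HasDerivAt (fun s : ℝ => (1 - s)⁻¹ ^ m.2.2.2) _ s := (hasDerivAt_V h1).pow m.2.2.2
  have hUV : HasDerivAt (fun s : ℝ => s⁻¹ ^ m.2.2.1 * (1 - s)⁻¹ ^ m.2.2.2) _ s := hU.mul hV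
  have h2 : HasDerivAt (fun s : ℝ => ((m.1 : ℝ) - m.2.1) * (s⁻¹ ^ m.2.2.1 * (1 - s)⁻¹ ^ m.2.2.2)
      * Ex c s) _ s := (hUV.const_mul ((m.1 : ℝ) - m.2.1)).mul (hasDerivAt_Ex c h0 h1)
  have h3 : (fun s : ℝ => monoVal m s⁻¹ (1 - s)⁻¹ * Ex c s)
      = fun s => ((m.1 : ℝ) - m.2.1) * (s⁻¹ ^ m.2.2.1 * (1 - s)⁻¹ ^ m.2.2.2) * Ex c s := by
    funext r
    unfold monoVal
    ring
  rw [h3]
  refine h2.congr_deriv ?_
  simp only [jetVal, monoDeriv, monoVal, List.map_cons, List.map_nil, List.sum_cons, List.sum_nil]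
  push_cast
  set u := s⁻¹ with hu
  set v := (1 - s)⁻¹ with hv
  set p := m.2.2.1 with hp
  set q := m.2.2.2 with hq
  have e1 := natmul_pow_pred p u
  have e2 := natmul_pow_pred q v
  set E := Ex c s
  have e1' : (p : ℝ) * u ^ (p - 1) * -(u ^ 2) = -(p * (u ^ p * u)) := by
    rw [mul_neg, e1]
  rw [e1', e2]
  ring

lemma hasDerivAt_jet (J : List Mono) (h0 : 0 < s) (h1 : s < 1) :
    HasDerivAt (fun s => jetVal J s⁻¹ (1 - s)⁻¹ * Ex c s)
      (jetVal (J.flatMap (monoDeriv c)) s⁻¹ (1 - s)⁻¹ * Ex c s) s := by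
  induction J with
  | nil => simpa [jetVal] using hasDerivAt_const s (0 : ℝ)
  | cons m J ih =>
    have h2 := (hasDerivAt_mono c m h0 h1).add ih
    have h3 : (fun s : ℝ => jetVal (m :: J) s⁻¹ (1 - s)⁻¹ * Ex c s)
        = fun s => monoVal m s⁻¹ (1 - s)⁻¹ * Ex c s + jetVal J s⁻¹ (1 - s)⁻¹ * Ex c s := by
      funext r
      simp only [jetVal, List.map_cons, List.sum_cons]
      ring
    rw [h3]
    refine h2.congr_deriv ?_
    simp only [jetVal, List.flatMap_cons, List.map_append, List.sum_append]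
    ring

end deriv

/-- The polynomial of the `k`-th derivative of `bump c`. -/
def jet (c k : ℕ) : List Mono := (fun J => J.flatMap (monoDeriv c))^[k] [(1, 0, 0, 0)]

theorem iteratedDeriv_bump_eq {c : ℕ} (hc : 0 < c) (k : ℕ) :
    ∀ {s : ℝ}, 0 < s → s < 1 →
      iteratedDeriv k (bump c) s = jetVal (jet c k) s⁻¹ (1 - s)⁻¹ * Ex c s := by
  induction k with
  | zero =>
    intro s h0 h1
    rw [iteratedDeriv_zero, bump_of_mem hc h0 h1]
    simp only [jet, Function.iterate_zero, id, jetVal, monoVal, List.map_cons, List.map_nil,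
      List.sum_cons, List.sum_nil]
    simp only [Nat.cast_one, Nat.cast_zero, sub_zero, pow_zero, mul_one, add_zero, one_mul]
    unfold Ex
    congr 2
    have h2 : 1 - s ≠ 0 := by linarith
    field_simp
    ring
  | succ k ih =>
    intro s h0 h1
    rw [iteratedDeriv_succ]
    have hev : iteratedDeriv k (bump c) =ᶠ[𝓝 s] fun r => jetVal (jet c k) r⁻¹ (1 - r)⁻¹ * Ex c r := by
      filter_upwards [Ioo_mem_nhds h0 h1] with r hr
      exact ih hr.1 hr.2
    rw [hev.deriv_eq, (hasDerivAt_jet c (jet c k) h0 h1).deriv]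
    simp only [jet, Function.iterate_succ_apply']

/-- The rational value of a monomial. -/
def monoEval (m : Mono) (u v : RatCode) : RatCode :=
  qMul (qMul (m.1, m.2.1, 0) (qPow u m.2.2.1)) (qPow v m.2.2.2)

/-- The rational value of a list of monomials. -/
def jetEval (J : List Mono) (u v : RatCode) : RatCode :=
  J.foldr (fun m acc => qAdd (monoEval m u v) acc) qZero

lemma ratVal_monoEval (m : Mono) (u v : RatCode) :
    ratVal (monoEval m u v) = monoVal m (ratVal u) (ratVal v) := by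
  simp only [monoEval, monoVal, ratVal_qMul, ratVal_qPow]
  simp [ratVal]

lemma ratVal_jetEval (J : List Mono) (u v : RatCode) :
    ratVal (jetEval J u v) = jetVal J (ratVal u) (ratVal v) := by
  induction J with
  | nil => simp [jetEval, jetVal]
  | cons m J ih =>
    simp only [jetEval, List.foldr_cons, ratVal_qAdd, ratVal_monoEval] at ih ⊢
    rw [ih]
    simp [jetVal]

/-- The term of the `k`-th derivative of `bump c` at the rational point `s`. -/
def bumpT (c k : ℕ) (s : RatCode) : Term :=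
  if qLt qZero s ∧ qLt s qOne then
    (jetEval (jet c k) (qInv s) (qInv (qSub qOne s)),
      qMul (qNat c) (qAdd (qInv s) (qInv (qSub qOne s))))
  else tZero

theorem rep_bumpT {c : ℕ} (hc : 0 < c) (k : ℕ) (s : RatCode) :
    Rep (bumpT c k s) (iteratedDeriv k (bump c) (ratVal s)) := by
  unfold bumpT
  by_cases h : qLt qZero s ∧ qLt s qOne
  · rw [if_pos h]
    have h0 : 0 < ratVal s := by
      have := (qLt_iff _ _).mp h.1
      simpa using this
    have h1 : ratVal s < 1 := by
      have := (qLt_iff _ _).mp h.2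
      simpa using this
    have h2 : 0 < ratVal (qSub qOne s) := by
      simp only [ratVal_qSub, ratVal_qOne]
      linarith
    have hv : ratVal (qInv (qSub qOne s)) = (1 - ratVal s)⁻¹ := by
      rw [ratVal_qInv h2]
      simp
    have hu : ratVal (qInv s) = (ratVal s)⁻¹ := ratVal_qInv h0
    refine ⟨?_, ?_⟩
    · simp only [ratVal_qMul, ratVal_qAdd, ratVal_qNat, hv, hu]
      have h3 : 0 < 1 - ratVal s := by linarith
      positivity
    · rw [iteratedDeriv_bump_eq hc k h0 h1]
      simp only [termVal, ratVal_jetEval, ratVal_qMul, ratVal_qAdd, ratVal_qNat, hv, hu, Ex]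
  · rw [if_neg h]
    have h' : ratVal s ≤ 0 ∨ 1 ≤ ratVal s := by
      by_contra hh
      push Not at hh
      apply h
      constructor
      · rw [qLt_iff]; simpa using hh.1
      · rw [qLt_iff]; simpa using hh.2
    rw [iteratedDeriv_bump_eq_zero c k h']
    exact rep_tZero

/-! ### primitive recursiveness -/

section pr
variable {α : Type} [Primcodable α]

lemma primrec_monoDeriv : Primrec₂ monoDeriv := by
  show Primrec fun p : ℕ × Mono => monoDeriv p.1 p.2
  unfold monoDeriv
  repeat' first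
    | with_reducible exact Primrec.fst | with_reducible exact Primrec.snd
    | with_reducible exact Primrec.const _
    | with_reducible refine Primrec.fst.comp ?_ | with_reducible refine Primrec.snd.comp ?_
    | with_reducible refine Primrec.list_cons.comp ?_ ?_
    | with_reducible refine Primrec.pair ?_ ?_
    | with_reducible refine Primrec.nat_add.comp ?_ ?_ | with_reducible refine Primrec.nat_mul.comp ?_ ?_

lemma primrec_jet : Primrec₂ jet := by
  show Primrec fun p : ℕ × ℕ => jet p.1 p.2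
  unfold jet
  refine Primrec.nat_iterate Primrec.snd (Primrec.const _) ?_
  show Primrec fun q : (ℕ × ℕ) × List Mono => q.2.flatMap (monoDeriv q.1.1)
  refine Primrec.list_flatMap Primrec.snd ?_
  exact primrec_monoDeriv.comp (Primrec.fst.comp (Primrec.fst.comp Primrec.fst)) Primrec.snd

lemma primrec_monoEval {f : α → Mono} {g h : α → RatCode} (hf : Primrec f) (hg : Primrec g)
    (hh : Primrec h) : Primrec fun a => monoEval (f a) (g a) (h a) := by
  unfold monoEval
  refine primrec_qMul.comp (primrec_qMul.comp ?_ ?_) ?_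
  · exact (Primrec.fst.comp hf).pair ((Primrec.fst.comp (Primrec.snd.comp hf)).pair (Primrec.const 0))
  · exact primrec_qPow.comp hg (Primrec.fst.comp (Primrec.snd.comp (Primrec.snd.comp hf)))
  · exact primrec_qPow.comp hh (Primrec.snd.comp (Primrec.snd.comp (Primrec.snd.comp hf)))

lemma primrec_jetEval {f : α → List Mono} {g h : α → RatCode} (hf : Primrec f) (hg : Primrec g)
    (hh : Primrec h) : Primrec fun a => jetEval (f a) (g a) (h a) := by
  unfold jetEval
  refine Primrec.list_foldr (h := fun a q => qAdd (monoEval q.1 (g a) (h a)) q.2) hf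
    (Primrec.const qZero) ?_
  show Primrec fun q : α × Mono × RatCode => qAdd (monoEval q.2.1 (g q.1) (h q.1)) q.2.2
  refine primrec_qAdd.comp ?_ (Primrec.snd.comp Primrec.snd)
  exact primrec_monoEval (Primrec.fst.comp Primrec.snd) (hg.comp Primrec.fst) (hh.comp Primrec.fst)

lemma primrec_bumpT {fc fk : α → ℕ} {fs : α → RatCode} (hc : Primrec fc) (hk : Primrec fk)
    (hs : Primrec fs) : Primrec fun a => bumpT (fc a) (fk a) (fs a) := by
  unfold bumpT
  have hu : Primrec fun a => qInv (fs a) := primrec_qInv.comp hs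
  have hv : Primrec fun a => qInv (qSub qOne (fs a)) :=
    primrec_qInv.comp (primrec_qSub.comp (Primrec.const qOne) hs)
  refine Primrec.ite ?_ ?_ (Primrec.const _)
  · exact (primrecRel_qLt.comp (Primrec.const qZero) hs).and
      (primrecRel_qLt.comp hs (Primrec.const qOne))
  · refine Primrec.pair ?_ ?_
    · exact primrec_jetEval (primrec_jet.comp hc hk) hu hv
    · exact primrec_qMul.comp ((hc).pair (Primrec.const (0, 0))) (primrec_qAdd.comp hu hv)

end pr

end Vale.Agent.P113
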