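import Vale.Agent.P113.Bump

/-!
Dyadic levels and one-variable series of rescaled profiles.
-/

open Real Set Filter Topology

namespace Vale.Agent.P113

/-- The scale of level `n`: the bumps of level `n` live on `fract y ∈ (4^-(n+1), 2 * 4^-(n+1))`. -/
noncomputable def Lam (n : ℕ) : ℝ := 4 ^ (n + 1)

lemma four_le_Lam (n : ℕ) : 4 ≤ Lam n := by
  unfold Lam
  calc (4 : ℝ) = 4 ^ 1 := by norm_num
    _ ≤ 4 ^ (n + 1) := pow_le_pow_right₀ (by norm_num) (by omega)

lemma Lam_pos (n : ℕ) : 0 < Lam n := by linarith [four_le_Lam n]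

lemma Lam_succ (n : ℕ) : Lam (n + 1) = 4 * Lam n := by
  unfold Lam; ring

lemma Lam_mono {m n : ℕ} (h : m ≤ n) : Lam m ≤ Lam n :=
  pow_le_pow_right₀ (by norm_num) (by omega)

lemma Lam_lt_succ_mul {m n : ℕ} (h : m < n) : 4 * Lam m ≤ Lam n := by
  rw [← Lam_succ]; exact Lam_mono h

/-- Level uniqueness: a number lies in the open level interval of at most one level. -/
lemma level_unique {m n : ℕ} {r : ℝ} (hm : 0 < Lam m * r - 1 ∧ Lam m * r - 1 < 1)
    (hn : 0 < Lam n * r - 1 ∧ Lam n * r - 1 < 1) : m = n := by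
  have hr : 0 < r := by
    by_contra hr
    push Not at hr
    have := mul_nonpos_of_nonneg_of_nonpos (Lam_pos m).le hr
    linarith [hm.1]
  rcases lt_trichotomy m n with h | h | h
  · have h4 := Lam_lt_succ_mul h
    have := mul_le_mul_of_nonneg_right h4 hr.le
    nlinarith [hm.1, hn.2]
  · exact h
  · have h4 := Lam_lt_succ_mul h
    have := mul_le_mul_of_nonneg_right h4 hr.le
    nlinarith [hm.2, hn.1]

/-- The decay rate of the amplitudes. -/
noncomputable def aa (n : ℕ) : ℝ := (1 / 2) ^ (n * n)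

lemma aa_pos (n : ℕ) : 0 < aa n := by unfold aa; positivity

lemma aa_mul_Lam_pow_le (k n : ℕ) :
    aa n * Lam n ^ k ≤ 2 ^ ((2 * k + 1) ^ 2 + 2 * k) * (1 / 2) ^ n := by
  have h4 : (Lam n) ^ k = 2 ^ (2 * (n + 1) * k) := by
    unfold Lam
    rw [show (4 : ℝ) = 2 ^ 2 by norm_num, ← pow_mul, ← pow_mul]
    congr 1
    ring
  rw [h4]
  unfold aa
  have h2 : (1 / 2 : ℝ) ^ (n * n) = 1 / 2 ^ (n * n) := by simp
  have h3 : (1 / 2 : ℝ) ^ n = 1 / 2 ^ n := by simp
  rw [h2, h3]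
  rw [one_div_mul_eq_div, mul_one_div, div_le_div_iff₀ (by positivity) (by positivity)]
  rw [← pow_add, ← pow_add]
  apply pow_le_pow_right₀ (by norm_num)
  nlinarith [sq_nonneg ((n : ℤ) - (2 * k + 1)), mul_self_nonneg (n : ℤ), Nat.zero_le n, Nat.zero_le k,
    show (n : ℤ) * (2 * k + 1) ≤ n * n + (2 * k + 1) * (2 * k + 1) by
      nlinarith [sq_nonneg ((n : ℤ) - (2 * k + 1))]]

lemma summable_aa_mul_Lam_pow (k : ℕ) : Summable (fun n => aa n * Lam n ^ k) := by
  refine Summable.of_nonneg_of_le (fun n => ?_) (aa_mul_Lam_pow_le k)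
    (summable_geometric_two.mul_left _)
  exact mul_nonneg (aa_pos n).le (pow_nonneg (Lam_pos n).le _)

/-- Summability of a weight against all powers of the scale. -/
def SumW (w : ℕ → ℝ) : Prop := ∀ k : ℕ, Summable (fun n => |w n| * Lam n ^ k)

lemma sumW_of_le {w : ℕ → ℝ} {C : ℝ} {j : ℕ} (h : ∀ n, |w n| ≤ C * (aa n * Lam n ^ j)) : SumW w := by
  intro k
  refine Summable.of_nonneg_of_le (fun n => mul_nonneg (abs_nonneg _) (pow_nonneg (Lam_pos n).le _))
    (fun n => ?_) ((summable_aa_mul_Lam_pow (j + k)).mul_left C)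
  calc |w n| * Lam n ^ k ≤ C * (aa n * Lam n ^ j) * Lam n ^ k :=
        mul_le_mul_of_nonneg_right (h n) (pow_nonneg (Lam_pos n).le _)
    _ = C * (aa n * Lam n ^ (j + k)) := by rw [pow_add]; ring

/-- The series `∑ w n * Λ_n^k * prof c k Λ_n y`, which is the `k`-th derivative of the series
with `k = 0`. -/
noncomputable def ser1 (w : ℕ → ℝ) (c k : ℕ) (y : ℝ) : ℝ :=
  ∑' n, w n * Lam n ^ k * prof c k (Lam n) y

lemma summable_ser1_bound {w : ℕ → ℝ} (hw : SumW w) (c k : ℕ) :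
    Summable (fun n => |w n| * Lam n ^ k * bumpBd c k) :=
  (hw k).mul_right _

lemma abs_ser1_term_le (w : ℕ → ℝ) (c k n : ℕ) (y : ℝ) :
    |w n * Lam n ^ k * prof c k (Lam n) y| ≤ |w n| * Lam n ^ k * bumpBd c k := by
  rw [abs_mul, abs_mul, abs_of_pos (pow_pos (Lam_pos n) k)]
  exact mul_le_mul_of_nonneg_left (abs_prof_le c k _ y)
    (mul_nonneg (abs_nonneg _) (pow_nonneg (Lam_pos n).le _))

lemma summable_ser1 {w : ℕ → ℝ} (hw : SumW w) (c k : ℕ) (y : ℝ) :
    Summable (fun n => w n * Lam n ^ k * prof c k (Lam n) y) :=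
  Summable.of_norm_bounded (summable_ser1_bound hw c k) (fun n => abs_ser1_term_le w c k n y)

lemma hasDerivAt_ser1 {w : ℕ → ℝ} (hw : SumW w) (c k : ℕ) (y : ℝ) :
    HasDerivAt (ser1 w c k) (ser1 w c (k + 1) y) y := by
  unfold ser1
  have key := hasDerivAt_tsum (𝕜 := ℝ) (u := fun n => |w n| * Lam n ^ (k + 1) * bumpBd c (k + 1))
    (g := fun n y => w n * Lam n ^ k * prof c k (Lam n) y)
    (g' := fun n y => w n * Lam n ^ (k + 1) * prof c (k + 1) (Lam n) y)
    (y₀ := 0) (summable_ser1_bound hw c (k + 1))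
    (fun n y => by
      have := (hasDerivAt_prof c k (four_le_Lam n) y).const_mul (w n * Lam n ^ k)
      exact this.congr_deriv (by rw [pow_succ]; ring))
    (fun n y => abs_ser1_term_le w c (k + 1) n y)
    (summable_ser1 hw c k 0) y
  exact key

lemma iteratedDeriv_ser1 {w : ℕ → ℝ} (hw : SumW w) (c k j : ℕ) :
    iteratedDeriv j (ser1 w c k) = ser1 w c (k + j) := by
  induction j with
  | zero => simp
  | succ j ih =>
    rw [iteratedDeriv_succ, ih]
    funext y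
    exact (hasDerivAt_ser1 hw c (k + j) y).deriv

lemma contDiff_ser1 {w : ℕ → ℝ} (hw : SumW w) (c k : ℕ) : ContDiff ℝ (⊤ : ℕ∞) (ser1 w c k) := by
  apply contDiff_of_differentiable_iteratedDeriv
  intro j _
  rw [iteratedDeriv_ser1 hw c k j]
  exact fun y => (hasDerivAt_ser1 hw c (k + j) y).differentiableAt

/-- A bound for `ser1`. -/
noncomputable def ser1Bd (w : ℕ → ℝ) (c k : ℕ) : ℝ := ∑' n, |w n| * Lam n ^ k * bumpBd c k

lemma abs_ser1_le {w : ℕ → ℝ} (hw : SumW w) (c k : ℕ) (y : ℝ) : |ser1 w c k y| ≤ ser1Bd w c k := by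
  unfold ser1 ser1Bd
  have h1 := summable_ser1_bound hw c k
  have h2 : Summable (fun n => ‖w n * Lam n ^ k * prof c k (Lam n) y‖) :=
    Summable.of_nonneg_of_le (fun n => norm_nonneg _) (fun n => abs_ser1_term_le w c k n y) h1
  calc |∑' n, w n * Lam n ^ k * prof c k (Lam n) y|
      = ‖∑' n, w n * Lam n ^ k * prof c k (Lam n) y‖ := rfl
    _ ≤ ∑' n, ‖w n * Lam n ^ k * prof c k (Lam n) y‖ := norm_tsum_le_tsum_norm h2
    _ ≤ ∑' n, |w n| * Lam n ^ k * bumpBd c k :=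
        h2.tsum_le_tsum (fun n => abs_ser1_term_le w c k n y) h1

lemma prof_eq_zero_of_level_ne {c k m n : ℕ} {y : ℝ}
    (hn : 0 < Lam n * Int.fract y - 1 ∧ Lam n * Int.fract y - 1 < 1) (hmn : m ≠ n) :
    prof c k (Lam m) y = 0 := by
  apply prof_eq_zero_of_not_mem
  by_contra hh
  push Not at hh
  exact hmn (level_unique hh hn)

lemma ser1_eq_single (w : ℕ → ℝ) (c k : ℕ) {n : ℕ} {y : ℝ}
    (hn : 0 < Lam n * Int.fract y - 1 ∧ Lam n * Int.fract y - 1 < 1) :
    ser1 w c k y = w n * Lam n ^ k * prof c k (Lam n) y := by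
  unfold ser1
  apply tsum_eq_single
  intro m hm
  rw [prof_eq_zero_of_level_ne hn hm, mul_zero]

lemma ser1_eq_zero (w : ℕ → ℝ) (c k : ℕ) {y : ℝ}
    (h : ∀ n, ¬ (0 < Lam n * Int.fract y - 1 ∧ Lam n * Int.fract y - 1 < 1)) :
    ser1 w c k y = 0 := by
  unfold ser1
  convert tsum_zero with n
  rw [prof_eq_zero_of_not_mem, mul_zero]
  by_contra hh
  push Not at hh
  exact h n hh

lemma ser1_periodic (w : ℕ → ℝ) (c k : ℕ) (y : ℝ) (m : ℤ) : ser1 w c k (y + m) = ser1 w c k y := by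
  unfold ser1
  simp only [prof_periodic]

end Vale.Agent.P113
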