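import Mathlib

/-!
Global existence for bounded, globally Lipschitz, time-dependent vector fields.
-/

open Set Filter Topology NNReal Metric

namespace Vale.Agent.P113

theorem exists_global_ode {E : Type*} [NormedAddCommGroup E] [NormedSpace ℝ E] [CompleteSpace E]
    (v : ℝ → E → E) (K L : ℝ≥0)
    (hLip : ∀ t, LipschitzWith K (v t)) (hbd : ∀ t x, ‖v t x‖ ≤ L)
    (hcont : ∀ x, Continuous (fun t => v t x)) (a : E) :
    ∃ X : ℝ → E, X 0 = a ∧ ∀ t, 0 ≤ t → HasDerivWithinAt X (v t (X t)) (Ici 0) t := by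
  have hsol : ∀ N : ℕ, ∃ α : ℝ → E, α 0 = a ∧
      ∀ t ∈ Icc (0 : ℝ) ((N : ℝ) + 1), HasDerivWithinAt α (v t (α t)) (Icc (0 : ℝ) ((N : ℝ) + 1)) t := by
    intro N
    have hN : (0 : ℝ) ∈ Icc (0 : ℝ) ((N : ℝ) + 1) := ⟨le_rfl, by positivity⟩
    have hPL : IsPicardLindelof v (tmin := 0) (tmax := (N : ℝ) + 1) ⟨0, hN⟩ a
        (L * ((N : ℝ≥0) + 1)) 0 L K :=
      { lipschitzOnWith := fun t _ => (hLip t).lipschitzOnWith
        continuousOn := fun x _ => (hcont x).continuousOn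
        norm_le := fun t _ x _ => hbd t x
        mul_max_le := by
          have h1 : max ((N : ℝ) + 1 - 0) (0 - 0) = (N : ℝ) + 1 := by
            rw [sub_zero, sub_zero]
            exact max_eq_left (by positivity)
          simp only [NNReal.coe_mul, NNReal.coe_add, NNReal.coe_natCast, NNReal.coe_one, NNReal.coe_zero,
            sub_zero]
          rw [max_eq_left (by positivity)] }
    exact hPL.exists_eq_forall_mem_Icc_hasDerivWithinAt₀
  choose α hα0 hα using hsol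
  have hright : ∀ N : ℕ, ∀ t ∈ Ico (0 : ℝ) ((N : ℝ) + 1),
      HasDerivWithinAt (α N) (v t (α N t)) (Ici t) t := by
    intro N t ht
    have h := hα N t ⟨ht.1, ht.2.le⟩
    apply h.mono_of_mem_nhdsWithin
    exact Icc_mem_nhdsGE_of_mem ht
  have hcontN : ∀ N : ℕ, ContinuousOn (α N) (Icc (0 : ℝ) ((N : ℝ) + 1)) :=
    fun N t ht => (hα N t ht).continuousWithinAt
  have hagree : ∀ N M : ℕ, N ≤ M → EqOn (α N) (α M) (Icc (0 : ℝ) ((N : ℝ) + 1)) := by
    intro N M hNM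
    have hle : (N : ℝ) ≤ M := by exact_mod_cast hNM
    apply ODE_solution_unique hLip (hcontN N) (hright N)
    · exact (hcontN M).mono (Icc_subset_Icc_right (by linarith))
    · intro t ht
      exact hright M t ⟨ht.1, by linarith [ht.2]⟩
    · rw [hα0, hα0]
  have hagree' : ∀ (N M : ℕ) {s : ℝ}, s ∈ Icc (0 : ℝ) ((N : ℝ) + 1) →
      s ∈ Icc (0 : ℝ) ((M : ℝ) + 1) → α N s = α M s := by
    intro N M s h1 h2
    rcases le_total N M with h | h
    · exact hagree N M h h1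
    · exact (hagree M N h h2).symm
  refine ⟨fun t => α ⌈t⌉₊ t, ?_, ?_⟩
  · simp [hα0]
  · intro t ht
    set N := ⌈t⌉₊ with hN
    have htN : t ≤ N := Nat.le_ceil t
    have hmem : t ∈ Icc (0 : ℝ) ((N : ℝ) + 1) := ⟨ht, by linarith⟩
    have h1 := hα N t hmem
    have hnhds : Icc (0 : ℝ) ((N : ℝ) + 1) ∈ 𝓝[Ici 0] t := by
      have h2 : Iic ((N : ℝ) + 1) ∈ 𝓝 t := Iic_mem_nhds (by linarith)
      have h3 : Icc (0 : ℝ) ((N : ℝ) + 1) = Ici 0 ∩ Iic ((N : ℝ) + 1) := (Ici_inter_Iic).symm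
      rw [h3]
      exact inter_mem_nhdsWithin _ h2
    have h2 := h1.mono_of_mem_nhdsWithin hnhds
    refine h2.congr_of_eventuallyEq ?_ rfl
    filter_upwards [hnhds] with s hs
    have hs0 := hs.1
    have hs1 : s ∈ Icc (0 : ℝ) (((⌈s⌉₊ : ℕ) : ℝ) + 1) := ⟨hs0, by linarith [Nat.le_ceil s]⟩
    exact hagree' _ _ hs1 hs

end Vale.Agent.P113
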