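import Vale.Agent.P113.Classical
import Vale.Agent.P113.Ode

/-!
Existence of the particle trajectory and its reduction to the planar system.
-/

open Real Set Filter Topology NNReal

namespace Vale.Agent.P113

section
variable {c : ℕ → ℝ} {φ₁ φ₂ φ₃ : ℕ → ℝ → ℝ} {D L : ℕ → ℝ}

/-- The series of bounds. -/
noncomputable def serBd (c D L : ℕ → ℝ) (b₁ b₂ b₃ k : ℕ) : ℝ :=
  ∑' W, termE D b₁ b₂ b₃ k * (|c W| * L W ^ (k + (b₁ + b₂ + b₃)))

lemma Good.abs_serD_le (G : Good c φ₁ φ₂ φ₃ D L) (b₁ b₂ b₃ : ℕ) (x : V3) :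
    |serD c φ₁ φ₂ φ₃ b₁ b₂ b₃ x| ≤ serBd c D L b₁ b₂ b₃ 0 := by
  rw [← Real.norm_eq_abs]
  unfold serD serBd
  refine tsum_of_norm_bounded (G.summable_term_bound b₁ b₂ b₃ 0).hasSum (fun W => ?_)
  have := G.term_bound b₁ b₂ b₃ 0 W x
  simpa using this

lemma Good.norm_fderiv_serD_le (G : Good c φ₁ φ₂ φ₃ D L) (b₁ b₂ b₃ : ℕ) (x : V3) :
    ‖fderiv ℝ (serD c φ₁ φ₂ φ₃ b₁ b₂ b₃) x‖ ≤ serBd c D L b₁ b₂ b₃ 1 := by
  have h := fderiv_tsum_apply (G.summable_term_bound b₁ b₂ b₃ 1)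
    (fun W => (G.term_contDiff b₁ b₂ b₃ W).differentiable (by simp))
    (fun W x => G.norm_fderiv_term_le b₁ b₂ b₃ W x)
    (G.summable_term b₁ b₂ b₃ 0) x
  unfold serD
  rw [h]
  exact tsum_of_norm_bounded (G.summable_term_bound b₁ b₂ b₃ 1).hasSum
    (fun W => G.norm_fderiv_term_le b₁ b₂ b₃ W x)

lemma Good.lipschitz (G : Good c φ₁ φ₂ φ₃ D L) (b₁ b₂ b₃ : ℕ) :
    LipschitzWith (Real.toNNReal (serBd c D L b₁ b₂ b₃ 1)) (serD c φ₁ φ₂ φ₃ b₁ b₂ b₃) := by
  apply lipschitzWith_of_nnnorm_fderiv_le ((G.serD_contDiff b₁ b₂ b₃).differentiable (by simp))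
  intro x
  rw [← NNReal.coe_le_coe, coe_nnnorm, Real.coe_toNNReal']
  exact le_max_of_le_left (G.norm_fderiv_serD_le b₁ b₂ b₃ x)

end

variable {g : ℕ → ℕ → ℝ}

lemma abs_timeP_le (c j : ℕ) (t : ℝ) : |timeP c j t| ≤ bumpBd c j := abs_prof_le c j 4 _

lemma abs_timeV_le (t : ℝ) : |timeV 0 t| ≤ exp 4 * ((1 / 2) ^ 1 * bumpBd 1 1) := by
  unfold timeV
  rw [abs_neg, abs_mul, abs_mul, abs_of_pos (exp_pos 4), abs_of_pos (by positivity : (0 : ℝ) < (1 / 2) ^ (0 + 1))]
  have := abs_iteratedDeriv_bump_le 1 1 ((t + 1) / 2)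
  have h4 := exp_pos 4
  simp only [zero_add]
  apply mul_le_mul_of_nonneg_left _ h4.le
  apply mul_le_mul_of_nonneg_left this (by positivity)

theorem exists_traj (hg : FlagOK g) (ζ : ℝ) (a : V3) : ∃ X, IsTrajectory (uSol g ζ) a X := by
  set B := bumpBd 1 0 with hB
  have hB0 : 0 ≤ B := bumpBd_nonneg 1 0
  set LX := Real.toNNReal (serBd aa DD Lam 0 0 0 1) with hLX
  set LY := Real.toNNReal (serBd aa DD Lam 0 0 0 1) with hLY
  have lipX : LipschitzWith LX (XS g 0 0 0) := (goodX hg).lipschitz 0 0 0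
  have lipY : LipschitzWith LY (YS g 0 0 0) := (goodY hg).lipschitz 0 0 0
  set CX := serBd aa DD Lam 0 0 0 0 with hCX
  have bdX : ∀ x, |XS g 0 0 0 x| ≤ CX := (goodX hg).abs_serD_le 0 0 0
  have bdY : ∀ x, |YS g 0 0 0 x| ≤ CX := (goodY hg).abs_serD_le 0 0 0
  have hCX0 : 0 ≤ CX := le_trans (abs_nonneg _) (bdX 0)
  set VB := exp 4 * ((1 / 2) ^ 1 * bumpBd 1 1) with hVB
  have hVB0 : 0 ≤ VB := le_trans (abs_nonneg _) (abs_timeV_le 0)
  set KK : ℝ≥0 := Real.toNNReal B * (LX + LY) with hKK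
  have hKKr : (KK : ℝ) = B * ((LX : ℝ) + (LY : ℝ)) := by
    rw [hKK]
    push_cast
    rw [Real.coe_toNNReal _ hB0]
  set LL : ℝ≥0 := Real.toNNReal (B * CX + VB * |ζ|) with hLL
  have hLLr : (LL : ℝ) = B * CX + VB * |ζ| := by
    rw [hLL, Real.coe_toNNReal]
    positivity
  have hLX0 : (0 : ℝ) ≤ LX := LX.2
  have hLY0 : (0 : ℝ) ≤ LY := LY.2
  have htau : ∀ t, |timeP 1 0 t| ≤ B := fun t => abs_timeP_le 1 0 t
  have hLip : ∀ t, LipschitzWith KK (uSol g ζ t) := by
    intro t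
    apply LipschitzWith.of_dist_le_mul
    intro x y
    have hd0 : 0 ≤ dist x y := dist_nonneg
    rw [hKKr]
    rw [dist_pi_le_iff (by positivity)]
    intro i
    fin_cases i
    · show dist (-timeP 1 0 t * XS g 0 0 0 x) (-timeP 1 0 t * XS g 0 0 0 y) ≤ _
      rw [Real.dist_eq, ← mul_sub, abs_mul, abs_neg]
      have h1 := lipX.dist_le_mul x y
      rw [Real.dist_eq] at h1
      calc _ ≤ B * (LX * dist x y) := mul_le_mul (htau t) h1 (abs_nonneg _) hB0
        _ ≤ _ := by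
          have : 0 ≤ B * (LY * dist x y) := by positivity
          nlinarith
    · show dist (-timeP 1 0 t * YS g 0 0 0 x) (-timeP 1 0 t * YS g 0 0 0 y) ≤ _
      rw [Real.dist_eq, ← mul_sub, abs_mul, abs_neg]
      have h1 := lipY.dist_le_mul x y
      rw [Real.dist_eq] at h1
      calc _ ≤ B * (LY * dist x y) := mul_le_mul (htau t) h1 (abs_nonneg _) hB0
        _ ≤ _ := by
          have : 0 ≤ B * (LX * dist x y) := by positivity
          nlinarith
    · show dist (timeV 0 t * ζ) (timeV 0 t * ζ) ≤ _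
      rw [dist_self]
      positivity
  have hbd : ∀ t x, ‖uSol g ζ t x‖ ≤ LL := by
    intro t x
    rw [hLLr]
    rw [pi_norm_le_iff_of_nonneg (by positivity)]
    intro i
    have hp1 : 0 ≤ B * CX := by positivity
    have hp2 : 0 ≤ VB * |ζ| := by positivity
    fin_cases i
    · show |-timeP 1 0 t * XS g 0 0 0 x| ≤ _
      rw [abs_mul, abs_neg]
      have := mul_le_mul (htau t) (bdX x) (abs_nonneg _) hB0
      linarith
    · show |-timeP 1 0 t * YS g 0 0 0 x| ≤ _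
      rw [abs_mul, abs_neg]
      have := mul_le_mul (htau t) (bdY x) (abs_nonneg _) hB0
      linarith
    · show |timeV 0 t * ζ| ≤ _
      rw [abs_mul]
      have h1 : |timeV 0 t| ≤ VB := abs_timeV_le t
      have := mul_le_mul_of_nonneg_right h1 (abs_nonneg ζ)
      linarith
  have hcont : ∀ x, Continuous (fun t => uSol g ζ t x) := by
    intro x
    refine continuous_pi (fun i => ?_)
    exact ((smooth_u hg ζ i).differentiable_time x).continuous
  exact exists_global_ode (uSol g ζ) KK LL hLip hbd hcont a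

/-- The plane of the word number `W`. -/
noncomputable def zetaW (W : ℕ) : ℝ := 3 / (2 * Lam W)

lemma zetaW_fract (W : ℕ) : Int.fract (zetaW W) = zetaW W := by
  rw [Int.fract_eq_self]
  have hL := four_le_Lam W
  unfold zetaW
  constructor
  · positivity
  · rw [div_lt_one (by linarith)]
    linarith

lemma lev_zeta (W : ℕ) : Lev W (zetaW W) := by
  unfold Lev
  rw [zetaW_fract]
  have hL := Lam_pos W
  unfold zetaW
  have : Lam W * (3 / (2 * Lam W)) = 3 / 2 := by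
    field_simp
  rw [this]
  norm_num

lemma beta_zeta (W : ℕ) : beta 1 W (zetaW W) = exp (-4) := by
  simp only [beta, prof, iteratedDeriv_zero]
  rw [zetaW_fract]
  have hL := Lam_pos W
  unfold zetaW
  have : Lam W * (3 / (2 * Lam W)) - 1 = 1 / 2 := by
    field_simp
    norm_num
  rw [this, bump_half]

lemma XS_plane {W : ℕ} {x : V3} (h : x 2 = zetaW W) :
    XS g 0 0 0 x = aa W * exp (-4) * Xf g W (x 1) := by
  unfold XS
  have hl : Lev W (x 2) := by rw [h]; exact lev_zeta W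
  rw [serD_beta_single _ _ _ _ _ _ _ hl]
  simp only [termD, iteratedDeriv_zero, oneF, h, beta_zeta]
  ring

lemma YS_plane {W : ℕ} {x : V3} (h : x 2 = zetaW W) :
    YS g 0 0 0 x = aa W * exp (-4) * Yf g W (x 0) := by
  unfold YS
  have hl : Lev W (x 2) := by rw [h]; exact lev_zeta W
  rw [serD_beta_single _ _ _ _ _ _ _ hl]
  simp only [termD, iteratedDeriv_zero, oneF, h, beta_zeta]
  ring

/-- The base point. -/
noncomputable def aStar : V3 := ![1 / 2, 3 / 8, 0]

lemma timeG_of_one_le {t : ℝ} (h : 1 ≤ t) : timeG t = 1 := by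
  unfold timeG
  rw [bump_eq_zero (Or.inr (by linarith))]
  simp

theorem traj_reduction (hg : FlagOK g) {W : ℕ} {X : ℝ → V3}
    (hX : IsTrajectory (uSol g (zetaW W)) aStar X) :
    (∀ t ∈ Icc (0 : ℝ) 1, X t 1 = 3 / 8) ∧
      PlanarSol (rowC g W) (colC g W) (aa W * exp (-4)) (fun t => X t 0) (fun t => X t 1) ∧
      X 1 0 = 1 / 2 ∧ X 1 1 = 3 / 8 := by
  obtain ⟨h0, hd⟩ := hX
  have hi : ∀ (i : Fin 3) (t : ℝ), 0 ≤ t →
      HasDerivWithinAt (fun s => X s i) (uSol g (zetaW W) t (X t) i) (Ici 0) t :=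
    fun i t ht => (hasDerivWithinAt_pi.mp (hd t ht)) i
  have hconst : ∀ i : Fin 3, (i = 0 ∨ i = 1) → ∀ t ∈ Icc (0 : ℝ) 1, X t i = X 0 i := by
    intro i hi' t ht
    have hzero : ∀ s ∈ Ico (0 : ℝ) 1, HasDerivWithinAt (fun s => X s i) 0 (Ici s) s := by
      intro s hs
      have h1 := (hi i s hs.1).mono (Ici_subset_Ici.mpr hs.1)
      have hτ : timeP 1 0 s = 0 := timeP_eq_zero 1 0 (by linarith [hs.1]) hs.2.le
      rcases hi' with rfl | rfl
      · have : uSol g (zetaW W) s (X s) 0 = 0 := by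
          show -timeP 1 0 s * XS g 0 0 0 (X s) = 0
          rw [hτ]; simp
        rwa [this] at h1
      · have : uSol g (zetaW W) s (X s) 1 = 0 := by
          show -timeP 1 0 s * YS g 0 0 0 (X s) = 0
          rw [hτ]; simp
        rwa [this] at h1
    exact constant_of_has_deriv_right_zero (f := fun s => X s i)
      (fun s hs => ((hi i s hs.1).continuousWithinAt).mono (Icc_subset_Ici_self)) hzero t ht
  have hz : ∀ t, 0 ≤ t → X t 2 = timeG t * zetaW W := by
    intro t ht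
    have hzero : ∀ s ∈ Ico (0 : ℝ) t,
        HasDerivWithinAt (fun s => X s 2 - timeG s * zetaW W) 0 (Ici s) s := by
      intro s hs
      have h1 := (hi 2 s hs.1).mono (Ici_subset_Ici.mpr hs.1)
      have h2 : HasDerivWithinAt (fun s => timeG s * zetaW W) (timeV 0 s * zetaW W) (Ici s) s :=
        ((hasDerivAt_timeG s).mul_const _).hasDerivWithinAt
      have := h1.sub h2
      have h3 : uSol g (zetaW W) s (X s) 2 - timeV 0 s * zetaW W = 0 := by
        show timeV 0 s * zetaW W - timeV 0 s * zetaW W = 0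
        ring
      rwa [h3] at this
    have hc : ContinuousOn (fun s => X s 2 - timeG s * zetaW W) (Icc 0 t) := by
      apply ContinuousOn.sub
      · exact fun s hs => ((hi 2 s hs.1).continuousWithinAt).mono (Icc_subset_Ici_self)
      · exact fun s _ => ((hasDerivAt_timeG s).continuousAt.mul continuousAt_const).continuousWithinAt
    have := constant_of_has_deriv_right_zero hc hzero t ⟨ht, le_rfl⟩
    have h00 : X 0 2 = 0 := by rw [h0]; rfl
    simp only [h00, timeG_zero] at this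
    linarith
  have hz1 : ∀ t, 1 ≤ t → X t 2 = zetaW W := by
    intro t ht
    rw [hz t (by linarith), timeG_of_one_le ht, one_mul]
  have hx01 : X 0 1 = 3 / 8 := by rw [h0]; rfl
  have hx00 : X 0 0 = 1 / 2 := by rw [h0]; rfl
  refine ⟨?_, ?_, ?_, ?_⟩
  · intro t ht
    rw [hconst 1 (Or.inr rfl) t ht, hx01]
  · refine ⟨adm_rowC hg W, adm_colC hg W, mul_pos (aa_pos W) (exp_pos _), ?_, ?_⟩
    · intro t ht
      have ht0 : 0 < t := by linarith
      have h1 := (hi 0 t ht0.le).hasDerivAt (Ici_mem_nhds ht0)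
      refine h1.congr_deriv ?_
      show -timeP 1 0 t * XS g 0 0 0 (X t) = _
      rw [XS_plane (hz1 t ht)]
      unfold Xf
      ring
    · intro t ht
      have ht0 : 0 < t := by linarith
      have h1 := (hi 1 t ht0.le).hasDerivAt (Ici_mem_nhds ht0)
      refine h1.congr_deriv ?_
      show -timeP 1 0 t * YS g 0 0 0 (X t) = _
      rw [YS_plane (hz1 t ht)]
      unfold Yf
      ring
  · rw [hconst 0 (Or.inl rfl) 1 ⟨zero_le_one, le_rfl⟩, hx00]
  · rw [hconst 1 (Or.inr rfl) 1 ⟨zero_le_one, le_rfl⟩, hx01]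

/-! ### the target set -/

/-- The open target set in the torus. -/
def OSet : Set V3 := {p | ∃ m : ℤ, (m : ℝ) + 3 / 4 < p 1 ∧ p 1 < (m : ℝ) + 7 / 8}

lemma isOpen_OSet : IsOpen OSet := by
  have : OSet = ⋃ m : ℤ, {p : V3 | (m : ℝ) + 3 / 4 < p 1 ∧ p 1 < (m : ℝ) + 7 / 8} := by
    ext p; simp [OSet]
  rw [this]
  apply isOpen_iUnion
  intro m
  apply IsOpen.inter
  · exact isOpen_lt continuous_const (continuous_apply 1)
  · exact isOpen_lt (continuous_apply 1) continuous_const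

lemma periodic_OSet : Periodic3 (fun p => p ∈ OSet) := by
  intro x k
  apply propext
  constructor
  · rintro ⟨m, h1, h2⟩
    have h1' : (m : ℝ) + 3 / 4 < x 1 + (k 1 : ℝ) := h1
    have h2' : x 1 + (k 1 : ℝ) < (m : ℝ) + 7 / 8 := h2
    refine ⟨m - k 1, ?_, ?_⟩
    · push_cast
      linarith
    · push_cast
      linarith
  · rintro ⟨m, h1, h2⟩
    refine ⟨m + k 1, ?_, ?_⟩
    · push_cast
      show (m : ℝ) + (k 1 : ℝ) + 3 / 4 < x 1 + (k 1 : ℝ)
      linarith
    · push_cast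
      show x 1 + (k 1 : ℝ) < (m : ℝ) + (k 1 : ℝ) + 7 / 8
      linarith

/-- A trajectory from the base point on the plane `W`: the dichotomy. -/
theorem traj_not_in_O {g : ℕ → ℕ → ℝ} (hg : FlagOK g) {W : ℕ} {X : ℝ → V3}
    (hX : IsTrajectory (uSol g (zetaW W)) aStar X)
    (h1 : rowC g W = aa) (h2 : colC g W = cc) : ∀ t, 0 ≤ t → X t ∉ OSet := by
  obtain ⟨hc, hP, hx, hy⟩ := traj_reduction hg hX
  rw [h1, h2] at hP
  have hbd := flow_nonhalt hP hx hy
  intro t ht
  have hb : 0 < X t 1 ∧ X t 1 ≤ 3 / 8 := by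
    by_cases h : t ≤ 1
    · rw [hc t ⟨ht, h⟩]; norm_num
    · exact hbd t (not_le.mp h).le
  rintro ⟨m, h3, h4⟩
  have h5 : (m : ℝ) < -(3 / 8) := by linarith [hb.2]
  have h6 : m ≤ -1 := by
    by_contra hh
    push Not at hh
    have : (0 : ℤ) ≤ m := by omega
    have : (0 : ℝ) ≤ m := by exact_mod_cast this
    linarith
  have h7 : (m : ℝ) ≤ -1 := by exact_mod_cast h6
  linarith [hb.1]

theorem traj_in_O {g : ℕ → ℕ → ℝ} (hg : FlagOK g) {W N : ℕ} {X : ℝ → V3}
    (hX : IsTrajectory (uSol g (zetaW W)) aStar X)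
    (h1 : rowC g W = trunc aa N) (h2 : colC g W = trunc cc N) : ∃ t, 0 ≤ t ∧ X t ∈ OSet := by
  obtain ⟨_, hP, hx, hy⟩ := traj_reduction hg hX
  rw [h1, h2] at hP
  obtain ⟨t, ht, h3, h4⟩ := flow_halt hP hx hy
  refine ⟨t, by linarith, -1, ?_, ?_⟩
  · push_cast; linarith
  · push_cast; linarith

end Vale.Agent.P113
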