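import Vale.Agent.P113.Jet
import Vale.Agent.P113.Trajectory

/-!
Locating levels of rational numbers; terms for the one-variable series.
-/

open Real Set Filter Topology

namespace Vale.Agent.P113

/-- The scale of level `n` as a natural number. -/
def LamN (n : ℕ) : ℕ := 4 ^ (n + 1)

lemma cast_LamN (n : ℕ) : (LamN n : ℝ) = Lam n := by
  simp [LamN, Lam]

/-- The decidable condition that `z` lies in the open level interval `n`. -/
abbrev levCond (z : RatCode) (n : ℕ) : Prop :=
  z.2.2 + 1 < LamN n * (qFract z).1 ∧ LamN n * (qFract z).1 < 2 * (z.2.2 + 1)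

lemma levCond_iff (z : RatCode) (n : ℕ) :
    levCond z n ↔ (0 < Lam n * Int.fract (ratVal z) - 1 ∧ Lam n * Int.fract (ratVal z) - 1 < 1) := by
  have hd := den_pos z
  have hf : Int.fract (ratVal z) = ((qFract z).1 : ℝ) / ((z.2.2 : ℝ) + 1) := by
    rw [← ratVal_qFract]
    simp [ratVal, qFract]
  rw [hf, ← cast_LamN]
  have e1 : (0 : ℝ) < (LamN n : ℝ) * (((qFract z).1 : ℝ) / ((z.2.2 : ℝ) + 1)) - 1
      ↔ (z.2.2 : ℝ) + 1 < (LamN n : ℝ) * ((qFract z).1 : ℝ) := by
    rw [sub_pos, ← mul_div_assoc, lt_div_iff₀ hd, one_mul]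
  have e2 : (LamN n : ℝ) * (((qFract z).1 : ℝ) / ((z.2.2 : ℝ) + 1)) - 1 < 1
      ↔ (LamN n : ℝ) * ((qFract z).1 : ℝ) < 2 * ((z.2.2 : ℝ) + 1) := by
    rw [sub_lt_iff_lt_add, ← mul_div_assoc, div_lt_iff₀ hd]
    constructor <;> intro h <;> linarith
  rw [e1, e2]
  constructor
  · rintro ⟨h1, h2⟩
    constructor
    · have : ((z.2.2 + 1 : ℕ) : ℝ) < ((LamN n * (qFract z).1 : ℕ) : ℝ) := by exact_mod_cast h1
      push_cast at this
      linarith
    · have : ((LamN n * (qFract z).1 : ℕ) : ℝ) < ((2 * (z.2.2 + 1) : ℕ) : ℝ) := by exact_mod_cast h2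
      push_cast at this
      linarith
  · rintro ⟨h1, h2⟩
    constructor
    · have : ((z.2.2 + 1 : ℕ) : ℝ) < ((LamN n * (qFract z).1 : ℕ) : ℝ) := by
        push_cast
        linarith
      exact_mod_cast this
    · have : ((LamN n * (qFract z).1 : ℕ) : ℝ) < ((2 * (z.2.2 + 1) : ℕ) : ℝ) := by
        push_cast
        linarith
      exact_mod_cast this

lemma levCond_le {z : RatCode} {n : ℕ} (h : levCond z n) : n ≤ 2 * (z.2.2 + 1) := by
  obtain ⟨h1, h2⟩ := h
  have hpos : 0 < (qFract z).1 := by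
    rcases Nat.eq_zero_or_pos (qFract z).1 with h0 | h0
    · rw [h0] at h1
      simp at h1
    · exact h0
  have h3 : LamN n ≤ LamN n * (qFract z).1 := Nat.le_mul_of_pos_right _ hpos
  have h4 : n < LamN n := by
    unfold LamN
    have : n + 1 < 4 ^ (n + 1) := Nat.lt_pow_self (by norm_num)
    omega
  omega

/-- The level of `z`, as a number (meaningful when `levCond` holds at it). -/
def levelN (z : RatCode) : ℕ := Nat.findGreatest (levCond z) (2 * (z.2.2 + 1))

lemma levelN_eq {z : RatCode} {n : ℕ} (h : levCond z n) : levelN z = n := by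
  have h1 : levCond z (levelN z) := Nat.findGreatest_spec (levCond_le h) h
  exact level_unique ((levCond_iff _ _).mp h1) ((levCond_iff _ _).mp h)

lemma not_levCond_levelN {z : RatCode} (h : ¬ levCond z (levelN z)) (n : ℕ) : ¬ levCond z n := by
  intro hn
  rw [levelN_eq hn] at h
  exact h hn

/-- The profile term. -/
def profT (c k L : ℕ) (z : RatCode) : Term :=
  bumpT c k (qSub (qMul (qNat L) (qFract z)) qOne)

lemma rep_profT {c : ℕ} (hc : 0 < c) (k L : ℕ) (z : RatCode) :
    Rep (profT c k L z) (prof c k (L : ℝ) (ratVal z)) := by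
  have := rep_bumpT hc k (qSub (qMul (qNat L) (qFract z)) qOne)
  simp only [ratVal_qSub, ratVal_qMul, ratVal_qNat, ratVal_qOne, ratVal_qFract] at this
  exact this

/-- The term of a one-variable series with rational weights. -/
def ser1T (w : ℕ → RatCode) (k : ℕ) (z : RatCode) : Term :=
  if levCond z (levelN z) then
    tScale (qMul (w (levelN z)) (qPow (qNat (LamN (levelN z))) k)) (profT 1 k (LamN (levelN z)) z)
  else tZero

lemma rep_ser1T {w : ℕ → RatCode} {w' : ℕ → ℝ} (hw : ∀ n, ratVal (w n) = w' n) (k : ℕ) (z : RatCode) :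
    Rep (ser1T w k z) (ser1 w' 1 k (ratVal z)) := by
  unfold ser1T
  by_cases h : levCond z (levelN z)
  · rw [if_pos h]
    have h1 := (levCond_iff _ _).mp h
    rw [ser1_eq_single w' 1 k h1]
    have h2 := (rep_profT one_pos k (LamN (levelN z)) z).scale
      (qMul (w (levelN z)) (qPow (qNat (LamN (levelN z))) k))
    simp only [ratVal_qMul, ratVal_qPow, ratVal_qNat, hw, cast_LamN] at h2
    exact h2
  · rw [if_neg h]
    have h2 : ser1 w' 1 k (ratVal z) = 0 := by
      apply ser1_eq_zero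
      intro n hn
      exact not_levCond_levelN h n ((levCond_iff _ _).mpr hn)
    rw [h2]
    exact rep_tZero

/-- The exponents `(1/2)^(n*n)` as rational codes. -/
def aQ (n : ℕ) : RatCode := (1, 0, 2 ^ (n * n) - 1)

lemma ratVal_aQ (n : ℕ) : ratVal (aQ n) = aa n := by
  have h1 : 1 ≤ 2 ^ (n * n) := Nat.one_le_two_pow
  simp only [ratVal, aQ, aa]
  rw [Nat.cast_sub h1]
  simp

/-- The column coefficient as a rational code. -/
def cQ (n : ℕ) : RatCode := qMul (qFrac 1 1) (qAdd (aQ n) (aQ (n + 1)))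

lemma ratVal_cQ (n : ℕ) : ratVal (cQ n) = cc n := by
  simp only [cQ, ratVal_qMul, ratVal_qFrac, ratVal_qAdd, ratVal_aQ, cc]
  norm_num
  ring

/-- The weights of products as a rational code. -/
def qcQ (W : ℕ) : RatCode := qMul (aQ W) (aQ W)

lemma ratVal_qcQ (W : ℕ) : ratVal (qcQ W) = qc W := by
  simp [qcQ, ratVal_aQ, qc]

/-- The factor `iteratedDeriv k (beta c W)`. -/
def betaT (c W k : ℕ) (z : RatCode) : Term :=
  tScale (qPow (qNat (LamN W)) k) (profT c k (LamN W) z)

lemma rep_betaT {c : ℕ} (hc : 0 < c) (W k : ℕ) (z : RatCode) :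
    Rep (betaT c W k z) (iteratedDeriv k (beta c W) (ratVal z)) := by
  rw [iteratedDeriv_beta]
  have h2 := (rep_profT hc k (LamN W) z).scale (qPow (qNat (LamN W)) k)
  simp only [ratVal_qPow, ratVal_qNat, cast_LamN] at h2
  exact h2

/-- The factor `iteratedDeriv k (oneF W)`. -/
def oneT (k : ℕ) : Term := if k = 0 then tOfQ qOne else tZero

lemma rep_oneT (W k : ℕ) (s : ℝ) : Rep (oneT k) (iteratedDeriv k (oneF W) s) := by
  unfold oneT
  cases k with
  | zero =>
    have := rep_tOfQ qOne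
    simpa [oneF] using this
  | succ k =>
    simp only [Nat.succ_ne_zero, if_false, iteratedDeriv_one_succ]
    exact rep_tZero

/-- A series over planes with rational weights, at a rational point `z` of the last variable. -/
def ser3T (co : ℕ → RatCode) (F : ℕ → Term) (z : RatCode) : Term :=
  if levCond z (levelN z) then tScale (co (levelN z)) (F (levelN z)) else tZero

theorem rep_ser3T {co : ℕ → RatCode} {c' : ℕ → ℝ} (hco : ∀ W, ratVal (co W) = c' W) {F : ℕ → Term}
    {φ₁ φ₂ : ℕ → ℝ → ℝ} {e b₁ b₂ b₃ : ℕ} {z : RatCode} {x : V3} (hz : x 2 = ratVal z)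
    (hF : ∀ W, Rep (F W) (iteratedDeriv b₁ (φ₁ W) (x 0) * iteratedDeriv b₂ (φ₂ W) (x 1) *
      iteratedDeriv b₃ (beta e W) (x 2))) :
    Rep (ser3T co F z) (serD c' φ₁ φ₂ (beta e) b₁ b₂ b₃ x) := by
  unfold ser3T
  by_cases h : levCond z (levelN z)
  · rw [if_pos h]
    have h1 : Lev (levelN z) (x 2) := by
      rw [hz]
      exact (levCond_iff _ _).mp h
    rw [serD_beta_single _ _ _ _ _ _ _ h1]
    have h2 := (hF (levelN z)).scale (co (levelN z))
    rw [hco] at h2
    exact h2
  · rw [if_neg h]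
    have h2 : ∀ W, ¬ Lev W (x 2) := by
      intro W hW
      rw [hz] at hW
      exact not_levCond_levelN h W ((levCond_iff _ _).mpr hW)
    rw [serD_beta_zero _ _ _ _ _ _ _ h2]
    exact rep_tZero

/-! ### the time factors -/

/-- The term of `timeP c j t`. -/
def timeT (c j : ℕ) (t : RatCode) : Term := profT c j 4 (qMul (qFrac 1 3) t)

lemma rep_timeT {c : ℕ} (hc : 0 < c) (j : ℕ) (t : RatCode) :
    Rep (timeT c j t) (timeP c j (ratVal t)) := by
  have := rep_profT hc j 4 (qMul (qFrac 1 3) t)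
  simp only [ratVal_qMul, ratVal_qFrac] at this
  unfold timeT timeP
  convert this using 2
  · norm_num
  · push_cast
    ring

/-- The point `(t + 1) / 2`. -/
def halfT (t : RatCode) : RatCode := qMul (qFrac 1 1) (qAdd t qOne)

lemma ratVal_halfT (t : RatCode) : ratVal (halfT t) = (ratVal t + 1) / 2 := by
  simp only [halfT, ratVal_qMul, ratVal_qFrac, ratVal_qAdd, ratVal_qOne]
  push_cast
  ring

/-- The term of `timeV j t`. -/
def timeVT (j : ℕ) (t : RatCode) : Term :=
  if qLt qZero (halfT t) ∧ qLt (halfT t) qOne then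
    (qNeg (qMul (qFrac 1 (2 ^ (j + 1) - 1)) (bumpT 1 (j + 1) (halfT t)).1),
      qSub (bumpT 1 (j + 1) (halfT t)).2 (qNat 4))
  else tZero

lemma four_le_inv_add {s : ℝ} (h0 : 0 < s) (h1 : s < 1) : 4 ≤ s⁻¹ + (1 - s)⁻¹ := by
  have h2 : 0 < 1 - s := by linarith
  have h3 : s⁻¹ + (1 - s)⁻¹ = 1 / (s * (1 - s)) := by
    field_simp
    ring
  rw [h3, le_div_iff₀ (mul_pos h0 h2)]
  nlinarith [sq_nonneg (2 * s - 1)]

lemma rep_timeVT (j : ℕ) (t : RatCode) : Rep (timeVT j t) (timeV j (ratVal t)) := by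
  unfold timeVT
  by_cases h : qLt qZero (halfT t) ∧ qLt (halfT t) qOne
  · rw [if_pos h]
    have hb := rep_bumpT one_pos (j + 1) (halfT t)
    have h0 : 0 < ratVal (halfT t) := by
      have := (qLt_iff _ _).mp h.1
      simpa using this
    have h1 : ratVal (halfT t) < 1 := by
      have := (qLt_iff _ _).mp h.2
      simpa using this
    have h2 : 0 < ratVal (qSub qOne (halfT t)) := by
      simp only [ratVal_qSub, ratVal_qOne]
      linarith
    have hE : ratVal (bumpT 1 (j + 1) (halfT t)).2 = (ratVal (halfT t))⁻¹ + (1 - ratVal (halfT t))⁻¹ := by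
      unfold bumpT
      rw [if_pos h]
      simp only [ratVal_qMul, ratVal_qAdd, ratVal_qNat, ratVal_qInv h0, ratVal_qInv h2, ratVal_qSub,
        ratVal_qOne]
      simp
    have h4 := four_le_inv_add h0 h1
    refine ⟨?_, ?_⟩
    · simp only [ratVal_qSub, ratVal_qNat, hE]
      push_cast
      linarith
    · unfold timeV
      rw [ratVal_halfT] at hb
      rw [hb.2]
      simp only [termVal, ratVal_qNeg, ratVal_qMul, ratVal_qSub, ratVal_qNat, ratVal_qFrac]
      have h5 : (((2 ^ (j + 1) - 1 : ℕ) : ℝ) + 1) = 2 ^ (j + 1) := by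
        rw [Nat.cast_sub Nat.one_le_two_pow]
        push_cast
        ring
      rw [h5]
      have h6 : exp (-(ratVal (bumpT 1 (j + 1) (halfT t)).2 - ((4 : ℕ) : ℝ)))
          = exp 4 * exp (-(ratVal (bumpT 1 (j + 1) (halfT t)).2)) := by
        rw [← Real.exp_add]
        congr 1
        push_cast
        ring
      rw [h6]
      simp only [one_div, inv_pow, Nat.cast_one]
      ring
  · rw [if_neg h]
    have h' : ratVal (halfT t) ≤ 0 ∨ 1 ≤ ratVal (halfT t) := by
      by_contra hh
      push Not at hh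
      apply h
      constructor
      · rw [qLt_iff]; simpa using hh.1
      · rw [qLt_iff]; simpa using hh.2
    rw [ratVal_halfT] at h'
    have h2 : timeV j (ratVal t) = 0 := by
      unfold timeV
      rw [iteratedDeriv_bump_eq_zero 1 (j + 1) h']
      simp
    rw [h2]
    exact rep_tZero

end Vale.Agent.P113
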