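import Vale.Agent.P113.Energy

/-!
Uniqueness of classical solutions on `[0, T]` by the energy method.
-/

open MeasureTheory Set Filter Topology

namespace Vale.Agent.P113

/-- The space-time continuous clamp of a function continuous on `[0,T] × V3`. -/
lemma continuous_clamp_of_continuousOn {T : ℝ} (hT : 0 ≤ T) {F : ℝ × V3 → ℝ}
    (hF : ContinuousOn F (Icc 0 T ×ˢ univ)) :
    Continuous (fun q : ℝ × V3 => F ((projIcc 0 T hT q.1 : ℝ), q.2)) := by
  apply hF.comp_continuous
  · exact (continuous_subtype_val.comp (continuous_projIcc.comp continuous_fst)).prodMk continuous_snd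
  · intro q
    exact ⟨(projIcc 0 T hT q.1).2, mem_univ _⟩

lemma projIcc_eq_self {T t : ℝ} (hT : 0 ≤ T) (ht : t ∈ Icc 0 T) : (projIcc 0 T hT t : ℝ) = t := by
  rw [projIcc_of_mem hT ht]

/-- Continuity of a parametric integral over the cube, for an integrand continuous on `[0,T] × V3`. -/
lemma continuousOn_integral_cube {T : ℝ} (hT : 0 ≤ T) {F : ℝ × V3 → ℝ}
    (hF : ContinuousOn F (Icc 0 T ×ˢ univ)) :
    ContinuousOn (fun t => ∫ x in Icc (0 : V3) 1, F (t, x)) (Icc 0 T) := by
  have h1 := continuous_clamp_of_continuousOn hT hF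
  have h2 := continuous_parametric_integral_of_continuous
    (μ := (volume : Measure V3)) (f := fun t x => F ((projIcc 0 T hT t : ℝ), x))
    (s := Icc (0 : V3) 1) h1 isCompact_Icc
  refine h2.continuousOn.congr ?_
  intro t ht
  simp only [projIcc_eq_self hT ht]

lemma slice_continuous {T t : ℝ} (ht : t ∈ Icc 0 T) {F : ℝ × V3 → ℝ}
    (hF : ContinuousOn F (Icc 0 T ×ˢ univ)) : Continuous (fun x => F (t, x)) := by
  apply hF.comp_continuous (by fun_prop)
  intro x
  exact ⟨ht, mem_univ _⟩

lemma exists_bound_cube {T : ℝ} {F : ℝ × V3 → ℝ} (hF : ContinuousOn F (Icc 0 T ×ˢ univ)) :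
    ∃ B : ℝ, ∀ t ∈ Icc 0 T, ∀ x ∈ Icc (0 : V3) 1, |F (t, x)| ≤ B := by
  have hK : IsCompact ((Icc 0 T : Set ℝ) ×ˢ (Icc (0 : V3) 1)) := isCompact_Icc.prod isCompact_Icc
  obtain ⟨B, hB⟩ := hK.exists_bound_of_continuousOn
    (hF.mono (prod_mono_right (subset_univ _)))
  exact ⟨B, fun t ht x hx => hB (t, x) ⟨ht, hx⟩⟩

lemma cube_subset_closure_interior : Icc (0 : V3) 1 ⊆ closure (interior (Icc (0 : V3) 1)) := by
  have hne : (interior (Icc (0 : V3) 1)).Nonempty := by
    refine ⟨fun _ => 1 / 2, ?_⟩
    rw [← pi_univ_Icc, interior_pi_set finite_univ]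
    intro i _
    simp only [interior_Icc, Pi.zero_apply, Pi.one_apply]
    constructor <;> norm_num
  have hconv : Convex ℝ (Icc (0 : V3) 1) := convex_Icc 0 1
  rw [hconv.closure_interior_eq_closure_of_nonempty_interior hne]
  exact subset_closure

theorem classical_unique {ν : ℝ} {f : ℝ → V3 → V3} {T : ℝ} {u u' : ℝ → V3 → V3}
    {p p' : ℝ → V3 → ℝ} (hν : 0 ≤ ν) (hT : 0 < T)
    (h : IsClassicalSolution ν f T u p) (h' : IsClassicalSolution ν f T u' p') :
    ∀ t ∈ Icc 0 T, u' t = u t ∧ p' t = p t := by
  have hT0 := hT.le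
  set cube : Set V3 := Icc (0 : V3) 1 with hcube
  -- time derivatives
  set ut : ℝ → V3 → V3 := fun t x i => derivWithin (fun s => u s x i) (Icc 0 T) t with hut
  set ut' : ℝ → V3 → V3 := fun t x i => derivWithin (fun s => u' s x i) (Icc 0 T) t with hut'
  -- the energy density and its time derivative
  set F : ℝ → V3 → ℝ := fun t x => ∑ i, (u' t x i - u t x i) ^ 2 with hF
  set F' : ℝ → V3 → ℝ := fun t x => 2 * ∑ i, (u' t x i - u t x i) * (ut' t x i - ut t x i) with hF'
  have hFc : ContinuousOn (fun q : ℝ × V3 => F q.1 q.2) (Icc 0 T ×ˢ univ) := by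
    apply continuousOn_finsetSum
    intro i _
    exact ((h'.cont_u i).sub (h.cont_u i)).pow 2
  have hF'c : ContinuousOn (fun q : ℝ × V3 => F' q.1 q.2) (Icc 0 T ×ˢ univ) := by
    apply continuousOn_const.mul
    apply continuousOn_finsetSum
    intro i _
    exact ((h'.cont_u i).sub (h.cont_u i)).mul ((h'.cont_ut i).sub (h.cont_ut i))
  have hint : ∀ {g : V3 → ℝ}, Continuous g → IntegrableOn g cube :=
    fun hc => hc.continuousOn.integrableOn_compact isCompact_Icc
  -- the energy
  set E : ℝ → ℝ := fun t => ∫ x in cube, F t x with hE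
  have hEc : ContinuousOn E (Icc 0 T) := continuousOn_integral_cube hT0 hFc
  obtain ⟨B, hB⟩ := exists_bound_cube hF'c
  have hder_u : ∀ (v : ℝ → V3 → V3), (∀ i x, ∀ t ∈ Icc 0 T,
      DifferentiableWithinAt ℝ (fun s => v s x i) (Icc 0 T) t) →
      ∀ i x, ∀ t ∈ Ioo 0 T, HasDerivAt (fun s => v s x i)
        (derivWithin (fun s => v s x i) (Icc 0 T) t) t := by
    intro v hv i x t ht
    exact (hv i x t (Ioo_subset_Icc_self ht)).hasDerivWithinAt.hasDerivAt (Icc_mem_nhds ht.1 ht.2)
  have hEder : ∀ t ∈ Ioo 0 T, HasDerivAt E (∫ x in cube, F' t x) t := by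
    intro t ht
    have hFslice : ∀ s ∈ Icc 0 T, Continuous (F s) := fun s hs => slice_continuous hs hFc
    have hF'slice : ∀ s ∈ Icc 0 T, Continuous (F' s) := fun s hs => slice_continuous hs hF'c
    have key := hasDerivAt_integral_of_dominated_loc_of_deriv_le (𝕜 := ℝ)
      (μ := (volume : Measure V3).restrict cube) (F := F) (F' := F') (x₀ := t)
      (s := Ioo 0 T) (bound := fun _ => B) (Ioo_mem_nhds ht.1 ht.2)
      (by
        filter_upwards [Ioo_mem_nhds ht.1 ht.2] with s hs
        exact (hFslice s (Ioo_subset_Icc_self hs)).aestronglyMeasurable)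
      (hint (hFslice t (Ioo_subset_Icc_self ht)))
      (hF'slice t (Ioo_subset_Icc_self ht)).aestronglyMeasurable
      (by
        refine (ae_restrict_iff' measurableSet_Icc).mpr (ae_of_all _ ?_)
        intro a ha s hs
        exact hB s (Ioo_subset_Icc_self hs) a ha)
      (by
        have : IsFiniteMeasure ((volume : Measure V3).restrict cube) :=
          ⟨by simp [hcube, Real.volume_Icc_pi]⟩
        exact integrable_const B)
      (by
        refine ae_of_all _ ?_
        intro a s hs
        have hsum : HasDerivAt (fun r => ∑ i, (u' r a i - u r a i) ^ 2)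
            (∑ i, ((2 : ℕ) * (u' s a i - u s a i) ^ (2 - 1) * (ut' s a i - ut s a i))) s := by
          apply HasDerivAt.fun_sum
          intro i _
          exact ((hder_u u' h'.diff_t i a s hs).sub (hder_u u h.diff_t i a s hs)).pow 2
        refine hsum.congr_deriv ?_
        simp only [hF', Finset.mul_sum]
        apply Finset.sum_congr rfl
        intro i _
        norm_num
        ring)
    exact key.2
  -- the bound on the gradient of `u`
  have hgrad : ∃ M : ℝ, ∀ t ∈ Icc 0 T, ∀ x ∈ cube, ∀ i j, |pd j (fun y => u t y i) x| ≤ M := by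
    choose b hb using fun i j => exists_bound_cube (h.cont_du i j)
    refine ⟨∑ i, ∑ j, |b i j|, fun t ht x hx i j => ?_⟩
    have h1 := hb i j t ht x hx
    calc |pd j (fun y => u t y i) x| ≤ b i j := h1
      _ ≤ |b i j| := le_abs_self _
      _ ≤ ∑ j, |b i j| := Finset.single_le_sum (f := fun j => |b i j|)
          (fun _ _ => abs_nonneg _) (Finset.mem_univ j)
      _ ≤ ∑ i, ∑ j, |b i j| := Finset.single_le_sum (f := fun i => ∑ j, |b i j|)
          (fun _ _ => Finset.sum_nonneg (fun _ _ => abs_nonneg _)) (Finset.mem_univ i)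
  obtain ⟨M, hM⟩ := hgrad
  -- the differential inequality
  have hineq : ∀ t ∈ Ioo 0 T, ∫ x in cube, F' t x ≤ 6 * M * E t := by
    intro t ht
    have ht' := Ioo_subset_Icc_self ht
    have hvt : Continuous (ut t) := continuous_pi (fun i => slice_continuous ht' (h.cont_ut i))
    have hvt' : Continuous (ut' t) := continuous_pi (fun i => slice_continuous ht' (h'.cont_ut i))
    have key := energy_ineq ν hν (u t) (u' t) (ut t) (ut' t) (f t) (p t) (p' t)
      (h.contDiff_u t ht') (h'.contDiff_u t ht') (h.contDiff_p t ht') (h'.contDiff_p t ht')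
      (h.periodic_u t ht') (h'.periodic_u t ht') (h.periodic_p t ht') (h'.periodic_p t ht')
      hvt hvt' (h.momentum t ht') (h'.momentum t ht') (h.incompressible t ht')
      (h'.incompressible t ht') M (hM t ht')
    simp only [hF', hE, hF]
    rw [integral_const_mul]
    linarith
  -- Gronwall
  have hE0 : E 0 = 0 := by
    simp only [hE, hF, h.initial, h'.initial]
    simp
  have hEnn : ∀ t, 0 ≤ E t := fun t =>
    integral_nonneg (fun x => Finset.sum_nonneg (fun i _ => sq_nonneg _))
  have hEzero : ∀ t ∈ Icc 0 T, E t = 0 := by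
    set g : ℝ → ℝ := fun t => E t * Real.exp (-(6 * M) * t) with hg
    have hexp : ∀ t, HasDerivAt (fun t => Real.exp (-(6 * M) * t))
        (Real.exp (-(6 * M) * t) * (-(6 * M))) t := by
      intro t
      have := ((hasDerivAt_id t).const_mul (-(6 * M))).exp
      simpa using this
    have hanti : AntitoneOn g (Icc 0 T) := by
      apply antitoneOn_of_deriv_nonpos (convex_Icc 0 T)
      · exact hEc.mul (Continuous.continuousOn (by fun_prop))
      · intro t ht
        rw [interior_Icc] at ht
        have hd : HasDerivAt g ((∫ x in cube, F' t x) * Real.exp (-(6 * M) * t)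
            + E t * (Real.exp (-(6 * M) * t) * (-(6 * M)))) t := (hEder t ht).mul (hexp t)
        exact hd.differentiableAt.differentiableWithinAt
      · intro t ht
        rw [interior_Icc] at ht
        have hd : HasDerivAt g ((∫ x in cube, F' t x) * Real.exp (-(6 * M) * t)
            + E t * (Real.exp (-(6 * M) * t) * (-(6 * M)))) t := (hEder t ht).mul (hexp t)
        rw [hd.deriv]
        have h1 := hineq t ht
        have h2 := Real.exp_pos (-(6 * M) * t)
        nlinarith
    intro t ht
    have h1 := hanti (left_mem_Icc.mpr hT0) ht ht.1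
    simp only [hg, hE0, zero_mul] at h1
    have h2 := Real.exp_pos (-(6 * M) * t)
    have h3 : E t ≤ 0 := by
      by_contra hh
      push Not at hh
      have := mul_pos hh h2
      linarith
    exact le_antisymm h3 (hEnn t)
  -- velocity identification
  have hvel : ∀ t ∈ Icc 0 T, ∀ x i, u' t x i = u t x i := by
    intro t ht x i
    have hc := slice_continuous ht hFc
    have hz := hEzero t ht
    have hnn : 0 ≤ᵐ[(volume : Measure V3).restrict cube] F t :=
      ae_of_all _ (fun x => Finset.sum_nonneg (fun i _ => sq_nonneg _))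
    have hae := (setIntegral_eq_zero_iff_of_nonneg_ae hnn (hint hc)).mp hz
    have heq := Measure.eqOn_of_ae_eq hae hc.continuousOn continuousOn_const
      cube_subset_closure_interior
    -- reduction to the cube
    set x₀ : V3 := fun m => Int.fract (x m) with hx₀
    set k : Fin 3 → ℤ := fun m => ⌊x m⌋ with hk
    have hx₀mem : x₀ ∈ cube :=
      ⟨fun m => Int.fract_nonneg _, fun m => (Int.fract_lt_one _).le⟩
    have hxeq : x = fun m => x₀ m + (k m : ℝ) := by
      funext m
      simp [hx₀, hk, Int.fract_add_floor]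
    have hFz : F t x₀ = 0 := heq hx₀mem
    have hterm := (Finset.sum_eq_zero_iff_of_nonneg (fun i _ => sq_nonneg _)).mp hFz i (Finset.mem_univ i)
    have hzero : u' t x₀ i = u t x₀ i := by
      have := pow_eq_zero_iff (two_ne_zero) |>.mp hterm
      linarith
    rw [hxeq, congrFun (h.periodic_u t ht x₀ k) i, congrFun (h'.periodic_u t ht x₀ k) i]
    exact hzero
  intro t ht
  have hut_eq : u' t = u t := by
    funext x i; exact hvel t ht x i
  refine ⟨hut_eq, ?_⟩
  -- pressure identification
  have hpd : ∀ x i, pd i (p' t) x = pd i (p t) x := by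
    intro x i
    have h1 := h.momentum t ht x i
    have h2 := h'.momentum t ht x i
    have h3 : derivWithin (fun s => u' s x i) (Icc 0 T) t
        = derivWithin (fun s => u s x i) (Icc 0 T) t := by
      apply derivWithin_congr
      · intro s hs
        exact hvel s hs x i
      · exact hvel t ht x i
    rw [h3, hut_eq] at h2
    linarith
  have hpd' : Differentiable ℝ (fun x => p' t x - p t x) :=
    ((h'.contDiff_p t ht).differentiable (by norm_num)).fun_sub
      ((h.contDiff_p t ht).differentiable (by norm_num))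
  have hfd : ∀ x, fderiv ℝ (fun x => p' t x - p t x) x = 0 := by
    intro x
    have hdiff1 : Differentiable ℝ (p' t) := (h'.contDiff_p t ht).differentiable (by norm_num)
    have hdiff2 : Differentiable ℝ (p t) := (h.contDiff_p t ht).differentiable (by norm_num)
    have hb : ∀ m : Fin 3, fderiv ℝ (fun x => p' t x - p t x) x (Pi.single m 1) = 0 := by
      intro m
      have := pd_sub (j := m) hdiff1 hdiff2 x
      unfold pd at this hpd
      rw [this, hpd]
      ring
    apply ContinuousLinearMap.ext
    intro v
    have hbasis : v = v 0 • (Pi.single 0 1 : V3) + v 1 • (Pi.single 1 1 : V3)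
        + v 2 • (Pi.single 2 1 : V3) := by
      funext m
      fin_cases m <;> simp
    rw [hbasis, map_add, map_add, map_smul, map_smul, map_smul, hb, hb, hb]
    simp
  have hconst : ∀ x, p' t x - p t x = p' t 0 - p t 0 := fun x =>
    is_const_of_fderiv_eq_zero hpd' hfd x 0
  have hmean : p' t 0 - p t 0 = 0 := by
    have h1 := h.mean_p t ht
    have h2 := h'.mean_p t ht
    have hcp : Continuous (p t) := (h.contDiff_p t ht).continuous
    have hcp' : Continuous (p' t) := (h'.contDiff_p t ht).continuous
    have h3 : ∫ x in Icc (0 : V3) 1, (p' t x - p t x) = 0 := by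
      rw [integral_sub (hint hcp') (hint hcp), h1, h2, sub_zero]
    simp only [hconst] at h3
    rw [setIntegral_const] at h3
    have hvol : (volume : Measure V3).real (Icc (0 : V3) 1) = 1 := by
      simp [Measure.real, Real.volume_Icc_pi]
    rw [hvol] at h3
    simpa using h3
  funext x
  have := hconst x
  rw [hmean] at this
  linarith

end Vale.Agent.P113
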