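import Vale.Agent.P113.CompileB
import Vale.Agent.P113.Unique

/-!
The compiler, and the main theorem for problem P113.
-/

open Real Set Filter Topology

namespace Vale.Agent.P113

/-- The pair `(M, w)` coded in the first component. -/
def argP (n : ℕ) : Machine × List ℕ := (Encodable.decode n.unpair.1).getD default

/-- The program input coded in the second component. -/
def argX (n : ℕ) : Fin 3 × (ℕ × ℕ × ℕ × ℕ) × (RatCode × RatCode × RatCode × RatCode) × ℕ :=
  (Encodable.decode n.unpair.2).getD default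

/-- The decoded argument. -/
def argFull (n : ℕ) : FullArg :=
  ((argP n).1, Encodable.encode (argP n).2, ((argX n).1.val, (argX n).2.1, (argX n).2.2.1),
    (argX n).2.2.2)

lemma argFull_pair (M : Machine) (w : List ℕ) (i : Fin 3) (α : ℕ × ℕ × ℕ × ℕ)
    (q : RatCode × RatCode × RatCode × RatCode) (k : ℕ) :
    argFull (Nat.pair (Encodable.encode (M, w)) (Encodable.encode (i, α, q, k)))
      = (M, Encodable.encode w, (i.val, α, q), k) := by
  simp only [argFull, argP, argX, Nat.unpair_pair, Encodable.encodek, Option.getD_some]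

lemma primrec_argFull : Primrec argFull := by
  have h1 : Primrec argP := Primrec.option_getD.comp
    (Primrec.decode.comp (Primrec.fst.comp Primrec.unpair)) (Primrec.const default)
  have h2 : Primrec argX := Primrec.option_getD.comp
    (Primrec.decode.comp (Primrec.snd.comp Primrec.unpair)) (Primrec.const default)
  have h3 : Primrec fun n => (argX n).2 := Primrec.snd.comp h2
  exact (Primrec.fst.comp h1).pair ((Primrec.encode.comp (Primrec.snd.comp h1)).pair
    ((Primrec.fin_val.comp (Primrec.fst.comp h2)).pair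
      ((Primrec.fst.comp h3).pair (Primrec.fst.comp (Primrec.snd.comp h3)))
      |>.pair (Primrec.snd.comp (Primrec.snd.comp h3))))

theorem exists_force_code {s : ℕ → RatCode} (hs : Computable s) :
    ∃ c : Nat.Partrec.Code, ∀ (M : Machine) (w : List ℕ) (i : Fin 3) (α : ℕ × ℕ × ℕ × ℕ)
      (q : RatCode × RatCode × RatCode × RatCode) (k : ℕ),
      c.eval (Nat.pair (Encodable.encode (M, w)) (Encodable.encode (i, α, q, k)))
        = Part.some (Encodable.encode (forceApprox s M (Encodable.encode w) (i.val, α, q) k)) := by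
  set G : ℕ → ℕ := fun n => Encodable.encode (forceApprox s (argFull n).1 (argFull n).2.1
    (argFull n).2.2.1 (argFull n).2.2.2) with hG
  have hGc : Computable G :=
    Computable.encode.comp ((computable_forceApprox hs).comp primrec_argFull.to_comp)
  have hGp : Nat.Partrec (G : ℕ →. ℕ) := Partrec.nat_iff.mp hGc
  obtain ⟨c, hc⟩ := Nat.Partrec.Code.exists_code.mp hGp
  refine ⟨c, fun M w i α q k => ?_⟩
  rw [hc]
  simp only [PFun.coe_val, hG, argFull_pair]

/-- The force fields. -/
noncomputable def forceF (ν : ℝ) (p : Machine × List ℕ) : ℝ → V3 → V3 :=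
  fSol ν (gM p.1) (zetaW (Encodable.encode p.2))

/-- The velocity fields. -/
noncomputable def velU (p : Machine × List ℕ) : ℝ → V3 → V3 :=
  uSol (gM p.1) (zetaW (Encodable.encode p.2))

lemma isSmoothField_forceF (ν : ℝ) (p : Machine × List ℕ) : IsSmoothField (forceF ν p) :=
  ⟨contDiff_pi.mpr (fun i => smooth_f (flagOK_gM p.1) ν _ i), fun t => periodic_fSol ν _ t⟩

lemma isSmoothField_velU (p : Machine × List ℕ) : IsSmoothField (velU p) :=
  ⟨contDiff_pi.mpr (fun i => smooth_u (flagOK_gM p.1) _ i), fun t => periodic_uSol _ t⟩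

lemma forceF_indep (ν : ℝ) (M : Machine) (w w' : List ℕ) {t : ℝ} (ht : 1 ≤ t) :
    forceF ν (M, w) t = forceF ν (M, w') t := by
  funext x i
  have h0 := timeV_eq_zero 1 (Or.inr ht)
  fin_cases i
  · rfl
  · rfl
  · show timeV 1 t * _ = timeV 1 t * _
    rw [h0]
    ring

lemma forceF_periodic (ν : ℝ) (p : Machine × List ℕ) {t : ℝ} (ht : 1 ≤ t) :
    forceF ν p (t + 4) = forceF ν p t := by
  funext x i
  have h0 := timeV_eq_zero 1 (Or.inr ht)
  have h1 := timeV_eq_zero 1 (t := t + 4) (Or.inr (by linarith))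
  fin_cases i
  · show (-1) * timeP 1 1 (t + 4) * _ + 1 * timeP 2 0 (t + 4) * _
        + (ν * timeP 1 0 (t + 4) * _ + ν * timeP 1 0 (t + 4) * _) = _
    simp only [timeP_periodic]
    rfl
  · show (-1) * timeP 1 1 (t + 4) * _ + 1 * timeP 2 0 (t + 4) * _
        + (ν * timeP 1 0 (t + 4) * _ + ν * timeP 1 0 (t + 4) * _) = _
    simp only [timeP_periodic]
    rfl
  · show timeV 1 (t + 4) * _ = timeV 1 t * _
    rw [h0, h1]

theorem halts_iff_visit {M : Machine} {w : List ℕ} {X : ℝ → V3}
    (hX : IsTrajectory (velU (M, w)) aStar X) :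
    (∃ t, 0 ≤ t ∧ X t ∈ OSet) ↔ Halts M w := by
  have hg := flagOK_gM M
  constructor
  · rintro ⟨t, ht, hin⟩
    by_contra hn
    exact traj_not_in_O hg hX (rowC_of_nonhalt hn) (colC_of_nonhalt hn) t ht hin
  · intro hh
    classical
    have hex : ∃ n, M.isHalting ((M.step)^[n] (initConfig w)).1 = true := hh
    have hN := Nat.find_spec hex
    have hmin : ∀ k < Nat.find hex, M.isHalting ((M.step)^[k] (initConfig w)).1 ≠ true :=
      fun k hk => Nat.find_min hex hk
    exact traj_in_O hg hX (rowC_of_halt hN hmin) (colC_of_halt hN hmin)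

/-- The main theorem: the halting problem is decided by the visits of one particle path. -/
theorem main_theorem (ν : ℝ) (hν : 0 < ν) (hc : IsComputableReal ν) :
    ∃ (a : V3) (O : Set V3) (T₀ P : ℝ) (compiler : Machine × List ℕ → Nat.Partrec.Code)
      (F : Machine × List ℕ → ℝ → V3 → V3),
      IsOpen O ∧ Periodic3 (fun p => p ∈ O) ∧ 0 < P ∧ Computable compiler ∧
      (∀ M w, IsSmoothField (F (M, w)) ∧ IsProgramFor (compiler (M, w)) (F (M, w))) ∧
      (∀ M w w' t, T₀ ≤ t → F (M, w) t = F (M, w') t) ∧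
      (∀ M w t, T₀ ≤ t → F (M, w) (t + P) = F (M, w) t) ∧
      ∀ M w, ∃ (u : ℝ → V3 → V3) (p : ℝ → V3 → ℝ),
        IsSmoothField u ∧
        (ContDiff ℝ (⊤ : ℕ∞) (fun q : ℝ × V3 => p q.1 q.2) ∧ ∀ t, Periodic3 (p t)) ∧
        (∀ T, 0 < T → IsClassicalSolution ν (F (M, w)) T u p) ∧
        (∀ T, 0 < T → ∀ u' p', IsClassicalSolution ν (F (M, w)) T u' p' →
          ∀ t ∈ Icc 0 T, u' t = u t ∧ p' t = p t) ∧
        (∃ X, IsTrajectory u a X) ∧
        ∀ X, IsTrajectory u a X → ((∃ t, 0 ≤ t ∧ X t ∈ O) ↔ Halts M w) := by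
  obtain ⟨s, hs, hsν⟩ := hc
  obtain ⟨c, hcode⟩ := exists_force_code hs
  refine ⟨aStar, OSet, 1, 4, fun p => c.curry (Encodable.encode p), forceF ν,
    isOpen_OSet, periodic_OSet, by norm_num, ?_, ?_, ?_, ?_, ?_⟩
  · exact (Nat.Partrec.Code.primrec₂_curry.comp (Primrec.const c) Primrec.encode).to_comp
  · intro M w
    refine ⟨isSmoothField_forceF ν (M, w), ?_⟩
    intro i α q k _
    refine ⟨forceApprox s M (Encodable.encode w) (i.val, α, q) k, ?_, ?_⟩
    · rw [Nat.Partrec.Code.eval_curry]
      exact hcode M w i α q k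
    · exact abs_sub_forceApprox hsν M (Encodable.encode w) i α q k
  · intro M w w' t ht
    exact forceF_indep ν M w w' ht
  · intro M w t ht
    exact forceF_periodic ν (M, w) ht
  · intro M w
    refine ⟨velU (M, w), fun _ _ => 0, isSmoothField_velU (M, w), ⟨contDiff_const, fun _ _ _ => rfl⟩,
      ?_, ?_, ?_, ?_⟩
    · intro T hT
      exact classical_uSol (flagOK_gM M) ν _ hT
    · intro T hT u' p' h'
      exact classical_unique hν.le hT (classical_uSol (flagOK_gM M) ν _ hT) h'
    · exact exists_traj (flagOK_gM M) _ aStar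
    · intro X hX
      exact halts_iff_visit hX

end Vale.Agent.P113
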