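import Vale.Agent.P113.Defs

/-!
Calculus of the space derivative `pd`, and vanishing of the integral of a divergence of a periodic
field over the unit cube.
-/

open MeasureTheory Set Filter Topology

namespace Vale.Agent.P113

variable {f g : V3 → ℝ} {j : Fin 3}

lemma pd_add (hf : Differentiable ℝ f) (hg : Differentiable ℝ g) (x : V3) :
    pd j (fun y => f y + g y) x = pd j f x + pd j g x := by
  unfold pd
  rw [fderiv_fun_add (hf x) (hg x)]
  rfl

lemma pd_sub (hf : Differentiable ℝ f) (hg : Differentiable ℝ g) (x : V3) :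
    pd j (fun y => f y - g y) x = pd j f x - pd j g x := by
  unfold pd
  rw [fderiv_fun_sub (hf x) (hg x)]
  rfl

lemma pd_mul (hf : Differentiable ℝ f) (hg : Differentiable ℝ g) (x : V3) :
    pd j (fun y => f y * g y) x = f x * pd j g x + g x * pd j f x := by
  unfold pd
  rw [fderiv_fun_mul (hf x) (hg x)]
  simp

lemma pd_const_mul (c : ℝ) (hf : Differentiable ℝ f) (x : V3) :
    pd j (fun y => c * f y) x = c * pd j f x := by
  have h : Differentiable ℝ (fun _ : V3 => c) := differentiable_const c
  rw [pd_mul h hf]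
  have : pd j (fun _ : V3 => c) x = 0 := by
    unfold pd; simp
  rw [this]; ring

lemma pd_sum {ι : Type} (s : Finset ι) (F : ι → V3 → ℝ) (hF : ∀ i ∈ s, Differentiable ℝ (F i))
    (x : V3) : pd j (fun y => ∑ i ∈ s, F i y) x = ∑ i ∈ s, pd j (F i) x := by
  unfold pd
  rw [fderiv_fun_sum (fun i hi => hF i hi x)]
  simp

lemma contDiff_pd {n : ℕ} (hf : ContDiff ℝ (n + 1 : ℕ) f) : ContDiff ℝ n (pd j f) := by
  unfold pd
  have h1 : ContDiff ℝ n (fderiv ℝ f) := hf.fderiv_right (by norm_cast)
  exact h1.clm_apply contDiff_const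

lemma periodic_pd (hf : Periodic3 f) : Periodic3 (pd j f) := by
  intro x k
  unfold pd
  set a : V3 := fun i => (k i : ℝ) with ha
  have hfa : (fun y => f (y + a)) = f := by
    funext y
    exact hf y k
  have h1 : fderiv ℝ f (x + a) = fderiv ℝ f x := by
    rw [← fderiv_comp_add_right a, hfa]
  have h2 : (fun i => x i + (k i : ℝ)) = x + a := rfl
  rw [h2, h1]

lemma continuous_pd (hf : ContDiff ℝ 1 f) : Continuous (pd j f) := by
  have := contDiff_pd (n := 0) (j := j) (f := f) (by simpa using hf)
  exact this.continuous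

/-- Integral over the unit cube of the divergence of a periodic `C¹` field vanishes. -/
theorem integral_div_eq_zero (G : Fin 3 → V3 → ℝ) (hG : ∀ i, ContDiff ℝ 1 (G i))
    (hper : ∀ i, Periodic3 (G i)) :
    ∫ x in Icc (0 : V3) 1, ∑ i, pd i (G i) x = 0 := by
  set F : V3 → V3 := fun x i => G i x with hF
  have hFc : ContDiff ℝ 1 F := contDiff_pi.mpr hG
  have hFd : Differentiable ℝ F := hFc.differentiable (by norm_num)
  have hder : ∀ x, HasFDerivAt F (fderiv ℝ F x) x := fun x => (hFd x).hasFDerivAt
  have hcomp : ∀ x i v, fderiv ℝ F x v i = fderiv ℝ (G i) x v := by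
    intro x i v
    have h1 := (hasFDerivAt_pi'.mp (hder x)) i
    have h2 : HasFDerivAt (G i) ((ContinuousLinearMap.proj i).comp (fderiv ℝ F x)) x := h1
    rw [h2.fderiv]
    rfl
  have hsum : ∀ x, ∑ i, fderiv ℝ F x (Pi.single i 1) i = ∑ i, pd i (G i) x := by
    intro x
    apply Finset.sum_congr rfl
    intro i _
    rw [hcomp]
    rfl
  have hcontsum : Continuous (fun x => ∑ i, pd i (G i) x) :=
    continuous_finsetSum _ (fun i _ => continuous_pd (hG i))
  have hmain := integral_divergence_of_hasFDerivAt_off_countable (E := ℝ) (n := 2)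
    (0 : V3) (1 : V3) (fun i => zero_le_one) F (fderiv ℝ F) ∅ countable_empty
    hFc.continuous.continuousOn (fun x _ => hder x)
    (by
      simp only [hsum]
      exact hcontsum.continuousOn.integrableOn_compact isCompact_Icc)
  simp only [hsum] at hmain
  rw [hmain]
  apply Finset.sum_eq_zero
  intro i _
  rw [sub_eq_zero]
  apply setIntegral_congr_fun measurableSet_Icc
  intro x _
  simp only [Pi.one_apply, Pi.zero_apply]
  have h3 : (Fin.insertNth i (1 : ℝ) x : V3)
      = fun m => (Fin.insertNth i (0 : ℝ) x : V3) m + (((Pi.single i 1 : Fin 3 → ℤ) m : ℤ) : ℝ) := by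
    funext m
    rcases Fin.eq_self_or_eq_succAbove i m with rfl | ⟨l, rfl⟩
    · simp
    · simp [Fin.succAbove_ne i l]
  change G i (Fin.insertNth i (1 : ℝ) x) = G i (Fin.insertNth i (0 : ℝ) x)
  rw [h3]
  exact hper i _ _

end Vale.Agent.P113
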