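import Vale.Agent.P113.Levels

/-!
Primitives of the row and column series.
-/

open Real Set Filter Topology

namespace Vale.Agent.P113

lemma continuous_bump1 : Continuous (bump 1) := (bump_contDiff 1).continuous

/-- The primitive of `bump 1` from `0`. -/
noncomputable def Th (s : ℝ) : ℝ := ∫ r in (0 : ℝ)..s, bump 1 r

lemma hasDerivAt_Th (s : ℝ) : HasDerivAt Th (bump 1 s) s :=
  intervalIntegral.integral_hasDerivAt_right (continuous_bump1.intervalIntegrable _ _)
    (continuous_bump1.stronglyMeasurableAtFilter _ _) continuous_bump1.continuousAt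

lemma Th_zero : Th 0 = 0 := by simp [Th]

lemma differentiable_Th : Differentiable ℝ Th := fun s => (hasDerivAt_Th s).differentiableAt

lemma Th_mono : Monotone Th :=
  monotone_of_deriv_nonneg differentiable_Th (fun s => by
    rw [(hasDerivAt_Th s).deriv]; exact bump_nonneg 1 s)

lemma Th_of_nonpos {s : ℝ} (h : s ≤ 0) : Th s = 0 := by
  unfold Th
  rw [intervalIntegral.integral_symm, neg_eq_zero]
  apply intervalIntegral.integral_zero_ae
  filter_upwards with r hr
  rw [uIoc_of_le h] at hr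
  exact bump_eq_zero (Or.inl hr.2)

/-- The total mass of `bump 1`. -/
noncomputable def kap : ℝ := Th 1

lemma Th_of_one_le {s : ℝ} (h : 1 ≤ s) : Th s = kap := by
  unfold kap Th
  have h1 : IntervalIntegrable (bump 1) MeasureTheory.volume 0 1 :=
    continuous_bump1.intervalIntegrable _ _
  have h2 : IntervalIntegrable (bump 1) MeasureTheory.volume 1 s :=
    continuous_bump1.intervalIntegrable _ _
  rw [← intervalIntegral.integral_add_adjacent_intervals h1 h2]
  have : ∫ r in (1 : ℝ)..s, bump 1 r = 0 := by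
    apply intervalIntegral.integral_zero_ae
    filter_upwards with r hr
    rw [uIoc_of_le h] at hr
    exact bump_eq_zero (Or.inr hr.1.le)
  rw [this, add_zero]

lemma Th_half_add : Th (1 / 2) + Th (1 / 2) = kap := by
  -- `Th s + Th (1 - s)` is constant
  have hder : ∀ s, HasDerivAt (fun s => Th s + Th (1 - s)) 0 s := by
    intro s
    have h1 := hasDerivAt_Th s
    have h2 : HasDerivAt (fun s => Th (1 - s)) (bump 1 (1 - s) * (-1)) s :=
      (hasDerivAt_Th (1 - s)).comp s ((hasDerivAt_id s).const_sub 1)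
    have := h1.add h2
    refine this.congr_deriv ?_
    rw [bump_symm]; ring
  have hconst := is_const_of_deriv_eq_zero
    (fun s => (hder s).differentiableAt) (fun s => (hder s).deriv) (1 / 2) 0
  have h1 : (1 : ℝ) - 1 / 2 = 1 / 2 := by norm_num
  simp only [h1, sub_zero, Th_zero, zero_add] at hconst
  exact hconst

lemma Th_half : Th (1 / 2) = kap / 2 := by linarith [Th_half_add]

lemma kap_pos : 0 < kap := by
  have h0 : 0 ≤ ∫ r in (0 : ℝ)..(1 / 4), bump 1 r :=
    intervalIntegral.integral_nonneg (by norm_num) (fun r _ => bump_nonneg 1 r)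
  have h1 : 0 < ∫ r in (1 / 4 : ℝ)..(3 / 4), bump 1 r := by
    apply intervalIntegral.intervalIntegral_pos_of_pos_on
      (continuous_bump1.intervalIntegrable _ _) _ (by norm_num)
    intro r hr
    exact bump_pos one_pos (by linarith [hr.1]) (by linarith [hr.2])
  have h2 : 0 ≤ ∫ r in (3 / 4 : ℝ)..1, bump 1 r :=
    intervalIntegral.integral_nonneg (by norm_num) (fun r _ => bump_nonneg 1 r)
  have hadd : kap = (∫ r in (0 : ℝ)..(1 / 4), bump 1 r) + (∫ r in (1 / 4 : ℝ)..(3 / 4), bump 1 r)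
      + ∫ r in (3 / 4 : ℝ)..1, bump 1 r := by
    unfold kap Th
    rw [intervalIntegral.integral_add_adjacent_intervals
      (continuous_bump1.intervalIntegrable _ _) (continuous_bump1.intervalIntegrable _ _),
      intervalIntegral.integral_add_adjacent_intervals
      (continuous_bump1.intervalIntegrable _ _) (continuous_bump1.intervalIntegrable _ _)]
  linarith

lemma Th_nonneg (s : ℝ) : 0 ≤ Th s := by
  by_cases h : 0 ≤ s
  · rw [← Th_zero]; exact Th_mono h
  · rw [Th_of_nonpos (not_le.mp h).le]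

lemma Th_le_kap (s : ℝ) : Th s ≤ kap := by
  by_cases h : s ≤ 1
  · exact Th_mono h
  · rw [Th_of_one_le (not_le.mp h).le]

/-- The primitive of `Lam n * prof 1 0 (Lam n)`. -/
noncomputable def Pn (n : ℕ) (y : ℝ) : ℝ := Th (Lam n * Int.fract y - 1) + ⌊y⌋ * kap

lemma Pn_local (n : ℕ) {y : ℝ} {m : ℤ} (h1 : (m : ℝ) - 1 / 2 < y) (h2 : y < m + 1) :
    Pn n y = Th (Lam n * (y - m) - 1) + m * kap := by
  unfold Pn
  have hL := four_le_Lam n
  by_cases hm : (m : ℝ) ≤ y
  · have hfl : ⌊y⌋ = m := by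
      rw [Int.floor_eq_iff]; exact ⟨hm, h2⟩
    have hfr : Int.fract y = y - m := by
      rw [Int.fract, hfl]
    rw [hfr, hfl]
  · push Not at hm
    have hfl : ⌊y⌋ = m - 1 := by
      rw [Int.floor_eq_iff]; push_cast; constructor <;> linarith
    have hfr : Int.fract y = y - m + 1 := by
      rw [Int.fract, hfl]; push_cast; ring
    rw [hfr, hfl, Th_of_one_le (by nlinarith), Th_of_nonpos (by nlinarith)]
    push_cast
    ring

lemma Pn_window (n : ℕ) {y : ℝ} (h1 : -(1 / 2) < y) (h2 : y < 1) :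
    Pn n y = Th (Lam n * y - 1) := by
  have := Pn_local n (y := y) (m := 0) (by simpa using h1) (by simpa using h2)
  simpa using this

lemma prof_window (k n : ℕ) {y : ℝ} (h1 : -(1 / 2) < y) (h2 : y < 1) :
    prof 1 k (Lam n) y = iteratedDeriv k (bump 1) (Lam n * y - 1) := by
  have := prof_eq_local 1 k (four_le_Lam n) (y := y) (m := 0) (by simpa using h1) (by simpa using h2)
  simpa using this

lemma hasDerivAt_Pn (n : ℕ) (y : ℝ) : HasDerivAt (Pn n) (Lam n * prof 1 0 (Lam n) y) y := by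
  set m : ℤ := ⌊y⌋ with hm
  have hy1 : (m : ℝ) ≤ y := Int.floor_le y
  have hy2 : y < m + 1 := Int.lt_floor_add_one y
  have hev : Pn n =ᶠ[𝓝 y] fun r => Th (Lam n * (r - m) - 1) + m * kap := by
    filter_upwards [Ioo_mem_nhds (show (m : ℝ) - 1 / 2 < y by linarith) hy2] with r hr
    exact Pn_local n hr.1 hr.2
  have hval : prof 1 0 (Lam n) y = bump 1 (Lam n * (y - m) - 1) := by
    have := prof_eq_local 1 0 (four_le_Lam n) (y := y) (m := m) (by linarith) hy2
    simpa using this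
  have hinner : HasDerivAt (fun r : ℝ => Lam n * (r - m) - 1) (Lam n) y := by
    have := ((hasDerivAt_id y).sub_const (m : ℝ)).const_mul (Lam n)
    simpa using this.sub_const 1
  have h := ((hasDerivAt_Th (Lam n * (y - m) - 1)).comp y hinner).add_const ((m : ℝ) * kap)
  rw [hval, mul_comm]
  exact h.congr_of_eventuallyEq hev

lemma abs_Pn_le (n : ℕ) (y : ℝ) : |Pn n y| ≤ kap * (1 + |(⌊y⌋ : ℝ)|) := by
  unfold Pn
  have h1 : |Th (Lam n * Int.fract y - 1)| ≤ kap := by
    rw [abs_of_nonneg (Th_nonneg _)]; exact Th_le_kap _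
  have h2 : |(⌊y⌋ : ℝ) * kap| = |(⌊y⌋ : ℝ)| * kap := by
    rw [abs_mul, abs_of_pos kap_pos]
  calc _ ≤ |Th (Lam n * Int.fract y - 1)| + |(⌊y⌋ : ℝ) * kap| := abs_add_le _ _
    _ ≤ _ := by rw [h2]; nlinarith [kap_pos, abs_nonneg ((⌊y⌋ : ℝ))]

/-- Admissible coefficient sequences. -/
def Adm (r : ℕ → ℝ) : Prop := ∀ n, 0 ≤ r n ∧ r n ≤ aa n

/-- The series primitive. -/
noncomputable def Pr (r : ℕ → ℝ) (y : ℝ) : ℝ := ∑' n, r n * Pn n y

/-- The row or column field with coefficients `r`. -/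
noncomputable def Xr (r : ℕ → ℝ) : ℝ → ℝ := ser1 (fun n => r n * Lam n) 1 0

lemma Adm.sumW {r : ℕ → ℝ} (hr : Adm r) : SumW (fun n => r n * Lam n) := by
  apply sumW_of_le (C := 1) (j := 1)
  intro n
  rw [abs_of_nonneg (mul_nonneg (hr n).1 (Lam_pos n).le), one_mul, pow_one]
  exact mul_le_mul_of_nonneg_right (hr n).2 (Lam_pos n).le

lemma summable_aa : Summable aa := by
  have := summable_aa_mul_Lam_pow 0
  simpa using this

lemma Adm.summable_Pr_term {r : ℕ → ℝ} (hr : Adm r) (y : ℝ) : Summable (fun n => r n * Pn n y) := by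
  refine Summable.of_norm_bounded (summable_aa.mul_right (kap * (1 + |(⌊y⌋ : ℝ)|))) (fun n => ?_)
  rw [Real.norm_eq_abs, abs_mul, abs_of_nonneg (hr n).1]
  exact mul_le_mul (hr n).2 (abs_Pn_le n y) (abs_nonneg _) (aa_pos n).le

lemma Adm.hasDerivAt_Pr {r : ℕ → ℝ} (hr : Adm r) (y : ℝ) : HasDerivAt (Pr r) (Xr r y) y := by
  unfold Pr Xr ser1
  have key := hasDerivAt_tsum (𝕜 := ℝ)
    (u := fun n => |r n * Lam n| * Lam n ^ 0 * bumpBd 1 0)
    (g := fun n y => r n * Pn n y)
    (g' := fun n y => r n * Lam n * Lam n ^ 0 * prof 1 0 (Lam n) y)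
    (y₀ := 0) (summable_ser1_bound hr.sumW 1 0)
    (fun n y => by
      have := (hasDerivAt_Pn n y).const_mul (r n)
      exact this.congr_deriv (by simp; ring))
    (fun n y => abs_ser1_term_le (fun n => r n * Lam n) 1 0 n y)
    (hr.summable_Pr_term 0) y
  exact key

lemma Adm.differentiable_Pr {r : ℕ → ℝ} (hr : Adm r) : Differentiable ℝ (Pr r) :=
  fun y => (hr.hasDerivAt_Pr y).differentiableAt

lemma Adm.Xr_nonneg {r : ℕ → ℝ} (hr : Adm r) (y : ℝ) : 0 ≤ Xr r y := by
  unfold Xr ser1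
  apply tsum_nonneg
  intro n
  apply mul_nonneg (mul_nonneg (mul_nonneg (hr n).1 (Lam_pos n).le) (by simp))
  simp only [prof, iteratedDeriv_zero]
  exact bump_nonneg 1 _

lemma Adm.Pr_mono {r : ℕ → ℝ} (hr : Adm r) : Monotone (Pr r) :=
  monotone_of_deriv_nonneg hr.differentiable_Pr (fun y => by
    rw [(hr.hasDerivAt_Pr y).deriv]; exact hr.Xr_nonneg y)

lemma Adm.contDiff_Xr {r : ℕ → ℝ} (hr : Adm r) : ContDiff ℝ (⊤ : ℕ∞) (Xr r) :=
  contDiff_ser1 hr.sumW 1 0

lemma Adm.continuous_Xr {r : ℕ → ℝ} (hr : Adm r) : Continuous (Xr r) := hr.contDiff_Xr.continuous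

/-- Window formula for the primitive. -/
lemma Pr_window (r : ℕ → ℝ) {y : ℝ} (h1 : -(1 / 2) < y) (h2 : y < 1) :
    Pr r y = ∑' n, r n * Th (Lam n * y - 1) := by
  unfold Pr
  simp only [Pn_window _ h1 h2]

/-- Window formula for the field. -/
lemma Xr_window (r : ℕ → ℝ) {y : ℝ} (h1 : -(1 / 2) < y) (h2 : y < 1) :
    Xr r y = ∑' n, r n * Lam n * bump 1 (Lam n * y - 1) := by
  unfold Xr ser1
  simp only [prof_window _ _ h1 h2, iteratedDeriv_zero, pow_zero, mul_one]

lemma Pr_zero_of_nonpos (r : ℕ → ℝ) {y : ℝ} (h1 : -(1 / 2) < y) (h2 : y ≤ 0) : Pr r y = 0 := by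
  rw [Pr_window r h1 (by linarith)]
  convert tsum_zero with n
  rw [Th_of_nonpos, mul_zero]
  have := Lam_pos n
  nlinarith

lemma Xr_zero_at_zero (r : ℕ → ℝ) : Xr r 0 = 0 := by
  rw [Xr_window r (by norm_num) (by norm_num)]
  convert tsum_zero with n
  rw [bump_eq_zero (Or.inl (by simp)), mul_zero]

end Vale.Agent.P113
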