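import Vale.Agent.P113.Defs

/-!
Arithmetic on rational codes: value lemmas and primitive recursiveness.
-/

open Real

namespace Vale.Agent.P113

/-- The code of zero. -/
def qZero : RatCode := (0, 0, 0)
/-- The code of one. -/
def qOne : RatCode := (1, 0, 0)
/-- The code of a natural number. -/
def qNat (n : ℕ) : RatCode := (n, 0, 0)
/-- Negation of codes. -/
def qNeg (r : RatCode) : RatCode := (r.2.1, r.1, r.2.2)
/-- Addition of codes. -/
def qAdd (r s : RatCode) : RatCode :=
  (r.1 * (s.2.2 + 1) + s.1 * (r.2.2 + 1), r.2.1 * (s.2.2 + 1) + s.2.1 * (r.2.2 + 1),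
    (r.2.2 + 1) * (s.2.2 + 1) - 1)
/-- Subtraction of codes. -/
def qSub (r s : RatCode) : RatCode := qAdd r (qNeg s)
/-- Multiplication of codes. -/
def qMul (r s : RatCode) : RatCode :=
  (r.1 * s.1 + r.2.1 * s.2.1, r.1 * s.2.1 + r.2.1 * s.1, (r.2.2 + 1) * (s.2.2 + 1) - 1)
/-- Powers of codes. -/
def qPow (r : RatCode) (n : ℕ) : RatCode := (qMul r)^[n] qOne
/-- The inverse of a positive code. -/
def qInv (r : RatCode) : RatCode := (r.2.2 + 1, 0, r.1 - r.2.1 - 1)
/-- The code of `a / (c + 1)`. -/
def qFrac (a c : ℕ) : RatCode := (a, 0, c)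
/-- The fractional part of a code. -/
def qFract (r : RatCode) : RatCode := ((r.1 + r.2.1 * r.2.2) % (r.2.2 + 1), 0, r.2.2)
/-- Strict comparison of codes. -/
abbrev qLt (r s : RatCode) : Prop :=
  r.1 * (s.2.2 + 1) + s.2.1 * (r.2.2 + 1) < s.1 * (r.2.2 + 1) + r.2.1 * (s.2.2 + 1)

/-! ### values -/

lemma den_pos (r : RatCode) : (0 : ℝ) < (r.2.2 : ℝ) + 1 := by positivity

@[simp] lemma ratVal_qZero : ratVal qZero = 0 := by simp [ratVal, qZero]
@[simp] lemma ratVal_qOne : ratVal qOne = 1 := by simp [ratVal, qOne]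
@[simp] lemma ratVal_qNat (n : ℕ) : ratVal (qNat n) = n := by simp [ratVal, qNat]
@[simp] lemma ratVal_qNeg (r : RatCode) : ratVal (qNeg r) = - ratVal r := by
  simp only [ratVal, qNeg]
  ring

lemma cast_den_mul (r s : RatCode) :
    (((r.2.2 + 1) * (s.2.2 + 1) - 1 : ℕ) : ℝ) + 1 = ((r.2.2 : ℝ) + 1) * ((s.2.2 : ℝ) + 1) := by
  have h : 1 ≤ (r.2.2 + 1) * (s.2.2 + 1) := Nat.mul_pos (Nat.succ_pos _) (Nat.succ_pos _)
  rw [Nat.cast_sub h]
  push_cast
  ring

@[simp] lemma ratVal_qAdd (r s : RatCode) : ratVal (qAdd r s) = ratVal r + ratVal s := by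
  have h1 := den_pos r
  have h2 := den_pos s
  simp only [ratVal, qAdd]
  rw [cast_den_mul]
  push_cast
  field_simp
  ring

@[simp] lemma ratVal_qSub (r s : RatCode) : ratVal (qSub r s) = ratVal r - ratVal s := by
  simp [qSub, sub_eq_add_neg]

@[simp] lemma ratVal_qMul (r s : RatCode) : ratVal (qMul r s) = ratVal r * ratVal s := by
  have h1 := den_pos r
  have h2 := den_pos s
  simp only [ratVal, qMul]
  rw [cast_den_mul]
  push_cast
  field_simp
  ring

@[simp] lemma ratVal_qPow (r : RatCode) (n : ℕ) : ratVal (qPow r n) = ratVal r ^ n := by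
  unfold qPow
  induction n with
  | zero => simp
  | succ n ih =>
    rw [Function.iterate_succ_apply', ratVal_qMul, ih, pow_succ]
    ring

lemma ratVal_qInv {r : RatCode} (h : 0 < ratVal r) : ratVal (qInv r) = (ratVal r)⁻¹ := by
  have hd := den_pos r
  unfold ratVal at h
  have h1 : (0 : ℝ) < (r.1 : ℝ) - r.2.1 := by
    by_contra hh
    push Not at hh
    have := div_nonpos_of_nonpos_of_nonneg hh hd.le
    linarith
  have h2 : r.2.1 < r.1 := by
    have : (r.2.1 : ℝ) < r.1 := by linarith
    exact_mod_cast this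
  have h3 : ((r.1 - r.2.1 - 1 : ℕ) : ℝ) + 1 = (r.1 : ℝ) - r.2.1 := by
    have : r.1 - r.2.1 - 1 + 1 = r.1 - r.2.1 := by omega
    rw [← Nat.cast_sub h2.le, ← this]
    push_cast
    ring
  simp only [ratVal, qInv]
  rw [h3, inv_div]
  push_cast
  simp

@[simp] lemma ratVal_qFrac (a c : ℕ) : ratVal (qFrac a c) = (a : ℝ) / ((c : ℝ) + 1) := by
  simp [ratVal, qFrac]

lemma ratVal_qFract (r : RatCode) : ratVal (qFract r) = Int.fract (ratVal r) := by
  have hd := den_pos r
  have h1 : ratVal r + (r.2.1 : ℝ) = (((r.1 + r.2.1 * r.2.2 : ℕ) : ℝ)) / ((r.2.2 + 1 : ℕ) : ℝ) := by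
    simp only [ratVal]
    push_cast
    field_simp
    ring
  have h2 : Int.fract (ratVal r) = Int.fract (ratVal r + (r.2.1 : ℝ)) :=
    (Int.fract_add_natCast _ _).symm
  rw [h2, h1, Int.fract_div_natCast_eq_div_natCast_mod]
  simp only [ratVal, qFract]
  push_cast
  simp

lemma qLt_iff (r s : RatCode) : qLt r s ↔ ratVal r < ratVal s := by
  have h1 := den_pos r
  have h2 := den_pos s
  simp only [ratVal]
  rw [div_lt_div_iff₀ h1 h2]
  constructor
  · intro h
    have h' : ((r.1 * (s.2.2 + 1) + s.2.1 * (r.2.2 + 1) : ℕ) : ℝ)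
        < ((s.1 * (r.2.2 + 1) + r.2.1 * (s.2.2 + 1) : ℕ) : ℝ) := by exact_mod_cast h
    push_cast at h'
    linarith
  · intro h
    have h' : ((r.1 * (s.2.2 + 1) + s.2.1 * (r.2.2 + 1) : ℕ) : ℝ)
        < ((s.1 * (r.2.2 + 1) + r.2.1 * (s.2.2 + 1) : ℕ) : ℝ) := by
      push_cast
      linarith
    exact_mod_cast h'

/-- Absolute value bound of a code by a natural. -/
def qBd (r : RatCode) : ℕ := r.1 + r.2.1

lemma abs_ratVal_le (r : RatCode) : |ratVal r| ≤ qBd r := by
  have hd := den_pos r
  unfold ratVal qBd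
  rw [abs_div, abs_of_pos hd]
  have h1 : (1 : ℝ) ≤ (r.2.2 : ℝ) + 1 := by
    have : (0 : ℝ) ≤ r.2.2 := Nat.cast_nonneg _
    linarith
  have h2 : |(r.1 : ℝ) - r.2.1| ≤ (r.1 : ℝ) + r.2.1 := by
    rw [abs_le]
    have h3 : (0 : ℝ) ≤ r.1 := Nat.cast_nonneg _
    have h4 : (0 : ℝ) ≤ r.2.1 := Nat.cast_nonneg _
    constructor <;> linarith
  push_cast
  calc _ ≤ |(r.1 : ℝ) - r.2.1| := div_le_self (abs_nonneg _) h1
    _ ≤ _ := h2

/-! ### primitive recursiveness -/

section pr
variable {α : Type} [Primcodable α] {f g : α → RatCode}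

lemma primrec_nat_pow : Primrec₂ (fun a b : ℕ => a ^ b) :=
  Primrec₂.unpaired'.1 Nat.Primrec.pow

lemma primrec_qNeg : Primrec qNeg :=
  (Primrec.fst.comp Primrec.snd).pair (Primrec.fst.pair (Primrec.snd.comp Primrec.snd))

lemma primrec_qAdd : Primrec₂ qAdd := by
  show Primrec fun p : RatCode × RatCode => qAdd p.1 p.2
  unfold qAdd
  repeat' first
    | with_reducible exact Primrec.fst | with_reducible exact Primrec.snd
    | with_reducible exact Primrec.const _
    | with_reducible refine Primrec.fst.comp ?_ | with_reducible refine Primrec.snd.comp ?_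
    | with_reducible refine Primrec.pair ?_ ?_
    | with_reducible refine Primrec.nat_mod.comp ?_ ?_
    | with_reducible refine Primrec.nat_add.comp ?_ ?_ | with_reducible refine Primrec.nat_mul.comp ?_ ?_
    | with_reducible refine Primrec.nat_sub.comp ?_ ?_

lemma primrec_qMul : Primrec₂ qMul := by
  show Primrec fun p : RatCode × RatCode => qMul p.1 p.2
  unfold qMul
  repeat' first
    | with_reducible exact Primrec.fst | with_reducible exact Primrec.snd
    | with_reducible exact Primrec.const _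
    | with_reducible refine Primrec.fst.comp ?_ | with_reducible refine Primrec.snd.comp ?_
    | with_reducible refine Primrec.pair ?_ ?_
    | with_reducible refine Primrec.nat_mod.comp ?_ ?_
    | with_reducible refine Primrec.nat_add.comp ?_ ?_ | with_reducible refine Primrec.nat_mul.comp ?_ ?_
    | with_reducible refine Primrec.nat_sub.comp ?_ ?_

lemma primrec_qSub : Primrec₂ qSub :=
  primrec_qAdd.comp Primrec.fst (primrec_qNeg.comp Primrec.snd)

lemma primrec_qPow : Primrec₂ qPow := by
  unfold qPow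
  exact Primrec.nat_iterate Primrec.snd (Primrec.const qOne)
    (primrec_qMul.comp (Primrec.fst.comp Primrec.fst) Primrec.snd)

lemma primrec_qInv : Primrec qInv := by
  unfold qInv
  repeat' first
    | with_reducible exact Primrec.fst | with_reducible exact Primrec.snd
    | with_reducible exact Primrec.const _
    | with_reducible refine Primrec.fst.comp ?_ | with_reducible refine Primrec.snd.comp ?_
    | with_reducible refine Primrec.pair ?_ ?_
    | with_reducible refine Primrec.nat_mod.comp ?_ ?_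
    | with_reducible refine Primrec.nat_add.comp ?_ ?_ | with_reducible refine Primrec.nat_mul.comp ?_ ?_
    | with_reducible refine Primrec.nat_sub.comp ?_ ?_

lemma primrec_qFract : Primrec qFract := by
  unfold qFract
  repeat' first
    | with_reducible exact Primrec.fst | with_reducible exact Primrec.snd
    | with_reducible exact Primrec.const _
    | with_reducible refine Primrec.fst.comp ?_ | with_reducible refine Primrec.snd.comp ?_
    | with_reducible refine Primrec.pair ?_ ?_
    | with_reducible refine Primrec.nat_mod.comp ?_ ?_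
    | with_reducible refine Primrec.nat_add.comp ?_ ?_ | with_reducible refine Primrec.nat_mul.comp ?_ ?_
    | with_reducible refine Primrec.nat_sub.comp ?_ ?_

lemma primrec_qBd : Primrec qBd := by
  unfold qBd
  exact Primrec.nat_add.comp Primrec.fst (Primrec.fst.comp Primrec.snd)

lemma primrecRel_qLt : PrimrecRel qLt := by
  show PrimrecPred fun p : RatCode × RatCode => qLt p.1 p.2
  unfold qLt
  refine Primrec.nat_lt.comp ?_ ?_ <;>
  repeat' first
    | with_reducible exact Primrec.fst | with_reducible exact Primrec.snd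
    | with_reducible exact Primrec.const _
    | with_reducible refine Primrec.fst.comp ?_ | with_reducible refine Primrec.snd.comp ?_
    | with_reducible refine Primrec.pair ?_ ?_
    | with_reducible refine Primrec.nat_mod.comp ?_ ?_
    | with_reducible refine Primrec.nat_add.comp ?_ ?_ | with_reducible refine Primrec.nat_mul.comp ?_ ?_
    | with_reducible refine Primrec.nat_sub.comp ?_ ?_

end pr

end Vale.Agent.P113
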