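import Vale.Agent.P113.Levels
import Vale.Agent.P113.Defs

/-!
Series of products of one-variable functions on `V3`: joint smoothness and partial derivatives.
-/

open Real Set Filter Topology

namespace Vale.Agent.P113

lemma iteratedDeriv_iteratedDeriv' (i b : ℕ) (φ : ℝ → ℝ) :
    iteratedDeriv i (iteratedDeriv b φ) = iteratedDeriv (i + b) φ := by
  simp only [iteratedDeriv_eq_iterate]
  rw [Function.iterate_add_apply]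

/-- Growth of the Fréchet derivatives of `h` against powers of a scale `L`. -/
def GrowBd (h : V3 → ℝ) (E : ℕ → ℝ) (L : ℝ) (b : ℕ) : Prop :=
  ∀ k x, ‖iteratedFDeriv ℝ k h x‖ ≤ E k * L ^ (k + b)

lemma norm_proj_le (j : Fin 3) : ‖(ContinuousLinearMap.proj j : V3 →L[ℝ] ℝ)‖ ≤ 1 := by
  apply ContinuousLinearMap.opNorm_le_bound _ zero_le_one
  intro x
  simpa using norm_le_pi_norm x j

lemma growBd_coord {φ : ℝ → ℝ} (hφ : ContDiff ℝ (⊤ : ℕ∞) φ) {D : ℕ → ℝ} {L : ℝ}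
    (hbd : ∀ k s, |iteratedDeriv k φ s| ≤ D k * L ^ k) (b : ℕ) (j : Fin 3) :
    GrowBd (fun x => iteratedDeriv b φ (x j)) (fun k => D (k + b)) L b := by
  intro k x
  have hcd : ContDiff ℝ (⊤ : ℕ∞) (iteratedDeriv b φ) := by
    rw [iteratedDeriv_eq_iterate]; exact ContDiff.iterate_deriv b hφ
  have heq : (fun x : V3 => iteratedDeriv b φ (x j))
      = (iteratedDeriv b φ) ∘ (ContinuousLinearMap.proj j : V3 →L[ℝ] ℝ) := rfl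
  rw [heq, ContinuousLinearMap.iteratedFDeriv_comp_right _ hcd x (by exact_mod_cast le_top)]
  refine le_trans (ContinuousMultilinearMap.norm_compContinuousLinearMap_le _ _) ?_
  have hprod : ∏ _i : Fin k, ‖(ContinuousLinearMap.proj j : V3 →L[ℝ] ℝ)‖ ≤ 1 := by
    apply Finset.prod_le_one
    · intro _ _; exact norm_nonneg _
    · intro _ _; exact norm_proj_le j
  have h1 : ‖iteratedFDeriv ℝ k (iteratedDeriv b φ) (x j)‖ ≤ D (k + b) * L ^ (k + b) := by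
    rw [norm_iteratedFDeriv_eq_norm_iteratedDeriv, iteratedDeriv_iteratedDeriv']
    exact hbd (k + b) (x j)
  calc _ ≤ ‖iteratedFDeriv ℝ k (iteratedDeriv b φ) (x j)‖ * 1 :=
        mul_le_mul_of_nonneg_left hprod (norm_nonneg _)
    _ ≤ D (k + b) * L ^ (k + b) := by rw [mul_one]; exact h1

lemma growBd_mul {f g : V3 → ℝ} (hf : ContDiff ℝ (⊤ : ℕ∞) f) (hg : ContDiff ℝ (⊤ : ℕ∞) g)
    {E E' : ℕ → ℝ} {L : ℝ} {b b' : ℕ}
    (h1 : GrowBd f E L b) (h2 : GrowBd g E' L b') :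
    GrowBd (fun x => f x * g x)
      (fun k => ∑ i ∈ Finset.range (k + 1), (k.choose i : ℝ) * E i * E' (k - i)) L (b + b') := by
  intro k x
  refine le_trans (norm_iteratedFDeriv_mul_le hf hg x (n := k) (by exact_mod_cast le_top)) ?_
  rw [Finset.sum_mul]
  apply Finset.sum_le_sum
  intro i hi
  have hi' : i ≤ k := Nat.lt_succ_iff.mp (Finset.mem_range.mp hi)
  have hpow : L ^ (k + (b + b')) = L ^ (i + b) * L ^ (k - i + b') := by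
    rw [← pow_add]; congr 1; omega
  have hnn : (0 : ℝ) ≤ (k.choose i : ℝ) := Nat.cast_nonneg _
  calc (k.choose i : ℝ) * ‖iteratedFDeriv ℝ i f x‖ * ‖iteratedFDeriv ℝ (k - i) g x‖
      ≤ (k.choose i : ℝ) * (E i * L ^ (i + b)) * (E' (k - i) * L ^ (k - i + b')) := by
        apply mul_le_mul (mul_le_mul_of_nonneg_left (h1 i x) hnn) (h2 _ x) (norm_nonneg _)
        exact mul_nonneg hnn (le_trans (norm_nonneg _) (h1 i x))
    _ = (k.choose i : ℝ) * E i * E' (k - i) * L ^ (k + (b + b')) := by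
        rw [hpow]; ring

/-- The data of a series of products: weights, factors, and growth control. -/
structure Good (c : ℕ → ℝ) (φ₁ φ₂ φ₃ : ℕ → ℝ → ℝ) (D : ℕ → ℝ) (L : ℕ → ℝ) : Prop where
  L_nonneg : ∀ W, 0 ≤ L W
  D_nonneg : ∀ k, 0 ≤ D k
  smooth₁ : ∀ W, ContDiff ℝ (⊤ : ℕ∞) (φ₁ W)
  smooth₂ : ∀ W, ContDiff ℝ (⊤ : ℕ∞) (φ₂ W)
  smooth₃ : ∀ W, ContDiff ℝ (⊤ : ℕ∞) (φ₃ W)
  bd₁ : ∀ k W s, |iteratedDeriv k (φ₁ W) s| ≤ D k * L W ^ k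
  bd₂ : ∀ k W s, |iteratedDeriv k (φ₂ W) s| ≤ D k * L W ^ k
  bd₃ : ∀ k W s, |iteratedDeriv k (φ₃ W) s| ≤ D k * L W ^ k
  summ : ∀ k, Summable (fun W => |c W| * L W ^ k)

/-- The general term of the series with derivative orders `(b₁, b₂, b₃)`. -/
noncomputable def termD (c : ℕ → ℝ) (φ₁ φ₂ φ₃ : ℕ → ℝ → ℝ) (b₁ b₂ b₃ W : ℕ) (x : V3) : ℝ :=
  c W * (iteratedDeriv b₁ (φ₁ W) (x 0) * iteratedDeriv b₂ (φ₂ W) (x 1) *
    iteratedDeriv b₃ (φ₃ W) (x 2))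

/-- The series with derivative orders `(b₁, b₂, b₃)`. -/
noncomputable def serD (c : ℕ → ℝ) (φ₁ φ₂ φ₃ : ℕ → ℝ → ℝ) (b₁ b₂ b₃ : ℕ) (x : V3) : ℝ :=
  ∑' W, termD c φ₁ φ₂ φ₃ b₁ b₂ b₃ W x

lemma contDiff_iterDeriv_coord {φ : ℝ → ℝ} (hφ : ContDiff ℝ (⊤ : ℕ∞) φ) (b : ℕ) (j : Fin 3) :
    ContDiff ℝ (⊤ : ℕ∞) (fun x : V3 => iteratedDeriv b φ (x j)) := by
  have hcd : ContDiff ℝ (⊤ : ℕ∞) (iteratedDeriv b φ) := by
    rw [iteratedDeriv_eq_iterate]; exact ContDiff.iterate_deriv b hφ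
  exact hcd.comp (contDiff_apply ℝ ℝ j)

section
variable {c : ℕ → ℝ} {φ₁ φ₂ φ₃ : ℕ → ℝ → ℝ} {D L : ℕ → ℝ}

lemma Good.term_contDiff (G : Good c φ₁ φ₂ φ₃ D L) (b₁ b₂ b₃ W : ℕ) :
    ContDiff ℝ (⊤ : ℕ∞) (termD c φ₁ φ₂ φ₃ b₁ b₂ b₃ W) := by
  unfold termD
  exact contDiff_const.mul (((contDiff_iterDeriv_coord (G.smooth₁ W) b₁ 0).mul
    (contDiff_iterDeriv_coord (G.smooth₂ W) b₂ 1)).mul
    (contDiff_iterDeriv_coord (G.smooth₃ W) b₃ 2))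

/-- The constant in the term bound. -/
noncomputable def termE (D : ℕ → ℝ) (b₁ b₂ b₃ k : ℕ) : ℝ :=
  ∑ i ∈ Finset.range (k + 1), (k.choose i : ℝ) *
    (∑ i' ∈ Finset.range (i + 1), (i.choose i' : ℝ) * D (i' + b₁) * D (i - i' + b₂)) *
    D (k - i + b₃)

lemma Good.term_bound (G : Good c φ₁ φ₂ φ₃ D L) (b₁ b₂ b₃ k W : ℕ) (x : V3) :
    ‖iteratedFDeriv ℝ k (termD c φ₁ φ₂ φ₃ b₁ b₂ b₃ W) x‖
      ≤ termE D b₁ b₂ b₃ k * (|c W| * L W ^ (k + (b₁ + b₂ + b₃))) := by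
  have h1 := growBd_coord (G.smooth₁ W) (G.bd₁ · W) b₁ 0
  have h2 := growBd_coord (G.smooth₂ W) (G.bd₂ · W) b₂ 1
  have h3 := growBd_coord (G.smooth₃ W) (G.bd₃ · W) b₃ 2
  have c1 := contDiff_iterDeriv_coord (G.smooth₁ W) b₁ 0
  have c2 := contDiff_iterDeriv_coord (G.smooth₂ W) b₂ 1
  have c3 := contDiff_iterDeriv_coord (G.smooth₃ W) b₃ 2
  have h12 := growBd_mul c1 c2 h1 h2
  have h123 := growBd_mul (c1.mul c2) c3 h12 h3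
  have hprod : ContDiff ℝ (⊤ : ℕ∞) (fun x : V3 => iteratedDeriv b₁ (φ₁ W) (x 0) *
      iteratedDeriv b₂ (φ₂ W) (x 1) * iteratedDeriv b₃ (φ₃ W) (x 2)) := (c1.mul c2).mul c3
  have hsm : termD c φ₁ φ₂ φ₃ b₁ b₂ b₃ W = (c W) • (fun x : V3 => iteratedDeriv b₁ (φ₁ W) (x 0) *
      iteratedDeriv b₂ (φ₂ W) (x 1) * iteratedDeriv b₃ (φ₃ W) (x 2)) := by
    funext y; simp [termD]
  rw [hsm, iteratedFDeriv_const_smul_apply (hprod.contDiffAt.of_le (by exact_mod_cast le_top)),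
    norm_smul, Real.norm_eq_abs]
  have := h123 k x
  calc |c W| * _ ≤ |c W| * _ := mul_le_mul_of_nonneg_left this (abs_nonneg _)
    _ = _ := by
      unfold termE
      ring

lemma Good.summable_term_bound (G : Good c φ₁ φ₂ φ₃ D L) (b₁ b₂ b₃ k : ℕ) :
    Summable (fun W => termE D b₁ b₂ b₃ k * (|c W| * L W ^ (k + (b₁ + b₂ + b₃)))) :=
  (G.summ _).mul_left _

theorem Good.serD_contDiff (G : Good c φ₁ φ₂ φ₃ D L) (b₁ b₂ b₃ : ℕ) :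
    ContDiff ℝ (⊤ : ℕ∞) (serD c φ₁ φ₂ φ₃ b₁ b₂ b₃) :=
  contDiff_tsum (fun W => G.term_contDiff b₁ b₂ b₃ W)
    (fun k _ => G.summable_term_bound b₁ b₂ b₃ k)
    (fun k W x _ => G.term_bound b₁ b₂ b₃ k W x)

lemma Good.summable_term (G : Good c φ₁ φ₂ φ₃ D L) (b₁ b₂ b₃ : ℕ) (x : V3) :
    Summable (fun W => termD c φ₁ φ₂ φ₃ b₁ b₂ b₃ W x) := by
  refine Summable.of_norm_bounded (G.summable_term_bound b₁ b₂ b₃ 0) (fun W => ?_)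
  have := G.term_bound b₁ b₂ b₃ 0 W x
  simpa using this

lemma Good.norm_fderiv_term_le (G : Good c φ₁ φ₂ φ₃ D L) (b₁ b₂ b₃ W : ℕ) (x : V3) :
    ‖fderiv ℝ (termD c φ₁ φ₂ φ₃ b₁ b₂ b₃ W) x‖
      ≤ termE D b₁ b₂ b₃ 1 * (|c W| * L W ^ (1 + (b₁ + b₂ + b₃))) := by
  rw [← norm_iteratedFDeriv_one]
  exact G.term_bound b₁ b₂ b₃ 1 W x

lemma Good.fderiv_serD_apply (G : Good c φ₁ φ₂ φ₃ D L) (b₁ b₂ b₃ : ℕ) (x v : V3) :
    fderiv ℝ (serD c φ₁ φ₂ φ₃ b₁ b₂ b₃) x v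
      = ∑' W, fderiv ℝ (termD c φ₁ φ₂ φ₃ b₁ b₂ b₃ W) x v := by
  have h := fderiv_tsum_apply (G.summable_term_bound b₁ b₂ b₃ 1)
    (fun W => (G.term_contDiff b₁ b₂ b₃ W).differentiable (by simp))
    (fun W x => G.norm_fderiv_term_le b₁ b₂ b₃ W x)
    (G.summable_term b₁ b₂ b₃ 0) x
  have hs : Summable (fun W => fderiv ℝ (termD c φ₁ φ₂ φ₃ b₁ b₂ b₃ W) x) :=
    Summable.of_norm_bounded (G.summable_term_bound b₁ b₂ b₃ 1)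
      (fun W => G.norm_fderiv_term_le b₁ b₂ b₃ W x)
  unfold serD
  rw [h]
  exact (ContinuousLinearMap.apply ℝ ℝ v).map_tsum hs

lemma hasDerivAt_iterDeriv {φ : ℝ → ℝ} (hφ : ContDiff ℝ (⊤ : ℕ∞) φ) (b : ℕ) (s : ℝ) :
    HasDerivAt (iteratedDeriv b φ) (iteratedDeriv (b + 1) φ s) s := by
  rw [iteratedDeriv_succ]
  have hcd : ContDiff ℝ (⊤ : ℕ∞) (iteratedDeriv b φ) := by
    rw [iteratedDeriv_eq_iterate]; exact ContDiff.iterate_deriv b hφ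
  exact (hcd.differentiable (by simp) s).hasDerivAt

lemma Good.hasFDerivAt_term (G : Good c φ₁ φ₂ φ₃ D L) (b₁ b₂ b₃ W : ℕ) (x : V3) :
    HasFDerivAt (termD c φ₁ φ₂ φ₃ b₁ b₂ b₃ W)
      ((c W) • ((iteratedDeriv b₁ (φ₁ W) (x 0) * iteratedDeriv b₂ (φ₂ W) (x 1)) •
          (iteratedDeriv (b₃ + 1) (φ₃ W) (x 2) • (ContinuousLinearMap.proj 2 : V3 →L[ℝ] ℝ)) +
        (iteratedDeriv b₃ (φ₃ W) (x 2)) •
          ((iteratedDeriv b₁ (φ₁ W) (x 0)) •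
            (iteratedDeriv (b₂ + 1) (φ₂ W) (x 1) • (ContinuousLinearMap.proj 1 : V3 →L[ℝ] ℝ)) +
          (iteratedDeriv b₂ (φ₂ W) (x 1)) •
            (iteratedDeriv (b₁ + 1) (φ₁ W) (x 0) • (ContinuousLinearMap.proj 0 : V3 →L[ℝ] ℝ))))) x := by
  have hp : ∀ j : Fin 3, HasFDerivAt (fun y : V3 => y j) (ContinuousLinearMap.proj j : V3 →L[ℝ] ℝ) x :=
    fun j => (ContinuousLinearMap.proj j : V3 →L[ℝ] ℝ).hasFDerivAt
  have h1 : HasFDerivAt (fun y : V3 => iteratedDeriv b₁ (φ₁ W) (y 0))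
      (iteratedDeriv (b₁ + 1) (φ₁ W) (x 0) • (ContinuousLinearMap.proj 0 : V3 →L[ℝ] ℝ)) x := by
    have := (hasDerivAt_iterDeriv (G.smooth₁ W) b₁ (x 0)).comp_hasFDerivAt x (hp 0)
    exact this
  have h2 : HasFDerivAt (fun y : V3 => iteratedDeriv b₂ (φ₂ W) (y 1))
      (iteratedDeriv (b₂ + 1) (φ₂ W) (x 1) • (ContinuousLinearMap.proj 1 : V3 →L[ℝ] ℝ)) x := by
    have := (hasDerivAt_iterDeriv (G.smooth₂ W) b₂ (x 1)).comp_hasFDerivAt x (hp 1)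
    exact this
  have h3 : HasFDerivAt (fun y : V3 => iteratedDeriv b₃ (φ₃ W) (y 2))
      (iteratedDeriv (b₃ + 1) (φ₃ W) (x 2) • (ContinuousLinearMap.proj 2 : V3 →L[ℝ] ℝ)) x := by
    have := (hasDerivAt_iterDeriv (G.smooth₃ W) b₃ (x 2)).comp_hasFDerivAt x (hp 2)
    exact this
  exact ((h1.mul h2).mul h3).const_mul (c W)

theorem Good.pd_zero (G : Good c φ₁ φ₂ φ₃ D L) (b₁ b₂ b₃ : ℕ) :
    pd 0 (serD c φ₁ φ₂ φ₃ b₁ b₂ b₃) = serD c φ₁ φ₂ φ₃ (b₁ + 1) b₂ b₃ := by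
  funext x
  unfold pd
  rw [G.fderiv_serD_apply]
  unfold serD
  congr 1
  funext W
  rw [(G.hasFDerivAt_term b₁ b₂ b₃ W x).fderiv]
  simp [termD, -mul_eq_mul_left_iff]
  try ring

theorem Good.pd_one (G : Good c φ₁ φ₂ φ₃ D L) (b₁ b₂ b₃ : ℕ) :
    pd 1 (serD c φ₁ φ₂ φ₃ b₁ b₂ b₃) = serD c φ₁ φ₂ φ₃ b₁ (b₂ + 1) b₃ := by
  funext x
  unfold pd
  rw [G.fderiv_serD_apply]
  unfold serD
  congr 1
  funext W
  rw [(G.hasFDerivAt_term b₁ b₂ b₃ W x).fderiv]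
  simp [termD, -mul_eq_mul_left_iff]
  try ring

theorem Good.pd_two (G : Good c φ₁ φ₂ φ₃ D L) (b₁ b₂ b₃ : ℕ) :
    pd 2 (serD c φ₁ φ₂ φ₃ b₁ b₂ b₃) = serD c φ₁ φ₂ φ₃ b₁ b₂ (b₃ + 1) := by
  funext x
  unfold pd
  rw [G.fderiv_serD_apply]
  unfold serD
  congr 1
  funext W
  rw [(G.hasFDerivAt_term b₁ b₂ b₃ W x).fderiv]
  simp [termD, -mul_eq_mul_left_iff]
  try ring

end

end Vale.Agent.P113
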