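import Vale.Agent.P113.Field

/-!
The velocity field solves the forced Navier-Stokes system; mixed derivatives of the force.
-/

open Real Set Filter Topology MeasureTheory

namespace Vale.Agent.P113

variable {g : ℕ → ℕ → ℝ}

lemma smoothTX_tp (κ : ℝ) {θ : ℝ → ℝ} (hθ : ContDiff ℝ (⊤ : ℕ∞) θ) {S : V3 → ℝ}
    (hS : ContDiff ℝ (⊤ : ℕ∞) S) : SmoothTX (fun t x => κ * θ t * S x) := by
  unfold SmoothTX
  have h1 : ContDiff ℝ (⊤ : ℕ∞) (fun q : ℝ × V3 => θ q.1) := hθ.comp contDiff_fst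
  have h2 : ContDiff ℝ (⊤ : ℕ∞) (fun q : ℝ × V3 => S q.2) := hS.comp contDiff_snd
  exact (contDiff_const.mul h1).mul h2

/-- A family of space functions stable under the three partial derivatives. -/
structure SpaceFam (S : ℕ → ℕ → ℕ → V3 → ℝ) : Prop where
  smooth : ∀ b c d, ContDiff ℝ (⊤ : ℕ∞) (S b c d)
  pd0 : ∀ b c d, pd 0 (S b c d) = S (b + 1) c d
  pd1 : ∀ b c d, pd 1 (S b c d) = S b (c + 1) d
  pd2 : ∀ b c d, pd 2 (S b c d) = S b c (d + 1)

lemma Good.spaceFam {c : ℕ → ℝ} {φ₁ φ₂ φ₃ : ℕ → ℝ → ℝ} {D L : ℕ → ℝ} (G : Good c φ₁ φ₂ φ₃ D L) :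
    SpaceFam (serD c φ₁ φ₂ φ₃) where
  smooth := G.serD_contDiff
  pd0 := G.pd_zero
  pd1 := G.pd_one
  pd2 := G.pd_two

lemma dX_tp (κ : ℝ) {θ : ℝ → ℝ} {S S' : V3 → ℝ} (j : Fin 3) (hS : Differentiable ℝ S)
    (h : pd j S = S') :
    dX j (fun t x => κ * θ t * S x) = fun t x => κ * θ t * S' x := by
  funext t x
  unfold dX
  rw [pd_const_mul _ hS, h]

lemma dT_tp (κ : ℝ) {θ θ' : ℝ → ℝ} {S : V3 → ℝ} (h : ∀ t, HasDerivAt θ (θ' t) t) :
    dT (fun t x => κ * θ t * S x) = fun t x => κ * θ' t * S x := by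
  funext t x
  unfold dT
  exact (((h t).const_mul κ).mul_const (S x)).deriv

lemma iterate_dX2 {S : ℕ → ℕ → ℕ → V3 → ℝ} (F : SpaceFam S) (κ : ℝ) (θ : ℝ → ℝ) (b c n : ℕ) :
    ∀ d, (dX 2)^[n] (fun t x => κ * θ t * S b c d x) = fun t x => κ * θ t * S b c (d + n) x := by
  induction n with
  | zero => intro d; rfl
  | succ n ih =>
    intro d
    rw [Function.iterate_succ, Function.comp,
      dX_tp κ 2 ((F.smooth b c d).differentiable (by simp)) (F.pd2 b c d), ih]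
    rw [show d + 1 + n = d + (n + 1) by omega]

lemma iterate_dX1 {S : ℕ → ℕ → ℕ → V3 → ℝ} (F : SpaceFam S) (κ : ℝ) (θ : ℝ → ℝ) (b d n : ℕ) :
    ∀ c, (dX 1)^[n] (fun t x => κ * θ t * S b c d x) = fun t x => κ * θ t * S b (c + n) d x := by
  induction n with
  | zero => intro c; rfl
  | succ n ih =>
    intro c
    rw [Function.iterate_succ, Function.comp,
      dX_tp κ 1 ((F.smooth b c d).differentiable (by simp)) (F.pd1 b c d), ih]
    rw [show c + 1 + n = c + (n + 1) by omega]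

lemma iterate_dX0 {S : ℕ → ℕ → ℕ → V3 → ℝ} (F : SpaceFam S) (κ : ℝ) (θ : ℝ → ℝ) (c d n : ℕ) :
    ∀ b, (dX 0)^[n] (fun t x => κ * θ t * S b c d x) = fun t x => κ * θ t * S (b + n) c d x := by
  induction n with
  | zero => intro b; rfl
  | succ n ih =>
    intro b
    rw [Function.iterate_succ, Function.comp,
      dX_tp κ 0 ((F.smooth b c d).differentiable (by simp)) (F.pd0 b c d), ih]
    rw [show b + 1 + n = b + (n + 1) by omega]

lemma iterate_dT {θ : ℕ → ℝ → ℝ} (hθ : ∀ j t, HasDerivAt (θ j) (θ (j + 1) t) t) (κ : ℝ) (S : V3 → ℝ)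
    (n : ℕ) :
    ∀ j, dT^[n] (fun t x => κ * θ j t * S x) = fun t x => κ * θ (j + n) t * S x := by
  induction n with
  | zero => intro j; rfl
  | succ n ih =>
    intro j
    rw [Function.iterate_succ, Function.comp, dT_tp κ (hθ j), ih]
    rw [show j + 1 + n = j + (n + 1) by omega]

/-- Mixed derivatives of a product of a time function and a space series. -/
theorem mixedDeriv_tp {S : ℕ → ℕ → ℕ → V3 → ℝ} (F : SpaceFam S) {θ : ℕ → ℝ → ℝ}
    (hθ : ∀ j t, HasDerivAt (θ j) (θ (j + 1) t) t) (κ : ℝ) (j b₀ c₀ d₀ : ℕ)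
    (α : ℕ × ℕ × ℕ × ℕ) :
    mixedDeriv α (fun t x => κ * θ j t * S b₀ c₀ d₀ x)
      = fun t x => κ * θ (j + α.1) t * S (b₀ + α.2.1) (c₀ + α.2.2.1) (d₀ + α.2.2.2) x := by
  unfold mixedDeriv
  rw [iterate_dX2 F, iterate_dX1 F, iterate_dX0 F, iterate_dT hθ]

/-- The family of the constant space function. -/
def constFam (b c d : ℕ) : V3 → ℝ := fun _ => if b = 0 ∧ c = 0 ∧ d = 0 then 1 else 0

lemma pd_const_fun (j : Fin 3) (a : ℝ) : pd j (fun _ : V3 => a) = fun _ => 0 := by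
  funext x
  unfold pd
  simp

lemma constFam_spaceFam : SpaceFam constFam where
  smooth := fun b c d => contDiff_const
  pd0 := fun b c d => by
    unfold constFam
    rw [pd_const_fun]
    simp
  pd1 := fun b c d => by
    unfold constFam
    rw [pd_const_fun]
    simp
  pd2 := fun b c d => by
    unfold constFam
    rw [pd_const_fun]
    simp

section mixed
variable (hg : FlagOK g) (ν ζ : ℝ)
include hg

theorem mixed_f0 (α : ℕ × ℕ × ℕ × ℕ) (t : ℝ) (x : V3) :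
    mixedDeriv α (fun t x => fSol ν g ζ t x 0) t x
      = (-1) * timeP 1 (1 + α.1) t * XS g α.2.1 α.2.2.1 α.2.2.2 x
        + 1 * timeP 2 α.1 t * Q1 g α.2.1 α.2.2.1 α.2.2.2 x
        + (ν * timeP 1 α.1 t * XS g α.2.1 (2 + α.2.2.1) α.2.2.2 x
          + ν * timeP 1 α.1 t * XS g α.2.1 α.2.2.1 (2 + α.2.2.2) x) := by
  have FX : SpaceFam (XS g) := (goodX hg).spaceFam
  have FQ : SpaceFam (Q1 g) := (goodQ1 hg).spaceFam
  have hP : ∀ c j t, HasDerivAt (timeP c j) (timeP c (j + 1) t) t := hasDerivAt_timeP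
  have s1 : SmoothTX (fun t x => (-1) * timeP 1 1 t * XS g 0 0 0 x) :=
    smoothTX_tp _ (contDiff_timeP _ _) (FX.smooth 0 0 0)
  have s2 : SmoothTX (fun t x => 1 * timeP 2 0 t * Q1 g 0 0 0 x) :=
    smoothTX_tp _ (contDiff_timeP _ _) (FQ.smooth 0 0 0)
  have s3 : SmoothTX (fun t x => ν * timeP 1 0 t * XS g 0 2 0 x) :=
    smoothTX_tp _ (contDiff_timeP _ _) (FX.smooth 0 2 0)
  have s4 : SmoothTX (fun t x => ν * timeP 1 0 t * XS g 0 0 2 x) :=
    smoothTX_tp _ (contDiff_timeP _ _) (FX.smooth 0 0 2)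
  have hform : (fun t x => fSol ν g ζ t x 0) =
      fun t x => ((-1) * timeP 1 1 t * XS g 0 0 0 x + 1 * timeP 2 0 t * Q1 g 0 0 0 x)
        + (ν * timeP 1 0 t * XS g 0 2 0 x + ν * timeP 1 0 t * XS g 0 0 2 x) := by
    funext t x
    simp [fSol]
  rw [hform, mixedDeriv_add α (s1.add s2) (s3.add s4), mixedDeriv_add α s1 s2, mixedDeriv_add α s3 s4]
  beta_reduce
  rw [mixedDeriv_tp FX (hP 1) (-1) 1 0 0 0 α, mixedDeriv_tp FQ (hP 2) 1 0 0 0 0 α,
    mixedDeriv_tp FX (hP 1) ν 0 0 2 0 α, mixedDeriv_tp FX (hP 1) ν 0 0 0 2 α]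
  simp only [zero_add]

theorem mixed_f1 (α : ℕ × ℕ × ℕ × ℕ) (t : ℝ) (x : V3) :
    mixedDeriv α (fun t x => fSol ν g ζ t x 1) t x
      = (-1) * timeP 1 (1 + α.1) t * YS g α.2.1 α.2.2.1 α.2.2.2 x
        + 1 * timeP 2 α.1 t * Q2 g α.2.1 α.2.2.1 α.2.2.2 x
        + (ν * timeP 1 α.1 t * YS g (2 + α.2.1) α.2.2.1 α.2.2.2 x
          + ν * timeP 1 α.1 t * YS g α.2.1 α.2.2.1 (2 + α.2.2.2) x) := by
  have FX : SpaceFam (YS g) := (goodY hg).spaceFam
  have FQ : SpaceFam (Q2 g) := (goodQ2 hg).spaceFam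
  have hP : ∀ c j t, HasDerivAt (timeP c j) (timeP c (j + 1) t) t := hasDerivAt_timeP
  have s1 : SmoothTX (fun t x => (-1) * timeP 1 1 t * YS g 0 0 0 x) :=
    smoothTX_tp _ (contDiff_timeP _ _) (FX.smooth 0 0 0)
  have s2 : SmoothTX (fun t x => 1 * timeP 2 0 t * Q2 g 0 0 0 x) :=
    smoothTX_tp _ (contDiff_timeP _ _) (FQ.smooth 0 0 0)
  have s3 : SmoothTX (fun t x => ν * timeP 1 0 t * YS g 2 0 0 x) :=
    smoothTX_tp _ (contDiff_timeP _ _) (FX.smooth 2 0 0)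
  have s4 : SmoothTX (fun t x => ν * timeP 1 0 t * YS g 0 0 2 x) :=
    smoothTX_tp _ (contDiff_timeP _ _) (FX.smooth 0 0 2)
  have hform : (fun t x => fSol ν g ζ t x 1) =
      fun t x => ((-1) * timeP 1 1 t * YS g 0 0 0 x + 1 * timeP 2 0 t * Q2 g 0 0 0 x)
        + (ν * timeP 1 0 t * YS g 2 0 0 x + ν * timeP 1 0 t * YS g 0 0 2 x) := by
    funext t x
    simp [fSol]
  rw [hform, mixedDeriv_add α (s1.add s2) (s3.add s4), mixedDeriv_add α s1 s2, mixedDeriv_add α s3 s4]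
  beta_reduce
  rw [mixedDeriv_tp FX (hP 1) (-1) 1 0 0 0 α, mixedDeriv_tp FQ (hP 2) 1 0 0 0 0 α,
    mixedDeriv_tp FX (hP 1) ν 0 2 0 0 α, mixedDeriv_tp FX (hP 1) ν 0 0 0 2 α]
  simp only [zero_add]

omit hg in
theorem mixed_f2 (α : ℕ × ℕ × ℕ × ℕ) (t : ℝ) (x : V3) :
    mixedDeriv α (fun t x => fSol ν g ζ t x 2) t x
      = ζ * timeV (1 + α.1) t * constFam α.2.1 α.2.2.1 α.2.2.2 x := by
  have hform : (fun t x => fSol ν g ζ t x 2) = fun t x => ζ * timeV 1 t * constFam 0 0 0 x := by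
    funext t x
    simp [fSol, constFam]
    ring
  rw [hform, mixedDeriv_tp constFam_spaceFam hasDerivAt_timeV ζ 1 0 0 0 α]
  simp only [zero_add]

end mixed

/-! ### smoothness and the equations -/

section eqs
variable (hg : FlagOK g) (ν ζ : ℝ)
include hg

lemma smooth_u0 : SmoothTX (fun t x => uSol g ζ t x 0) := by
  have h := smoothTX_tp (-1) (contDiff_timeP 1 0) ((goodX hg).serD_contDiff 0 0 0)
  convert h using 3
  simp [uSol, XS]

lemma smooth_u1 : SmoothTX (fun t x => uSol g ζ t x 1) := by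
  have h := smoothTX_tp (-1) (contDiff_timeP 1 0) ((goodY hg).serD_contDiff 0 0 0)
  convert h using 3
  simp [uSol, YS]

omit hg in
lemma smooth_u2 : SmoothTX (fun t x => uSol g ζ t x 2) := by
  have h := smoothTX_tp (ζ) (contDiff_timeV 0) (contDiff_const (c := (1 : ℝ)))
  convert h using 3
  simp [uSol]
  ring

lemma smooth_u (i : Fin 3) : SmoothTX (fun t x => uSol g ζ t x i) := by
  fin_cases i
  · exact smooth_u0 hg ζ
  · exact smooth_u1 hg ζ
  · exact smooth_u2 ζ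

lemma smooth_f (i : Fin 3) : SmoothTX (fun t x => fSol ν g ζ t x i) := by
  have FX := goodX hg
  have FY := goodY hg
  have FQ1 := goodQ1 hg
  have FQ2 := goodQ2 hg
  fin_cases i
  · have s1 : SmoothTX (fun t x => (-1) * timeP 1 1 t * XS g 0 0 0 x) :=
      smoothTX_tp _ (contDiff_timeP _ _) (FX.serD_contDiff 0 0 0)
    have s2 : SmoothTX (fun t x => 1 * timeP 2 0 t * Q1 g 0 0 0 x) :=
      smoothTX_tp _ (contDiff_timeP _ _) (FQ1.serD_contDiff 0 0 0)
    have s3 : SmoothTX (fun t x => ν * timeP 1 0 t * XS g 0 2 0 x) :=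
      smoothTX_tp _ (contDiff_timeP _ _) (FX.serD_contDiff 0 2 0)
    have s4 : SmoothTX (fun t x => ν * timeP 1 0 t * XS g 0 0 2 x) :=
      smoothTX_tp _ (contDiff_timeP _ _) (FX.serD_contDiff 0 0 2)
    have := (s1.add s2).add (s3.add s4)
    convert this using 3
    simp [fSol]
  · have s1 : SmoothTX (fun t x => (-1) * timeP 1 1 t * YS g 0 0 0 x) :=
      smoothTX_tp _ (contDiff_timeP _ _) (FY.serD_contDiff 0 0 0)
    have s2 : SmoothTX (fun t x => 1 * timeP 2 0 t * Q2 g 0 0 0 x) :=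
      smoothTX_tp _ (contDiff_timeP _ _) (FQ2.serD_contDiff 0 0 0)
    have s3 : SmoothTX (fun t x => ν * timeP 1 0 t * YS g 2 0 0 x) :=
      smoothTX_tp _ (contDiff_timeP _ _) (FY.serD_contDiff 2 0 0)
    have s4 : SmoothTX (fun t x => ν * timeP 1 0 t * YS g 0 0 2 x) :=
      smoothTX_tp _ (contDiff_timeP _ _) (FY.serD_contDiff 0 0 2)
    have := (s1.add s2).add (s3.add s4)
    convert this using 3
    simp [fSol]
  · have h := smoothTX_tp (ζ) (contDiff_timeV 1) (contDiff_const (c := (1 : ℝ)))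
    convert h using 3
    simp [fSol]
    ring

end eqs

end Vale.Agent.P113
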