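import Vale.Agent.P113.RatOps

/-!
Rational approximation of the exponential, and terms `R * exp (-E)` with rational data.
-/

open Real

namespace Vale.Agent.P113

/-- Comparison of `exp (-E)` with `(1 - E / N) ^ N`. -/
lemma exp_pow_approx {E : ℝ} {N : ℕ} (hE : 0 ≤ E) (hN : E < N) :
    0 ≤ exp (-E) - (1 - E / N) ^ N ∧ exp (-E) - (1 - E / N) ^ N ≤ E ^ 2 / N := by
  have hNpos : (0 : ℝ) < N := lt_of_le_of_lt hE hN
  set u := E / N with hu
  have hu0 : 0 ≤ u := div_nonneg hE hNpos.le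
  have hu1 : u < 1 := by rw [hu, div_lt_one hNpos]; exact hN
  have hE' : E = u * N := by rw [hu]; field_simp
  have hexp : exp (-E) = exp (-u) ^ N := by
    rw [← Real.exp_nat_mul, hE']
    congr 1
    ring
  have h1 : (1 - u) ^ N ≤ exp (-u) ^ N :=
    pow_le_pow_left₀ (by linarith) (Real.one_sub_le_exp_neg u) N
  have h2 : exp (-u) * (1 + u) ≤ 1 := by
    have h3 : 1 + u ≤ exp u := by linarith [Real.add_one_le_exp u]
    have h4 : exp (-u) * exp u = 1 := by rw [← Real.exp_add]; simp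
    have := mul_le_mul_of_nonneg_left h3 (Real.exp_pos (-u)).le
    linarith
  have h5 : exp (-u) * (1 - u ^ 2) ≤ 1 - u := by
    have : exp (-u) * (1 - u ^ 2) = (exp (-u) * (1 + u)) * (1 - u) := by ring
    rw [this]
    have := mul_le_mul_of_nonneg_right h2 (show 0 ≤ 1 - u by linarith)
    linarith
  have h6 : 0 ≤ 1 - u ^ 2 := by nlinarith
  have h7 : (exp (-u) * (1 - u ^ 2)) ^ N ≤ (1 - u) ^ N :=
    pow_le_pow_left₀ (mul_nonneg (Real.exp_pos _).le h6) h5 N
  rw [mul_pow] at h7
  have h8 : 1 + (N : ℝ) * (-(u ^ 2)) ≤ (1 + (-(u ^ 2))) ^ N :=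
    one_add_mul_le_pow (by nlinarith) N
  have h9 : (1 + (-(u ^ 2))) = 1 - u ^ 2 := by ring
  rw [h9] at h8
  have hexp0 : 0 < exp (-u) ^ N := pow_pos (Real.exp_pos _) N
  have hexp1 : exp (-u) ^ N ≤ 1 := pow_le_one₀ (Real.exp_pos _).le
    (Real.exp_le_one_iff.mpr (by linarith))
  have h10 : (N : ℝ) * u ^ 2 = E ^ 2 / N := by
    rw [hu]
    field_simp
  rw [hexp]
  constructor
  · linarith
  · have h11 : exp (-u) ^ N * (1 + (N : ℝ) * (-(u ^ 2))) ≤ exp (-u) ^ N * (1 - u ^ 2) ^ N :=
      mul_le_mul_of_nonneg_left h8 hexp0.le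
    have h12 : 0 ≤ (N : ℝ) * u ^ 2 := by positivity
    have h13 : exp (-u) ^ N * ((N : ℝ) * u ^ 2) ≤ 1 * ((N : ℝ) * u ^ 2) :=
      mul_le_mul_of_nonneg_right hexp1 h12
    rw [← h10]
    nlinarith

/-- The number of factors used to approximate `exp (-E)`. -/
def qExpN (E : RatCode) (p : ℕ) : ℕ :=
  (E.1 - E.2.1) * (E.1 - E.2.1) * (p + 1) + (E.1 - E.2.1) + 1

/-- A rational approximation of `exp (-E)` within `1 / (p + 1)`, for `E ≥ 0`. -/
def qExp (E : RatCode) (p : ℕ) : RatCode :=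
  ((qExpN E p * (E.2.2 + 1) - (E.1 - E.2.1)) ^ qExpN E p, 0, (qExpN E p * (E.2.2 + 1)) ^ qExpN E p - 1)

theorem abs_exp_sub_qExp {E : RatCode} (hE : 0 ≤ ratVal E) (p : ℕ) :
    |exp (-(ratVal E)) - ratVal (qExp E p)| ≤ 1 / ((p : ℝ) + 1) := by
  have hd := den_pos E
  have hle : E.2.1 ≤ E.1 := by
    unfold ratVal at hE
    have h1 : (0 : ℝ) ≤ (E.1 : ℝ) - E.2.1 := by
      by_contra hh
      push Not at hh
      have := div_neg_of_neg_of_pos hh hd
      linarith
    have h2 : (E.2.1 : ℝ) ≤ E.1 := by linarith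
    exact_mod_cast h2
  set e : ℕ := E.1 - E.2.1 with he
  set N : ℕ := qExpN E p with hN
  have hNe : N = e * e * (p + 1) + e + 1 := rfl
  set d : ℕ := E.2.2 + 1 with hdd
  have hdpos : 0 < d := Nat.succ_pos _
  have hde : (d : ℝ) = (E.2.2 : ℝ) + 1 := by rw [hdd]; push_cast; ring
  have hEval : ratVal E = (e : ℝ) / d := by
    unfold ratVal
    rw [he, Nat.cast_sub hle, hde]
  have hdr : (1 : ℝ) ≤ d := by exact_mod_cast hdpos
  have hEle : ratVal E ≤ e := by
    rw [hEval]
    exact div_le_self (Nat.cast_nonneg _) hdr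
  have hNposN : 0 < N := by omega
  have hNpos : (0 : ℝ) < N := by exact_mod_cast hNposN
  have heN : (e : ℝ) + 1 ≤ N := by
    have : e + 1 ≤ N := by omega
    exact_mod_cast this
  have hEN : ratVal E < N := by linarith
  have hval : ratVal (qExp E p) = (1 - ratVal E / N) ^ N := by
    have hsub : ((N * d - e : ℕ) : ℝ) = (N : ℝ) * d - e := by
      have hle2 : e ≤ N * d := by
        have h1 : e ≤ N := by omega
        have h2 : N ≤ N * d := Nat.le_mul_of_pos_right N hdpos
        omega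
      rw [Nat.cast_sub hle2]
      push_cast
      ring
    have hden : (((N * d) ^ N - 1 : ℕ) : ℝ) + 1 = ((N : ℝ) * d) ^ N := by
      have h1 : 1 ≤ (N * d) ^ N := Nat.one_le_pow _ _ (Nat.mul_pos hNposN hdpos)
      rw [Nat.cast_sub h1]
      push_cast
      ring
    have hdne : (d : ℝ) ≠ 0 := by positivity
    have hNne : (N : ℝ) ≠ 0 := hNpos.ne'
    rw [hEval]
    simp only [ratVal, qExp]
    rw [← hN, ← hdd, hden]
    simp only [Nat.cast_zero, sub_zero, Nat.cast_pow]
    rw [hsub, ← div_pow]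
    congr 1
    field_simp
  obtain ⟨h1, h2⟩ := exp_pow_approx hE hEN
  rw [hval, abs_of_nonneg h1]
  refine le_trans h2 ?_
  have hp : (0 : ℝ) < (p : ℝ) + 1 := by positivity
  rw [div_le_div_iff₀ hNpos hp, one_mul]
  have h3 : ratVal E ^ 2 ≤ (e : ℝ) ^ 2 := pow_le_pow_left₀ hE hEle 2
  have h4 : ((e : ℝ) ^ 2) * ((p : ℝ) + 1) ≤ N := by
    rw [hNe]
    push_cast
    have : (0 : ℝ) ≤ e := Nat.cast_nonneg e
    nlinarith
  nlinarith

/-! ### terms -/

/-- A term `R * exp (-E)`, stored as the pair `(R, E)`. -/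
abbrev Term := RatCode × RatCode

/-- The value of a term. -/
noncomputable def termVal (T : Term) : ℝ := ratVal T.1 * exp (-(ratVal T.2))

/-- The term `T` has exponent `≥ 0` and value `v`. -/
def Rep (T : Term) (v : ℝ) : Prop := 0 ≤ ratVal T.2 ∧ v = termVal T

/-- The zero term. -/
def tZero : Term := (qZero, qZero)

/-- A rational number as a term. -/
def tOfQ (r : RatCode) : Term := (r, qZero)

/-- Product of terms. -/
def tMul (S T : Term) : Term := (qMul S.1 T.1, qAdd S.2 T.2)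

/-- Multiplying a term by a rational number. -/
def tScale (r : RatCode) (T : Term) : Term := (qMul r T.1, T.2)

lemma rep_tZero : Rep tZero 0 := by
  simp [Rep, tZero, termVal]

lemma rep_tOfQ (r : RatCode) : Rep (tOfQ r) (ratVal r) := by
  simp [Rep, tOfQ, termVal]

lemma Rep.mul {S T : Term} {a b : ℝ} (hS : Rep S a) (hT : Rep T b) : Rep (tMul S T) (a * b) := by
  refine ⟨?_, ?_⟩
  · simp only [tMul, ratVal_qAdd]
    exact add_nonneg hS.1 hT.1
  · rw [hS.2, hT.2]
    simp only [termVal, tMul, ratVal_qAdd, ratVal_qMul]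
    rw [neg_add, Real.exp_add]
    ring

lemma Rep.scale {T : Term} {b : ℝ} (r : RatCode) (hT : Rep T b) :
    Rep (tScale r T) (ratVal r * b) := by
  refine ⟨hT.1, ?_⟩
  rw [hT.2]
  simp only [termVal, tScale, ratVal_qMul]
  ring

/-- The size bound of a term. -/
def tBd (T : Term) : ℕ := qBd T.1

lemma Rep.abs_le {T : Term} {v : ℝ} (h : Rep T v) : |v| ≤ tBd T := by
  rw [h.2]
  unfold termVal tBd
  rw [abs_mul, abs_of_pos (Real.exp_pos _)]
  have h1 : exp (-(ratVal T.2)) ≤ 1 := Real.exp_le_one_iff.mpr (by linarith [h.1])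
  have h2 := abs_ratVal_le T.1
  have h3 := abs_nonneg (ratVal T.1)
  have h4 := Real.exp_pos (-(ratVal T.2))
  nlinarith

/-- A rational approximation of a term within `1 / (p + 1)`. -/
def tApprox (T : Term) (p : ℕ) : RatCode :=
  qMul T.1 (qExp T.2 ((p + 1) * (tBd T + 1) - 1))

theorem abs_sub_tApprox {T : Term} {v : ℝ} (h : Rep T v) (p : ℕ) :
    |v - ratVal (tApprox T p)| ≤ 1 / ((p : ℝ) + 1) := by
  rw [h.2]
  unfold termVal tApprox
  rw [ratVal_qMul, ← mul_sub, abs_mul]
  have h0 : 1 ≤ (p + 1) * (tBd T + 1) := Nat.mul_pos (Nat.succ_pos _) (Nat.succ_pos _)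
  have hcast : (((p + 1) * (tBd T + 1) - 1 : ℕ) : ℝ) + 1 = ((p : ℝ) + 1) * ((tBd T : ℝ) + 1) := by
    rw [Nat.cast_sub h0]
    push_cast
    ring
  have h1 := abs_exp_sub_qExp h.1 ((p + 1) * (tBd T + 1) - 1)
  rw [hcast] at h1
  have h2 : |ratVal T.1| ≤ tBd T := abs_ratVal_le T.1
  have hB : (0 : ℝ) ≤ tBd T := Nat.cast_nonneg _
  have hp : (0 : ℝ) < (p : ℝ) + 1 := by positivity
  calc |ratVal T.1| * _ ≤ (tBd T : ℝ) * (1 / (((p : ℝ) + 1) * ((tBd T : ℝ) + 1))) :=
        mul_le_mul h2 h1 (abs_nonneg _) hB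
    _ ≤ 1 / ((p : ℝ) + 1) := by
        rw [mul_one_div, div_le_div_iff₀ (by positivity) hp, one_mul]
        nlinarith

/-! ### primitive recursiveness -/

lemma primrec_qExpN : Primrec₂ qExpN := by
  show Primrec fun p : RatCode × ℕ => qExpN p.1 p.2
  unfold qExpN
  repeat' first
    | with_reducible exact Primrec.fst | with_reducible exact Primrec.snd
    | with_reducible exact Primrec.const _
    | with_reducible refine Primrec.fst.comp ?_ | with_reducible refine Primrec.snd.comp ?_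
    | with_reducible refine Primrec.pair ?_ ?_
    | with_reducible refine Primrec.nat_add.comp ?_ ?_ | with_reducible refine Primrec.nat_mul.comp ?_ ?_
    | with_reducible refine Primrec.nat_sub.comp ?_ ?_

lemma primrec_qExp : Primrec₂ qExp := by
  show Primrec fun p : RatCode × ℕ => qExp p.1 p.2
  unfold qExp
  have hN : Primrec fun p : RatCode × ℕ => qExpN p.1 p.2 := primrec_qExpN
  repeat' first
    | with_reducible exact hN
    | with_reducible exact Primrec.fst | with_reducible exact Primrec.snd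
    | with_reducible exact Primrec.const _
    | with_reducible refine Primrec.fst.comp ?_ | with_reducible refine Primrec.snd.comp ?_
    | with_reducible refine Primrec.pair ?_ ?_
    | with_reducible refine primrec_nat_pow.comp ?_ ?_
    | with_reducible refine Primrec.nat_add.comp ?_ ?_ | with_reducible refine Primrec.nat_mul.comp ?_ ?_
    | with_reducible refine Primrec.nat_sub.comp ?_ ?_

lemma primrec_tOfQ : Primrec tOfQ := Primrec.id.pair (Primrec.const qZero)

lemma primrec_tMul : Primrec₂ tMul :=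
  (primrec_qMul.comp (Primrec.fst.comp Primrec.fst) (Primrec.fst.comp Primrec.snd)).pair
    (primrec_qAdd.comp (Primrec.snd.comp Primrec.fst) (Primrec.snd.comp Primrec.snd))

lemma primrec_tScale : Primrec₂ tScale :=
  (primrec_qMul.comp Primrec.fst (Primrec.fst.comp Primrec.snd)).pair (Primrec.snd.comp Primrec.snd)

lemma primrec_tBd : Primrec tBd := primrec_qBd.comp Primrec.fst

lemma primrec_tApprox : Primrec₂ tApprox := by
  show Primrec fun p : Term × ℕ => tApprox p.1 p.2
  unfold tApprox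
  have hb : Primrec fun p : Term × ℕ => tBd p.1 := primrec_tBd.comp Primrec.fst
  refine primrec_qMul.comp (Primrec.fst.comp Primrec.fst) ?_
  refine primrec_qExp.comp (Primrec.snd.comp Primrec.fst) ?_
  refine Primrec.nat_sub.comp ?_ (Primrec.const 1)
  exact Primrec.nat_mul.comp (Primrec.succ.comp Primrec.snd) (Primrec.succ.comp hb)

end Vale.Agent.P113
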